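import Vale.Agent.P057T.Loc.Defs
import Vale.Agent.P057T.PoiH52

/-! Row BOHR: duality for Bohr sets. -/

set_option linter.all false

open Finset Matrix
open scoped BigOperators Real

namespace Vale.Agent.P057T.Loc

open Vale.Agent.P057Z Vale.Agent.P057L Vale.Agent.P057T.Gkh Vale.Agent.P267.H775
open Vale.Agent.P057T.Poi

noncomputable section

namespace BoH46

theorem nz_le (x : ℝ) (n : ℤ) : nz x ≤ |x - n| := round_le x n

theorem cos_ge (x : ℝ) (h : nz x ≤ 1 / 10) : 1 / 2 ≤ Real.cos (2 * π * x) := by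
  have h1 : Real.cos (2 * π * x) = Real.cos (2 * π * (x - round x)) := by
    rw [← Real.cos_add_int_mul_two_pi (2 * π * (x - round x)) (round x)]
    congr 1
    ring
  rw [h1]
  refine le_trans ?_ Real.one_sub_sq_div_two_le_cos
  have h2 : (x - round x) ^ 2 ≤ (1 / 10) ^ 2 := by
    rw [← sq_abs]
    exact pow_le_pow_left₀ (abs_nonneg _) h 2
  have h3 : π ^ 2 ≤ 4 ^ 2 := pow_le_pow_left₀ Real.pi_pos.le Real.pi_le_four 2
  have h4 : π ^ 2 * (x - round x) ^ 2 ≤ 4 ^ 2 * (1 / 10) ^ 2 :=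
    mul_le_mul h3 h2 (sq_nonneg _) (by norm_num)
  nlinarith

theorem re_ec {ι : Type} [Fintype ι] [DecidableEq ι] (θ x : ι → ℝ) :
    (ec θ x).re = Real.cos (2 * π * ∑ i, θ i * x i) := by
  unfold ec
  rw [← Complex.exp_ofReal_mul_I_re]
  congr 2
  push_cast
  ring

/-- a twisted sum whose phases are small on a ball has a resonant dual vector -/
theorem res {ι : Type} [Fintype ι] [DecidableEq ι] {M : Matrix ι ι ℝ} (hM : M.det ≠ 0)
    (θ : ι → ℝ) {K : ℝ} (hK : Real.exp (-(3 / 4 * π * K)) * 2 ^ Fintype.card ι ≤ 1 / 8)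
    (h : ∀ n : ι → ℤ, qf M (toR n) < K → nz (∑ i, θ i * toR n i) ≤ 1 / 10) :
    ∃ k : ι → ℤ, qf (M⁻¹)ᵀ (-θ + toR k) < K := by
  refine exists_res hM θ 0 (δ := 1 / 4) ?_ (hK.trans_lt (by norm_num))
  refine le_trans ?_ (Complex.re_le_norm _)
  rw [Complex.re_tsum (summable_gt hM θ 0)]
  have hs := summable_gq hM 0
  have ht : Summable fun n : ι → ℤ =>
      (if K ≤ qf M (0 + toR n) then gq M (0 + toR n) else 0) := by
    refine Summable.of_nonneg_of_le (fun n => ?_) (fun n => ?_) hs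
    · split_ifs
      · exact (gq_pos _ _).le
      · exact le_rfl
    · split_ifs
      · exact le_rfl
      · exact (gq_pos _ _).le
  have hr : Summable fun n : ι → ℤ => ((gq M (0 + toR n) : ℂ) * ec θ (0 + toR n)).re :=
    (Complex.reCLM.summable (summable_gt hM θ 0))
  have hle : ∀ n : ι → ℤ, 1 / 2 * gq M (0 + toR n) -
      2 * (if K ≤ qf M (0 + toR n) then gq M (0 + toR n) else 0) ≤
      ((gq M (0 + toR n) : ℂ) * ec θ (0 + toR n)).re := by
    intro n
    rw [Complex.re_ofReal_mul, re_ec]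
    have h0 := gq_pos M (0 + toR n)
    split_ifs with hn
    · have := Real.neg_one_le_cos (2 * π * ∑ i, θ i * (0 + toR n) i)
      nlinarith
    · rw [zero_add] at hn h0 ⊢
      have := cos_ge _ (h n (not_le.1 hn))
      nlinarith
  have h1 := ((hs.mul_left (1 / 2)).sub (ht.mul_left 2)).tsum_le_tsum hle hr
  rw [(hs.mul_left (1 / 2)).tsum_sub (ht.mul_left 2), tsum_mul_left, tsum_mul_left] at h1
  have h2 := tail_le hM 0 K
  have h3 : Real.exp (-(3 / 4 * π * K)) * 2 ^ Fintype.card ι * th M 0 ≤ 1 / 8 * th M 0 :=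
    mul_le_mul_of_nonneg_right hK (th_pos hM 0).le
  have h4 : th M 0 = ∑' n : ι → ℤ, gq M (0 + toR n) := rfl
  linarith

variable {q : ℕ} {κ : Type} [Fintype κ] [DecidableEq κ]

/-- the matrix of the Bohr lattice -/
def mt (a b : ℝ) (Ψ : κ → Fin q → ℝ) : Matrix (Fin q ⊕ κ) (Fin q ⊕ κ) ℝ :=
  fromBlocks (diagonal fun _ => a) 0 (of fun r l => b * Ψ r l) (diagonal fun _ => -b)

theorem mt_det {a b : ℝ} (ha : 0 < a) (hb : 0 < b) (Ψ : κ → Fin q → ℝ) : (mt a b Ψ).det ≠ 0 := by
  unfold mt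
  rw [det_fromBlocks_zero₁₂, det_diagonal, det_diagonal]
  exact mul_ne_zero (Finset.prod_ne_zero_iff.2 fun _ _ => ha.ne')
    (Finset.prod_ne_zero_iff.2 fun _ _ => neg_ne_zero.2 hb.ne')

theorem mt_qf (a b : ℝ) (Ψ : κ → Fin q → ℝ) (x : Fin q ⊕ κ → ℝ) :
    qf (mt a b Ψ) x = ∑ l, (a * x (Sum.inl l)) ^ 2 +
      ∑ r, (b * (∑ l, Ψ r l * x (Sum.inl l) - x (Sum.inr r))) ^ 2 := by
  unfold qf mt
  rw [fromBlocks_mulVec, Fintype.sum_sum_type]
  congr 1
  · refine Finset.sum_congr rfl fun l _ => ?_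
    simp [mulVec_diagonal]
  · refine Finset.sum_congr rfl fun r _ => ?_
    simp only [Sum.elim_inr, Pi.add_apply, mulVec_diagonal, Function.comp]
    congr 1
    simp only [mulVec, dotProduct, of_apply, Function.comp, mul_sub, Finset.mul_sum, mul_assoc]
    ring

theorem abs_le_of {u T c : ℝ} (hT : 0 ≤ T) (hc : 0 < c) (h : (T / c * u) ^ 2 < T ^ 2) :
    |u| ≤ c := by
  have h1 := abs_lt_of_sq_lt_sq h hT
  have hT0 : 0 < T := lt_of_le_of_lt (abs_nonneg _) h1
  rw [abs_mul, abs_of_pos (div_pos hT0 hc), div_mul_eq_mul_div, div_lt_iff₀ hc] at h1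
  exact (lt_of_mul_lt_mul_left h1 hT).le

end BoH46

open BoH46 in
theorem bohr : BOHR := by
  refine ⟨3, fun Y q N κ _ Ψ ξ hS hκ h => ?_⟩
  classical
  have hY : (3 : ℝ) ≤ Y := by exact_mod_cast hS.C1
  have hY3 : 9 * Y ≤ Y ^ 3 := by nlinarith [mul_nonneg (sub_nonneg.2 hY) (sub_nonneg.2 hY)]
  have hN : (0 : ℝ) < N := by
    rcases Nat.eq_zero_or_pos N with h0 | h0
    · have := hS.lg
      rw [h0, Nat.cast_zero, Real.log_zero] at this
      linarith
    · exact_mod_cast h0
  set T : ℝ := 2 * Y + 3 with hT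
  have hT1 : 1 ≤ T := by linarith
  have hδ : 0 < Real.exp (-Y) := Real.exp_pos _
  have ha : 0 < T / (Real.exp (-Y) * N) := by positivity
  have hb : 0 < T / Real.exp (-Y) := by positivity
  have hM := mt_det ha hb Ψ
  have hK : Real.exp (-(3 / 4 * π * T ^ 2)) * 2 ^ Fintype.card (Fin q ⊕ κ) ≤ 1 / 8 := by
    have h1 : (2 : ℝ) ^ Fintype.card (Fin q ⊕ κ) ≤ Real.exp (2 * Y) := by
      have h2 : (2 : ℝ) ≤ Real.exp 1 := by
        have := Real.add_one_le_exp 1
        linarith
      refine (pow_le_pow_left₀ (by norm_num) h2 _).trans ?_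
      rw [← Real.exp_nat_mul, Real.exp_le_exp, Fintype.card_sum, Fintype.card_fin]
      push_cast
      have := hS.qY
      linarith
    have h3 : Real.exp (-(3 / 4 * π * T ^ 2)) ≤ Real.exp (-(2 * Y + 7)) := by
      rw [Real.exp_le_exp]
      have := Real.pi_gt_three
      have h5 : T ≤ T ^ 2 := by nlinarith
      nlinarith
    have h4 : Real.exp (-(2 * Y + 7)) * Real.exp (2 * Y) ≤ 1 / 8 := by
      rw [← Real.exp_add, show -(2 * Y + 7) + 2 * Y = -7 by ring, Real.exp_neg, one_div]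
      have := Real.add_one_le_exp 7
      exact inv_anti₀ (by norm_num) (by linarith)
    exact (mul_le_mul h3 h1 (by positivity) (Real.exp_pos _).le).trans h4
  obtain ⟨k, hk⟩ := res hM (Sum.elim ξ 0) hK (fun n hn => by
    rw [mt_qf] at hn
    have e1 : ∑ i, Sum.elim ξ (0 : κ → ℝ) i * toR n i = dt ξ fun l => n (Sum.inl l) := by
      rw [Fintype.sum_sum_type]
      simp [dt, toR]
    rw [e1]
    have p1 : 0 ≤ ∑ l, (T / (Real.exp (-Y) * N) * toR n (Sum.inl l)) ^ 2 :=
      Finset.sum_nonneg fun _ _ => sq_nonneg _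
    have p2 : 0 ≤ ∑ r, (T / Real.exp (-Y) *
        (∑ l, Ψ r l * toR n (Sum.inl l) - toR n (Sum.inr r))) ^ 2 :=
      Finset.sum_nonneg fun _ _ => sq_nonneg _
    refine h _ (fun l => ?_) (fun r => ?_)
    · have h1 := Finset.single_le_sum (f := fun l =>
        (T / (Real.exp (-Y) * N) * toR n (Sum.inl l)) ^ 2) (fun _ _ => sq_nonneg _)
        (Finset.mem_univ l)
      exact abs_le_of (by linarith) (by positivity) (u := toR n (Sum.inl l)) (T := T)
        (by linarith)
    · have h1 := Finset.single_le_sum (f := fun r => (T / Real.exp (-Y) *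
        (∑ l, Ψ r l * toR n (Sum.inl l) - toR n (Sum.inr r))) ^ 2) (fun _ _ => sq_nonneg _)
        (Finset.mem_univ r)
      refine (nz_le _ (n (Sum.inr r))).trans ?_
      exact abs_le_of (by linarith) hδ
        (u := ∑ l, Ψ r l * toR n (Sum.inl l) - toR n (Sum.inr r)) (T := T) (by linarith))
  have hE : T * (T / Real.exp (-Y)) ≤ Real.exp (Y ^ 3) := by
    have h1 : T ≤ Real.exp (3 * Y) := by
      have := Real.add_one_le_exp (3 * Y)
      linarith
    have h2 : T / Real.exp (-Y) = T * Real.exp Y := by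
      rw [Real.exp_neg, div_inv_eq_mul]
    rw [h2]
    calc T * (T * Real.exp Y) ≤ Real.exp (3 * Y) * (Real.exp (3 * Y) * Real.exp Y) := by
          gcongr
      _ = Real.exp (7 * Y) := by
          rw [← Real.exp_add, ← Real.exp_add]
          congr 1
          ring
      _ ≤ _ := Real.exp_le_exp.2 (by linarith)
  have key : ∀ (x : Fin q ⊕ κ → ℝ) (c : ℝ), 0 ≤ c →
      qf (mt (T / (Real.exp (-Y) * N)) (T / Real.exp (-Y)) Ψ) x = c ^ 2 →
      |∑ i, (-Sum.elim ξ (0 : κ → ℝ) + toR k) i * x i| ≤ T * c := by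
    intro x c hc hx
    have h1 := dot_sq_le hM (-Sum.elim ξ (0 : κ → ℝ) + toR k) x
    rw [hx] at h1
    refine abs_le_of_sq_le_sq' ?_ (by positivity) |> abs_le.2
    rw [mul_pow]
    exact h1.trans (mul_le_mul_of_nonneg_right hk.le (sq_nonneg _))
  refine ⟨fun r => k (Sum.inr r), fun r => ?_, fun l => ?_⟩
  · have h1 := key (Sum.elim 0 (Pi.single r 1)) _ hb.le (by
      rw [mt_qf]
      simp only [Sum.elim_inl, Sum.elim_inr, Pi.zero_apply, mul_zero, Finset.sum_const_zero,
        zero_sub, ne_eq, OfNat.ofNat_ne_zero, not_false_eq_true, zero_pow, zero_add]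
      rw [Finset.sum_eq_single r]
      · simp
      · intro c _ hc
        simp [Pi.single_eq_of_ne hc]
      · intro h0
        exact absurd (Finset.mem_univ r) h0)
    rw [Fintype.sum_sum_type] at h1
    simp only [Sum.elim_inl, Sum.elim_inr, Pi.zero_apply, mul_zero, Finset.sum_const_zero,
      zero_add, Pi.add_apply, Pi.neg_apply, neg_zero, Pi.single_apply, mul_ite, mul_one,
      Finset.sum_ite_eq', Finset.mem_univ, if_true] at h1
    exact h1.trans hE
  · have h1 := key (Sum.elim (Pi.single l 1) fun r => Ψ r l) _ ha.le (by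
      rw [mt_qf]
      simp only [Sum.elim_inl, Sum.elim_inr, Pi.single_apply, mul_ite, mul_one, mul_zero,
        Finset.sum_ite_eq', Finset.mem_univ, if_true, sub_self, ne_eq, OfNat.ofNat_ne_zero,
        not_false_eq_true, zero_pow, Finset.sum_const_zero, add_zero, ite_pow])
    rw [Fintype.sum_sum_type] at h1
    simp only [Sum.elim_inl, Sum.elim_inr, Pi.zero_apply, mul_zero,
      zero_add, Pi.add_apply, Pi.neg_apply, neg_zero, Pi.single_apply, mul_ite, mul_one,
      Finset.sum_ite_eq', Finset.mem_univ, if_true] at h1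
    refine (nz_le _ (k (Sum.inl l))).trans ?_
    have e1 : ξ l - ∑ r, (k (Sum.inr r) : ℝ) * Ψ r l - (k (Sum.inl l) : ℝ) =
        -(-ξ l + toR k (Sum.inl l) + ∑ r, toR k (Sum.inr r) * Ψ r l) := by
      simp only [toR]
      ring
    rw [e1, abs_neg]
    refine h1.trans ?_
    rw [← div_div, ← mul_div_assoc]
    exact div_le_div_of_nonneg_right hE hN.le

end

end Vale.Agent.P057T.Loc
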