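import Vale.Agent.P057T.Loc.Defs
import Vale.Agent.P057T.Gkh.Cube

/-! Row DIF: cube differences inside one colour class. -/

set_option linter.all false

open Finset
open scoped BigOperators

namespace Vale.Agent.P057T.Loc

open Vale.Agent.P057Z Vale.Agent.P057L Vale.Agent.P057T.Gkh

noncomputable section

namespace Dif

variable {j q : ℕ}

/-- alternating sum over the hybrids -/
def D (x0 x : Pt j q) (t : Finset (Fin j)) (F : Pt j q → ℝ) : ℝ :=
  ∑ J ∈ t.powerset, (-1 : ℝ) ^ J.card * F (J.piecewise x0 x)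

variable (x0 x : Pt j q)

theorem D_empty (F : Pt j q → ℝ) : D x0 x ∅ F = F x := by simp [D]

theorem D_ins {i : Fin j} {t : Finset (Fin j)} (hi : i ∉ t) (F : Pt j q → ℝ) :
    D x0 x (insert i t) F = D x0 x t F - D x0 x t fun W => F (Function.update W i (x0 i)) := by
  unfold D
  rw [sum_powerset_insert hi, sub_eq_add_neg, ← sum_neg_distrib]
  refine congrArg _ (sum_congr rfl fun J hJ => ?_)
  have hiJ : i ∉ J := fun h => hi (mem_powerset.1 hJ h)
  rw [Cube.pw_ins, card_insert_of_notMem hiJ, pow_succ]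
  ring

theorem D_add (t : Finset (Fin j)) (F G : Pt j q → ℝ) :
    D x0 x t (fun W => F W + G W) = D x0 x t F + D x0 x t G := by
  simp only [D, mul_add, sum_add_distrib]

theorem D_const {t : Finset (Fin j)} (ht : t.Nonempty) (c : ℝ) : D x0 x t (fun _ => c) = 0 := by
  obtain ⟨i, hi⟩ := ht
  rw [← insert_erase hi, D_ins _ _ (notMem_erase i t), sub_self]

theorem D_abs (t : Finset (Fin j)) (F : Pt j q → ℝ) {r : ℝ} (hr : 0 ≤ r)
    (h : ∀ J : Finset (Fin j), |F (J.piecewise x0 x)| ≤ r) : |D x0 x t F| ≤ 2 ^ j * r := by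
  refine (abs_sum_le_sum_abs _ _).trans ?_
  refine (sum_le_card_nsmul _ _ r fun J hJ => ?_).trans ?_
  · rw [abs_mul, abs_pow, abs_neg, abs_one, one_pow, one_mul]
    exact h J
  · rw [card_powerset, nsmul_eq_mul]
    push_cast
    refine mul_le_mul_of_nonneg_right (pow_le_pow_right₀ (by norm_num) ?_) hr
    simpa using card_le_univ t

theorem D_int (t : Finset (Fin j)) (n : Pt j q → ℤ) : ∃ k : ℤ, D x0 x t (fun W => (n W : ℝ)) = k :=
  ⟨∑ J ∈ t.powerset, (-1) ^ J.card * n (J.piecewise x0 x), by simp [D]⟩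

/-- the function does not see the classes of `t` -/
def Off (t : Finset (Fin j)) (F : Pt j q → ℝ) : Prop :=
  ∀ W W', (∀ i, i ∉ t → W i = W' i) → F W = F W'

theorem D_mul (t' : Finset (Fin j)) (G : Pt j q → ℝ) (t : Finset (Fin j)) :
    ∀ F : Pt j q → ℝ, Disjoint t t' → Off t' F → Off t G →
      D x0 x (t ∪ t') (fun W => F W * G W) = D x0 x t F * D x0 x t' G := by
  induction t using Finset.induction_on with
  | empty =>
    intro F _ hF _
    rw [empty_union, D_empty]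
    unfold D
    rw [mul_sum]
    refine sum_congr rfl fun J hJ => ?_
    beta_reduce
    rw [hF (J.piecewise x0 x) x fun i hi =>
      piecewise_eq_of_notMem _ _ _ fun h => hi (mem_powerset.1 hJ h)]
    ring
  | insert i t hi ih =>
    intro F hd hF hG
    rw [disjoint_insert_left] at hd
    have hG' : Off t G := fun W W' h => hG W W' fun l hl => h l fun h2 => hl (mem_insert_of_mem h2)
    have h1 : (fun W => F (Function.update W i (x0 i)) * G (Function.update W i (x0 i))) =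
        fun W => F (Function.update W i (x0 i)) * G W := by
      funext W
      rw [hG (Function.update W i (x0 i)) W fun l hl =>
        Function.update_of_ne (fun h : l = i => hl (mem_insert.2 (Or.inl h))) _ _]
    rw [insert_union, D_ins _ _ (by simp [hi, hd.1]), D_ins _ _ hi, ih F hd.2 hF hG', h1,
      ih (fun W => F (Function.update W i (x0 i))) hd.2 (fun W W' h => hF _ _ fun l hl => by
        by_cases h2 : l = i
        · subst h2
          simp
        · rw [Function.update_of_ne h2, Function.update_of_ne h2, h l hl]) hG', sub_mul]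

theorem off_of (hTB : TB) {L : List (Cd j q)} (hL : TT L) {t t' : Finset (Fin j)}
    {F : Pt j q → ℝ} (hF : Top L t F) (hd : Disjoint t t') : Off t' F := fun W W' h =>
  (hTB j q).2.2.2.2.2.1 L t F W W' hL hF fun i hi => h i (disjoint_left.1 hd hi)

theorem key (hTB : TB) {L : List (Cd j q)} (hL : TT L)
    (hr : ∀ p ∈ L, (round (p.2 (x - x0)) : ℝ) = D x0 x p.1 fun W => (round (p.2 W) : ℝ))
    {t : Finset (Fin j)} {F : Pt j q → ℝ} (hF : Top L t F) : F (x - x0) = D x0 x t F := by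
  induction hF with
  | cst c => rw [D_empty]
  | zero t => simp [D]
  | add _ _ ih ih' => rw [D_add, ← ih, ← ih']
  | @ent t F i l hi hF ih =>
    have hd : Disjoint ({i} : Finset (Fin j)) t := disjoint_singleton_left.2 hi
    rw [insert_eq, D_mul x0 x t F {i} (fun W => (W i l : ℝ)) hd
      (fun W W' h => by beta_reduce; rw [h i hi]) (off_of hTB hL hF hd.symm), ← ih, ← insert_empty_eq,
      D_ins _ _ (notMem_empty i), D_empty, D_empty]
    simp
  | @brk t F p hp hd hF ih =>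
    have h1 := off_of hTB hL ((hTB j q).2.2.2.2.2.2.1 L hL p hp).2 hd
    rw [D_mul x0 x t F p.1 (fun W => (round (p.2 W) : ℝ)) hd
      (fun W W' h => by beta_reduce; rw [h1 W W' h]) (off_of hTB hL hF hd.symm), ← ih, ← hr p hp]

theorem tower (hTB : TB) {r : ℝ} (hr0 : 0 ≤ r) (hr : 2 ^ j * r < 1 / 2) {L : List (Cd j q)}
    (hL : TT L) : (∀ p ∈ L, ∀ J : Finset (Fin j), |(p.2 (J.piecewise x0 x) -
        round (p.2 (J.piecewise x0 x))) - (p.2 x - round (p.2 x))| ≤ r) →
      ∀ p ∈ L, (round (p.2 (x - x0)) : ℝ) = D x0 x p.1 (fun W => (round (p.2 W) : ℝ)) ∧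
        nz (p.2 (x - x0)) ≤ 2 ^ j * r := by
  induction hL with
  | nil => intro _ p hp; simp at hp
  | @cons L t P hL ht hP ih =>
    intro h p hp
    have ih' := ih fun p hp => h p (List.mem_cons_of_mem _ hp)
    rcases List.mem_cons.1 hp with rfl | hp
    · have h1 := key x0 x hTB hL (fun p hp => (ih' p hp).1) hP
      obtain ⟨k, hk⟩ := D_int x0 x t fun W => round (P W)
      have h2 := D_abs x0 x t (fun W => (P W - round (P W)) - (P x - round (P x))) hr0
        (h (t, P) List.mem_cons_self)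
      have h3 : D x0 x t P = D x0 x t (fun W => (round (P W) : ℝ)) +
          (D x0 x t (fun W => (P W - round (P W)) - (P x - round (P x))) +
            D x0 x t fun _ => P x - round (P x)) := by
        rw [← D_add, ← D_add]
        exact congrArg _ (funext fun W => by ring)
      rw [D_const _ _ ht, add_zero, hk, ← h1, ← sub_eq_iff_eq_add'] at h3
      rw [← h3] at h2
      have h4 : round (P (x - x0)) = k := by
        have := abs_le.1 h2
        exact round_eq_iff.2 ⟨by linarith [this.1], by linarith [this.2]⟩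
      refine ⟨?_, ?_⟩
      · show (round (P (x - x0)) : ℝ) = _
        rw [h4]
        exact hk.symm
      · show |P (x - x0) - round (P (x - x0))| ≤ _
        rw [h4]
        exact h2
    · exact ih' p hp

theorem pigeon {α κ : Type} [Fintype κ] [DecidableEq κ] (S : Finset α) (v : α → κ → ℝ)
    (hv : ∀ a ∈ S, ∀ k, |v a k| ≤ 1) {K : ℕ} (hK : 1 ≤ K) :
    ∃ X ⊆ S, (S.card : ℝ) ≤ (2 * K + 1) ^ Fintype.card κ * X.card ∧
      ∀ a ∈ X, ∀ b ∈ X, ∀ k, |v a k - v b k| ≤ 1 / K := by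
  have hK0 : (0 : ℝ) < K := by exact_mod_cast hK
  have hc : ((Fintype.piFinset fun _ : κ => Icc (-(K : ℤ)) K).card : ℝ) =
      (2 * K + 1) ^ Fintype.card κ := by
    have : ((K : ℤ) + 1 - -(K : ℤ)).toNat = 2 * K + 1 := by omega
    rw [Fintype.card_piFinset, prod_const, Int.card_Icc, this, card_univ]
    push_cast
    rfl
  have hp : (0 : ℝ) < (2 * K + 1) ^ Fintype.card κ := by positivity
  obtain ⟨y, -, hy⟩ := exists_le_card_fiber_of_nsmul_le_card_of_maps_to (s := S)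
    (t := Fintype.piFinset fun _ : κ => Icc (-(K : ℤ)) K) (f := fun a k => ⌊v a k * K⌋)
    (b := (S.card : ℝ) / (2 * K + 1) ^ Fintype.card κ) (fun a ha => by
      refine Fintype.mem_piFinset.2 fun k => mem_Icc.2 ⟨?_, ?_⟩
      · rw [Int.le_floor]
        push_cast
        nlinarith [(abs_le.1 (hv a ha k)).1]
      · have h1 := Int.floor_le (v a k * K)
        have h2 : ((⌊v a k * K⌋ : ℤ) : ℝ) ≤ ((K : ℤ) : ℝ) := by
          push_cast
          nlinarith [(abs_le.1 (hv a ha k)).2]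
        exact_mod_cast h2)
    ⟨fun _ => 0, Fintype.mem_piFinset.2 fun k => mem_Icc.2 ⟨by omega, by omega⟩⟩
    (by rw [nsmul_eq_mul, hc, mul_div_cancel₀ _ hp.ne'])
  refine ⟨_, filter_subset _ _, by rwa [div_le_iff₀' hp] at hy, fun a ha b hb k => ?_⟩
  have h1 := Int.abs_sub_lt_one_of_floor_eq_floor
    ((congrFun (mem_filter.1 ha).2 k).trans (congrFun (mem_filter.1 hb).2 k).symm)
  rw [← sub_mul, abs_mul, abs_of_pos hK0] at h1
  rw [le_div_iff₀ hK0]
  exact h1.le

theorem numK (j : ℕ) {Y : ℝ} (hC : (2 : ℝ) ^ j + j + 5 ≤ Y) : ∃ K : ℕ, 1 ≤ K ∧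
    2 ^ j * (1 / (K : ℝ)) ≤ Real.exp (-Y) / 4 ∧ 1 / (K : ℝ) ≤ Real.exp (-Y) ∧
    2 * (K : ℝ) + 1 ≤ Real.exp (2 * Y) := by
  have h2j : (1 : ℝ) ≤ 2 ^ j := one_le_pow₀ (by norm_num)
  have hj0 : (0 : ℝ) ≤ j := Nat.cast_nonneg j
  have hE1 : 1 ≤ Real.exp Y := Real.one_le_exp (by linarith)
  obtain ⟨K, hK⟩ : ∃ K : ℕ, K = 2 ^ (j + 2) * ⌈Real.exp Y⌉₊ := ⟨_, rfl⟩
  have hK1 : 2 ^ j * 4 * Real.exp Y ≤ K := by
    rw [hK]
    push_cast
    rw [pow_add]
    have := Nat.le_ceil (Real.exp Y)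
    nlinarith
  have hK2 : (K : ℝ) ≤ 2 ^ j * 8 * Real.exp Y := by
    rw [hK]
    push_cast
    rw [pow_add]
    have := (Nat.ceil_lt_add_one (Real.exp_pos Y).le).le
    nlinarith
  have hm := mul_le_mul h2j hE1 zero_le_one (by linarith)
  have hK4 : (4 : ℝ) ≤ K := by linarith
  have hK0 : (0 : ℝ) < K := by linarith
  have hK3 : 2 ^ j * (1 / (K : ℝ)) ≤ Real.exp (-Y) / 4 := by
    rw [Real.exp_neg, mul_one_div, div_le_div_iff₀ hK0 (by norm_num), le_inv_mul_iff₀ (by linarith)]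
    linarith
  have hE3 := Real.exp_pos (-Y)
  have e2 : (2 : ℝ) ≤ Real.exp 1 := by linarith [Real.add_one_le_exp (1 : ℝ)]
  refine ⟨K, by exact_mod_cast (by linarith : (1 : ℝ) ≤ K), hK3, ?_, ?_⟩
  · have h0 : 0 < 1 / (K : ℝ) := by positivity
    have := mul_le_mul_of_nonneg_right h2j h0.le
    linarith
  · have h2 : (2 : ℝ) ^ (j + 5) ≤ Real.exp Y := by
      refine (pow_le_pow_left₀ (by norm_num) e2 _).trans ?_
      rw [← Real.exp_nat_mul, mul_one]
      refine Real.exp_le_exp.2 ?_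
      push_cast
      linarith
    rw [two_mul Y, Real.exp_add]
    rw [pow_add] at h2
    have h3 := mul_le_mul_of_nonneg_right h2 (Real.exp_pos Y).le
    linarith

theorem numB {j q N n K : ℕ} {Y a : ℝ} (hY : 5 ≤ Y) (hj : (j : ℝ) + 1 ≤ Y) (hq : (q : ℝ) ≤ Y)
    (hn : (n : ℝ) ≤ Y) (hN : (1 : ℝ) ≤ N) (hK : 2 * (K : ℝ) + 1 ≤ Real.exp (2 * Y)) (ha : 0 ≤ a)
    (h : Real.exp (-Y) * (N : ℝ) ^ (j * q) ≤ (2 * (K : ℝ) + 1) ^ (j * q + n) * a) :
    Real.exp (-Y ^ 4) * ((2 * (N : ℝ) + 1) ^ q) ^ j ≤ a := by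
  have hq0 : (0 : ℝ) ≤ q := Nat.cast_nonneg q
  have hjq := mul_le_mul (by linarith : (j : ℝ) ≤ Y - 1) hq hq0 (by linarith)
  have b1 : ((2 * (N : ℝ) + 1) ^ q) ^ j ≤ Real.exp (2 * Y ^ 2) * (N : ℝ) ^ (j * q) := by
    rw [← pow_mul, mul_comm q j]
    have h1 : (2 * N + 1 : ℝ) ≤ Real.exp 2 * N := by
      have := mul_le_mul_of_nonneg_right (Real.add_one_le_exp (2 : ℝ)) (by linarith : (0 : ℝ) ≤ N)
      linarith
    refine (pow_le_pow_left₀ (by positivity) h1 _).trans ?_
    rw [mul_pow, ← Real.exp_nat_mul]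
    refine mul_le_mul_of_nonneg_right (Real.exp_le_exp.2 ?_) (by positivity)
    push_cast
    linarith
  have b2 : (2 * (K : ℝ) + 1) ^ (j * q + n) ≤ Real.exp (2 * Y ^ 3) := by
    refine (pow_le_pow_left₀ (by positivity) hK _).trans ?_
    rw [← Real.exp_nat_mul]
    refine Real.exp_le_exp.2 ?_
    push_cast
    have h4 : (j : ℝ) * q + n ≤ Y ^ 2 := by linarith
    have := mul_le_mul_of_nonneg_right h4 (by linarith : 0 ≤ 2 * Y)
    linarith
  have h1 := h.trans (mul_le_mul_of_nonneg_right b2 ha)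
  refine (mul_le_mul_of_nonneg_left b1 (Real.exp_pos _).le).trans ?_
  refine le_of_mul_le_mul_left (le_trans ?_ h1) (Real.exp_pos (2 * Y ^ 3))
  rw [← mul_assoc, ← mul_assoc, ← Real.exp_add, ← Real.exp_add]
  refine mul_le_mul_of_nonneg_right (Real.exp_le_exp.2 ?_) (by positivity)
  have h2 := mul_le_mul_of_nonneg_right hY (by positivity : 0 ≤ Y)
  have h3 := mul_le_mul_of_nonneg_right hY (by positivity : 0 ≤ Y ^ 2)
  have h4 := mul_le_mul_of_nonneg_right hY (by positivity : 0 ≤ Y ^ 3)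
  linarith

theorem numC {j q N : ℕ} {Y : ℝ} (hY : 5 ≤ Y) (hj : (2 : ℝ) ^ j ≤ Y) :
    Real.exp (-Y ^ (2 ^ j + j + 5)) * (N : ℝ) ^ (j * q) ≤
      Real.exp (-Y ^ 4) ^ 2 ^ j * ((2 * (N : ℝ) + 1) ^ q) ^ j := by
  have hN : (0 : ℝ) ≤ N := Nat.cast_nonneg N
  refine mul_le_mul ?_ ?_ (pow_nonneg hN _) (pow_nonneg (Real.exp_pos _).le _)
  · rw [← Real.exp_nat_mul]
    refine Real.exp_le_exp.2 ?_
    have h1 : Y ^ 5 ≤ Y ^ (2 ^ j + j + 5) := pow_le_pow_right₀ (by linarith) (Nat.le_add_left _ _)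
    have h2 : (2 : ℝ) ^ j * Y ^ 4 ≤ Y * Y ^ 4 := mul_le_mul_of_nonneg_right hj (by positivity)
    push_cast
    linarith
  · rw [← pow_mul, mul_comm q j]
    exact pow_le_pow_left₀ hN (by linarith) _

theorem small (hTB : TB) {L : List (Cd j q)} (hL : TT L)
    (hr : ∀ p ∈ L, (round (p.2 (x - x0)) : ℝ) = D x0 x p.1 fun W => (round (p.2 W) : ℝ))
    {t : Finset (Fin j)} {F : Pt j q → ℝ} (hF : Top L t F) {g : Fin j → Pt j q → ℝ}
    (hg : ∀ i ∈ t, Ig (g i) i) {ε : ℝ}
    (h : ∀ J : Finset (Fin j), nz (F (J.piecewise x0 x) + ∑ i ∈ t, g i (J.piecewise x0 x)) ≤ ε) :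
    nz (F (x - x0)) ≤ 2 ^ j * ε := by
  have h1 := key x0 x hTB hL hr hF
  have h2 : D x0 x t (fun W => ∑ i ∈ t, g i W) = 0 := by
    have := Cube.alt_sum t t g (fun i hi => ⟨i, hi, hg i hi⟩) x0 x
    simpa only [D, zsmul_eq_mul, Int.cast_pow, Int.cast_neg, Int.cast_one] using this
  obtain ⟨k, hk⟩ := D_int x0 x t fun W => round (F W + ∑ i ∈ t, g i W)
  have h3 := D_abs x0 x t (fun W => F W + ∑ i ∈ t, g i W - round (F W + ∑ i ∈ t, g i W))
    ((abs_nonneg _).trans (h ∅)) h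
  have h4 : D x0 x t F + D x0 x t (fun W => ∑ i ∈ t, g i W) =
      D x0 x t (fun W => (round (F W + ∑ i ∈ t, g i W) : ℝ)) +
      D x0 x t (fun W => F W + ∑ i ∈ t, g i W - round (F W + ∑ i ∈ t, g i W)) := by
    rw [← D_add, ← D_add]
    exact congrArg _ (funext fun W => by ring)
  rw [h2, add_zero, hk, ← h1, ← sub_eq_iff_eq_add'] at h4
  rw [← h4] at h3
  exact (round_le _ k).trans h3

end Dif

open Dif in
theorem dif (hTB : TB) : DIF := by
  intro j
  refine ⟨2 ^ j + j + 5, ?_⟩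
  intro Y q N ι L t F g S ε hz hL hI
  have hC := hz.C1
  push_cast at hC
  have h2j : (1 : ℝ) ≤ 2 ^ j := one_le_pow₀ (by norm_num)
  have hj0 : (0 : ℝ) ≤ j := Nat.cast_nonneg j
  have hY : 5 ≤ Y := by linarith
  have hN : 1 ≤ N := by
    rcases Nat.eq_zero_or_pos N with h | h
    · have h1 := hz.lg
      have h2 : (0 : ℝ) < Y ^ (2 ^ j + j + 5) := pow_pos (by linarith) _
      rw [h] at h1
      simp only [Nat.cast_zero, Real.log_zero] at h1
      exact absurd h1 (not_le.2 h2)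
    · exact h
  have hN1 : (1 : ℝ) ≤ N := by exact_mod_cast hN
  have hN0 : (0 : ℝ) < N := by linarith
  obtain ⟨K, hK1, hK3, hK5, hK6⟩ := numK j hC
  have hE2 : Real.exp (-Y) ≤ 1 := Real.exp_le_one_iff.2 (by linarith)
  have hE3 := Real.exp_pos (-Y)
  obtain ⟨X, hXS, hX1, hX2⟩ := pigeon S
    (fun W => Sum.elim (fun il : Fin j × Fin q => (W il.1 il.2 : ℝ) / N)
      fun k : Fin L.length => (L.get k).2 W - round ((L.get k).2 W))
    (fun W hW k => by
      rcases k with il | k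
      · simp only [Sum.elim_inl]
        rw [abs_div, abs_of_pos hN0, div_le_one hN0]
        exact hI.dd.1 W hW _ _
      · exact (abs_sub_round _).trans (by norm_num)) hK1
  simp only [Fintype.card_sum, Fintype.card_prod, Fintype.card_fin] at hX1
  obtain ⟨B, hB0⟩ : ∃ B : Finset (Vz q), B = Fintype.piFinset fun _ => Icc (-(N : ℤ)) N := ⟨_, rfl⟩
  have hB : (B.card : ℝ) = (2 * N + 1) ^ q := by
    have : ((N : ℤ) + 1 - -(N : ℤ)).toNat = 2 * N + 1 := by omega
    rw [hB0, Fintype.card_piFinset, prod_const, Int.card_Icc, this, card_univ, Fintype.card_fin]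
    push_cast
    rfl
  have hBm : ∀ y : Vz q, (∀ l, |(y l : ℝ)| ≤ N) → y ∈ B := fun y hy => by
    rw [hB0]
    refine Fintype.mem_piFinset.2 fun l => ?_
    have h1 := abs_le.1 (hy l)
    exact mem_Icc.2 ⟨by exact_mod_cast h1.1, by exact_mod_cast h1.2⟩
  have b3 := numB hY (by linarith) hz.qY hL hN1 hK6 (Nat.cast_nonneg _) (hI.dd.2.trans hX1)
  rw [← hB] at b3
  obtain ⟨x0, -, X1, hX3, hX4, hX5⟩ := Cube.cube B ⟨0, hBm 0 fun l => by simp⟩ univ X
    (Real.exp (-Y ^ 4)) (fun W hW => Fintype.mem_piFinset.2 fun i =>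
      hBm _ (hI.dd.1 W (hXS hW) i)) (Real.exp_pos _).le b3
  rw [card_univ, Fintype.card_fin, hB] at hX4
  have hsh : ∀ x ∈ X1, Sh (Real.exp (-Y) * N) (x - x0) := by
    intro x hx i l
    have h1 := hX5 x hx univ Subset.rfl
    rw [piecewise_univ] at h1
    have h2 := (hX2 x (hX3 hx) x0 h1 (Sum.inl (i, l))).trans hK5
    simp only [Sum.elim_inl] at h2
    rw [← sub_div, abs_div, abs_of_pos hN0, div_le_iff₀ hN0] at h2
    simpa using h2
  refine ⟨X1.image (· - x0), ⟨fun W hW => ?_, ?_⟩, fun W hW => ?_⟩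
  · obtain ⟨x, hx, rfl⟩ := mem_image.1 hW
    exact fun i l => (hsh x hx i l).trans (mul_le_of_le_one_left hN0.le hE2)
  · rw [card_image_of_injective _ (sub_left_injective (b := x0))]
    exact (numC hY (by linarith)).trans hX4
  · obtain ⟨x, hx, rfl⟩ := mem_image.1 hW
    have hT := tower x0 x hTB (r := 1 / K) (by positivity) (by linarith) hI.tt fun p hp J => by
      obtain ⟨k, rfl⟩ := List.mem_iff_get.1 hp
      exact hX2 _ (hX5 x hx J (subset_univ _)) x (hX3 hx) (Sum.inr k)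
    exact ⟨hsh x hx, fun p hp => (hT p hp).2.trans (by linarith), fun a =>
      small x0 x hTB hI.tt (fun p hp => (hT p hp).1) (hI.top a) (hI.ig a)
        fun J => hI.sm _ (hXS (hX5 x hx J (subset_univ _))) a⟩

end

end Vale.Agent.P057T.Loc
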