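import Vale.Agent.P057T.Loc.Defs
import Vale.Agent.P057T.GapH21

/-! One fibre: short relations, and what they do not kill is rational. -/

set_option linter.all false

open Finset Module

namespace Vale.Agent.P057T.Loc

open Vale.Agent.P057L Vale.Agent.P057T.Gkh

noncomputable section

namespace Fb

/-- simultaneous approximation -/
theorem diri {κ : Type} [Fintype κ] (α : κ → ℝ) (T : ℕ) (hT : 0 < T) :
    ∃ (n : ℕ) (μ : κ → ℤ), 1 ≤ n ∧ n ≤ T ^ Fintype.card κ ∧ ∀ r, |n * α r - μ r| ≤ 1 / T := by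
  classical
  have hT0 : (0 : ℝ) < T := by exact_mod_cast hT
  let f : ℕ → κ → ℕ := fun i r => ⌊(T : ℝ) * Int.fract (i * α r)⌋₊
  have key : ∀ i j : ℕ, i < j → j ≤ T ^ Fintype.card κ → f i = f j →
      ∃ (n : ℕ) (μ : κ → ℤ), 1 ≤ n ∧ n ≤ T ^ Fintype.card κ ∧ ∀ r, |n * α r - μ r| ≤ 1 / T := by
    intro i j hij hj he
    refine ⟨j - i, fun r => ⌊(j : ℝ) * α r⌋ - ⌊(i : ℝ) * α r⌋, by omega, by omega, fun r => ?_⟩
    have e : ⌊(T : ℝ) * Int.fract (i * α r)⌋₊ = ⌊(T : ℝ) * Int.fract (j * α r)⌋₊ := congrFun he r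
    have h1 := Nat.floor_le (mul_nonneg hT0.le (Int.fract_nonneg ((i : ℝ) * α r)))
    have h2 := Nat.floor_le (mul_nonneg hT0.le (Int.fract_nonneg ((j : ℝ) * α r)))
    have h3 := Nat.lt_floor_add_one ((T : ℝ) * Int.fract (i * α r))
    have h4 := Nat.lt_floor_add_one ((T : ℝ) * Int.fract (j * α r))
    rw [e] at h1 h3
    have e2 : ((j - i : ℕ) : ℝ) * α r - ((⌊(j : ℝ) * α r⌋ - ⌊(i : ℝ) * α r⌋ : ℤ) : ℝ) =
        Int.fract (j * α r) - Int.fract (i * α r) := by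
      rw [Nat.cast_sub hij.le, Int.fract, Int.fract]
      push_cast
      ring
    rw [e2, le_div_iff₀ hT0, ← abs_of_pos hT0, ← abs_mul, abs_le]
    constructor <;> linarith
  obtain ⟨i, hi, j, hj, hne, he⟩ := exists_ne_map_eq_of_card_lt_of_maps_to
    (s := range (T ^ Fintype.card κ + 1)) (t := Fintype.piFinset fun _ : κ => range T) (f := f)
    (by simp) (fun i _ => by
      simp only [mem_coe, Fintype.mem_piFinset, mem_range]
      intro r
      rw [Nat.floor_lt (mul_nonneg hT0.le (Int.fract_nonneg _))]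
      exact mul_lt_of_lt_one_right hT0 (Int.fract_lt_one _))
  rcases lt_or_gt_of_ne hne with h | h
  · exact key i j h (by have := mem_range.1 hj; omega) he
  · exact key j i h (by have := mem_range.1 hi; omega) he.symm

/-- two translates of a dense set meet -/
theorem meet {q N m : ℕ} (Z : Finset (Vz q)) (a : Vz q) (hN : 1 ≤ N)
    (hZ : ∀ y ∈ Z, ∀ l, |(y l : ℝ)| ≤ N) (ha : ∀ l, (m : ℝ) * |(a l : ℝ)| ≤ N)
    (hc : (5 * N) ^ q < (m + 1) * Z.card) :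
    ∃ t : ℕ, 1 ≤ t ∧ t ≤ m ∧ ∃ z ∈ Z, ∃ z' ∈ Z, ∀ l, z l - z' l = t * a l := by
  obtain ⟨x, hx, y, hy, hne, he⟩ := exists_ne_map_eq_of_card_lt_of_maps_to
    (s := range (m + 1) ×ˢ Z) (t := Fintype.piFinset fun _ : Fin q => Icc (-(2 * N : ℤ)) (2 * N))
    (f := fun x l => x.2 l + x.1 * a l)
    (by
      rw [card_product, card_range, Fintype.card_piFinset, prod_const, card_univ, Fintype.card_fin,
        Int.card_Icc]
      exact lt_of_le_of_lt (Nat.pow_le_pow_left (by omega) q) hc)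
    (fun x hx => by
      obtain ⟨h1, h2⟩ := mem_product.1 hx
      simp only [mem_coe, Fintype.mem_piFinset, mem_Icc]
      intro l
      have h3 : (x.1 : ℝ) ≤ m := by exact_mod_cast Nat.lt_succ_iff.1 (mem_range.1 h1)
      have h4 : |((x.2 l + x.1 * a l : ℤ) : ℝ)| ≤ ((2 * N : ℤ) : ℝ) := by
        push_cast
        refine (abs_add_le _ _).trans ?_
        rw [abs_mul, Nat.abs_cast]
        linarith [hZ _ h2 l, ha l, mul_le_mul_of_nonneg_right h3 (abs_nonneg (a l : ℝ))]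
      exact abs_le.1 (by exact_mod_cast h4))
  obtain ⟨hx1, hx2⟩ := mem_product.1 hx
  obtain ⟨hy1, hy2⟩ := mem_product.1 hy
  have e : ∀ l, x.2 l + x.1 * a l = y.2 l + y.1 * a l := fun l => congrFun he l
  rw [mem_range] at hx1 hy1
  rcases lt_trichotomy x.1 y.1 with h | h | h
  · refine ⟨y.1 - x.1, by omega, by omega, x.2, hx2, y.2, hy2, fun l => ?_⟩
    rw [Nat.cast_sub h.le]
    linarith [e l]
  · refine absurd (Prod.ext h (funext fun l => ?_)) hne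
    have := e l
    rw [h] at this
    linarith
  · refine ⟨x.1 - y.1, by omega, by omega, y.2, hy2, x.2, hx2, fun l => ?_⟩
    rw [Nat.cast_sub h.le]
    linarith [e l]

variable {q : ℕ} {κ : Type} [Fintype κ] [DecidableEq κ]

def ph (N : ℝ) (Ψ : κ → Fin q → ℝ) : (Fin q ⊕ κ → ℝ) →ₗ[ℝ] EuclideanSpace ℝ (Fin q ⊕ κ) where
  toFun u := WithLp.toLp 2 (Sum.elim (fun l => u (Sum.inl l) / N)
    fun r => ∑ l, Ψ r l * u (Sum.inl l) - u (Sum.inr r))
  map_add' u v := by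
    ext i
    rcases i with l | r
    · simp [add_div]
    · simp [mul_add, sum_add_distrib]
      ring
  map_smul' c u := by
    ext i
    rcases i with l | r
    · simp [mul_div_assoc]
    · simp [mul_sub, mul_sum, mul_left_comm]

def ps (N : ℝ) (Ψ : κ → Fin q → ℝ) : EuclideanSpace ℝ (Fin q ⊕ κ) →ₗ[ℝ] (Fin q ⊕ κ → ℝ) where
  toFun x := Sum.elim (fun l => N * x (Sum.inl l))
    fun r => ∑ l, Ψ r l * (N * x (Sum.inl l)) - x (Sum.inr r)
  map_add' u v := by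
    ext i
    rcases i with l | r
    · simp [mul_add]
    · simp [mul_add, sum_add_distrib]
      ring
  map_smul' c u := by
    ext i
    rcases i with l | r
    · simp [mul_left_comm]
    · simp [mul_sub, mul_sum, mul_left_comm]

variable {N : ℝ} {Ψ : κ → Fin q → ℝ}

theorem ph_l (u : Fin q ⊕ κ → ℝ) (l : Fin q) : ph N Ψ u (Sum.inl l) = u (Sum.inl l) / N := rfl
theorem ph_r (u : Fin q ⊕ κ → ℝ) (r : κ) :
    ph N Ψ u (Sum.inr r) = ∑ l, Ψ r l * u (Sum.inl l) - u (Sum.inr r) := rfl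
theorem ps_l (x : EuclideanSpace ℝ (Fin q ⊕ κ)) (l : Fin q) :
    ps N Ψ x (Sum.inl l) = N * x (Sum.inl l) := rfl
theorem ps_r (x : EuclideanSpace ℝ (Fin q ⊕ κ)) (r : κ) :
    ps N Ψ x (Sum.inr r) = ∑ l, Ψ r l * (N * x (Sum.inl l)) - x (Sum.inr r) := rfl

theorem ps_ph (hN : N ≠ 0) (u : Fin q ⊕ κ → ℝ) : ps N Ψ (ph N Ψ u) = u := by
  funext i
  rcases i with l | r
  · rw [ps_l, ph_l, mul_div_cancel₀ _ hN]
  · simp only [ps_r, ph_l, ph_r, mul_div_cancel₀ _ hN, sub_sub_cancel]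

theorem ph_ps (hN : N ≠ 0) (x : EuclideanSpace ℝ (Fin q ⊕ κ)) : ph N Ψ (ps N Ψ x) = x := by
  ext i
  rcases i with l | r
  · rw [ph_l, ps_l, mul_div_cancel_left₀ _ hN]
  · simp only [ph_r, ps_l, ps_r, sub_sub_cancel]

/-- integer vectors -/
def IZ (ι : Type) : AddSubgroup (ι → ℝ) where
  carrier := {u | ∀ i, ∃ n : ℤ, u i = n}
  zero_mem' := fun _ => ⟨0, by simp⟩
  add_mem' := fun {u v} hu hv i => by
    obtain ⟨a, ha⟩ := hu i
    obtain ⟨b, hb⟩ := hv i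
    exact ⟨a + b, by simp [ha, hb]⟩
  neg_mem' := fun {u} hu i => by
    obtain ⟨a, ha⟩ := hu i
    exact ⟨-a, by simp [ha]⟩

def Lam (N : ℝ) (Ψ : κ → Fin q → ℝ) : Submodule ℤ (EuclideanSpace ℝ (Fin q ⊕ κ)) :=
  AddSubgroup.toIntSubmodule ((IZ (Fin q ⊕ κ)).comap (ps N Ψ).toAddMonoidHom)

theorem mem_Lam {x : EuclideanSpace ℝ (Fin q ⊕ κ)} :
    x ∈ Lam N Ψ ↔ ∀ i, ∃ n : ℤ, ps N Ψ x i = n := Iff.rfl

theorem ph_mem (hN : N ≠ 0) {u : Fin q ⊕ κ → ℝ} (h : ∀ i, ∃ n : ℤ, u i = n) :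
    ph N Ψ u ∈ Lam N Ψ := by
  rw [mem_Lam, ps_ph hN]
  exact h

theorem sing_mem (hN : N ≠ 0) (i : Fin q ⊕ κ) : ph N Ψ (Pi.single i 1) ∈ Lam N Ψ :=
  ph_mem hN fun j => by
    by_cases h : j = i
    · exact ⟨1, by simp [h]⟩
    · exact ⟨0, by simp [h]⟩

theorem ph_sum (u : Fin q ⊕ κ → ℝ) : ph N Ψ u = ∑ i, u i • ph N Ψ (Pi.single i 1) := by
  conv_lhs => rw [pi_eq_sum_univ' u, map_sum]
  exact sum_congr rfl fun i _ => map_smul _ _ _

theorem hsp (hN : N ≠ 0) :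
    Submodule.span ℝ (Lam N Ψ : Set (EuclideanSpace ℝ (Fin q ⊕ κ))) = ⊤ := by
  refine top_unique fun x _ => ?_
  rw [← ph_ps (Ψ := Ψ) hN x, ph_sum]
  exact Submodule.sum_mem _ fun i _ => Submodule.smul_mem _ _ (Submodule.subset_span (sing_mem hN i))

theorem hfin (hN : N ≠ 0) (R : ℝ) : Set.Finite {x | x ∈ Lam N Ψ ∧ ‖x‖ ≤ R} := by
  obtain ⟨K, hK⟩ := exists_nat_ge (‖LinearMap.toContinuousLinearMap (ps N Ψ)‖ * R)
  refine ((Fintype.piFinset fun _ : Fin q ⊕ κ => Icc (-(K : ℤ)) K).finite_toSet.image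
    fun z => ph N Ψ fun i => (z i : ℝ)).subset ?_
  rintro x ⟨h1, h2⟩
  choose z hz using mem_Lam.1 h1
  refine ⟨z, ?_, ?_⟩
  · simp only [mem_coe, Fintype.mem_piFinset, mem_Icc]
    intro i
    have h3 := (norm_le_pi_norm (ps N Ψ x) i).trans
      (((LinearMap.toContinuousLinearMap (ps N Ψ)).le_opNorm_of_le h2).trans hK)
    rw [hz, Real.norm_eq_abs] at h3
    exact abs_le.1 (by exact_mod_cast h3)
  · show ph N Ψ (fun i => (z i : ℝ)) = x
    rw [← funext hz]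
    exact ph_ps hN x

theorem nle {ι : Type} [Fintype ι] (x : EuclideanSpace ℝ ι) : ‖x‖ ≤ ∑ i, |x i| := by
  rw [EuclideanSpace.norm_eq]
  refine Real.sqrt_le_iff.2 ⟨sum_nonneg fun _ _ => abs_nonneg _, ?_⟩
  exact sum_sq_le_sq_sum_of_nonneg fun _ _ => abs_nonneg _

theorem nle1 (hN : 0 < N) (l : Fin q) (n : ℝ) (μ : κ → ℝ) (τ : ℝ) (hn : 0 ≤ n)
    (h : ∀ r, |n * Ψ r l - μ r| ≤ τ) :
    ‖ph N Ψ (Sum.elim (Pi.single l n) μ)‖ ≤ n / N + Fintype.card κ * τ := by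
  refine (nle _).trans ?_
  rw [Fintype.sum_sum_type]
  refine add_le_add (le_of_eq ?_) ?_
  · rw [sum_eq_single l (fun l' _ hl => by simp [ph_l, hl]) (fun h => absurd (mem_univ l) h)]
    simp [ph_l, abs_div, abs_of_pos hN, abs_of_nonneg hn]
  · refine (sum_le_card_nsmul _ _ τ fun r _ => ?_).trans (le_of_eq (by simp))
    have := h r
    simpa [ph_r, Pi.single_apply, mul_comm] using this

theorem hsm (hN : 0 < N) {η : ℝ} (T : ℕ) (hT : 0 < T)
    (h : (T : ℝ) ^ Fintype.card κ / N + Fintype.card κ * (1 / T) ≤ η) :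
    finrank ℝ (EuclideanSpace ℝ (Fin q ⊕ κ)) ≤
      finrank ℝ (Submodule.span ℝ {x | x ∈ Lam N Ψ ∧ ‖x‖ ≤ η}) + Fintype.card κ := by
  choose n μ h1 h2 h3 using fun l : Fin q => diri (fun r => Ψ r l) T hT
  let v : Fin q → EuclideanSpace ℝ (Fin q ⊕ κ) := fun l =>
    ph N Ψ (Sum.elim (Pi.single l (n l : ℝ)) fun r => (μ l r : ℝ))
  have hv : LinearIndependent ℝ v := by
    rw [Fintype.linearIndependent_iff]
    intro g hg l
    have h4 := congrArg (fun x : EuclideanSpace ℝ (Fin q ⊕ κ) => x (Sum.inl l)) hg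
    have h5 : (n l : ℝ) ≠ 0 := by have := h1 l; positivity
    simpa [v, ph_l, Pi.single_apply, h5, hN.ne', ite_div] using h4
  have h6 : Submodule.span ℝ (Set.range v) ≤ Submodule.span ℝ {x | x ∈ Lam N Ψ ∧ ‖x‖ ≤ η} := by
    refine Submodule.span_mono ?_
    rintro _ ⟨l, rfl⟩
    refine ⟨ph_mem hN.ne' fun i => ?_, (nle1 hN l _ _ _ (Nat.cast_nonneg _) (h3 l)).trans
      (le_trans (add_le_add (div_le_div_of_nonneg_right (by exact_mod_cast h2 l) hN.le) le_rfl) h)⟩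
    rcases i with l' | r
    · by_cases e : l' = l
      · exact ⟨n l, by simp [e]⟩
      · exact ⟨0, by simp [e]⟩
    · exact ⟨μ l r, rfl⟩
  have h7 := Submodule.finrank_mono h6
  rw [finrank_span_eq_card hv, Fintype.card_fin] at h7
  rw [finrank_euclideanSpace, Fintype.card_sum, Fintype.card_fin]
  omega

def L0 {ι : Type} (θ : ι → Fin q → ℝ) (c : ι → κ → ℝ) : (Fin q ⊕ κ → ℝ) →ₗ[ℝ] (ι → ℝ) where
  toFun u a := ∑ l, θ a l * u (Sum.inl l) + ∑ r, c a r * u (Sum.inr r)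
  map_add' u v := by
    ext a
    simp [mul_add, sum_add_distrib]
    ring
  map_smul' t u := by
    ext a
    simp [mul_add, mul_sum, mul_left_comm]

theorem L0_ap {ι : Type} (θ : ι → Fin q → ℝ) (c : ι → κ → ℝ) (u : Fin q ⊕ κ → ℝ) (a : ι) :
    L0 θ c u a = ∑ l, θ a l * u (Sum.inl l) + ∑ r, c a r * u (Sum.inr r) := rfl

theorem short {ι : Type} [Fintype ι] {N m : ℕ} (hN : 1 ≤ N) (hm : 1 ≤ m) (Z : Finset (Vz q))
    (θ : ι → Fin q → ℝ) (c : ι → κ → ℝ) {ε : ℝ} (hε : 0 ≤ ε) (hZ : ∀ y ∈ Z, ∀ l, |(y l : ℝ)| ≤ N)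
    (hc : (5 * N) ^ q < (m + 1) * Z.card) (h1 : ∀ y ∈ Z, ∀ r, nz (dt (Ψ r) y) ≤ 1 / 100)
    (h2 : ∀ y ∈ Z, ∀ a, nz (dt (θ a) y + ∑ r, c a r * (round (dt (Ψ r) y) : ℝ)) ≤ ε) :
    ∀ x ∈ Lam (N : ℝ) Ψ, ‖x‖ ≤ 1 / (4 * (m : ℝ)) → ∃ t : ℕ, 1 ≤ t ∧ t ≤ m ∧ ∃ y ∈ IZ ι,
      ‖(t : ℝ) • (L0 θ c ∘ₗ ps N Ψ) x - y‖ ≤ 2 * ε := by
  intro x hx hn
  have hN0 : (0 : ℝ) < N := by exact_mod_cast hN
  have hm0 : (0 : ℝ) < m := by exact_mod_cast hm
  choose z hz using mem_Lam.1 hx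
  have hxi : ∀ i, (m : ℝ) * |x i| ≤ 1 / 4 := fun i => by
    have := (PiLp.norm_apply_le x i).trans hn
    rw [Real.norm_eq_abs, le_div_iff₀ (by positivity)] at this
    linarith
  obtain ⟨t, ht1, ht2, y, hy, y', hy', he⟩ := meet Z (fun l => z (Sum.inl l)) hN hZ (fun l => by
    rw [← hz, ps_l, abs_mul, abs_of_pos hN0, mul_left_comm]
    exact mul_le_of_le_one_right hN0.le (by linarith [hxi (Sum.inl l)])) hc
  have htm : (t : ℝ) ≤ m := by exact_mod_cast ht2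
  have hd : ∀ a : Fin q → ℝ, dt a y - dt a y' = t * ∑ l, a l * z (Sum.inl l) := fun a => by
    rw [dt, dt, ← sum_sub_distrib, mul_sum]
    refine sum_congr rfl fun l _ => ?_
    have : (y l : ℝ) - y' l = t * z (Sum.inl l) := by exact_mod_cast he l
    linear_combination a l * this
  have hr : ∀ r, (t : ℝ) * z (Sum.inr r) = round (dt (Ψ r) y) - round (dt (Ψ r) y') := fun r => by
    have k1 := hz (Sum.inr r)
    rw [ps_r] at k1
    simp only [← ps_l (Ψ := Ψ), hz] at k1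
    have k2 := abs_le.1 (h1 y hy r)
    have k3 := abs_le.1 (h1 y' hy' r)
    have k4 : |(t : ℝ) * x (Sum.inr r)| ≤ 1 / 4 := by
      rw [abs_mul, Nat.abs_cast]
      exact (mul_le_mul_of_nonneg_right htm (abs_nonneg _)).trans (hxi _)
    have k5 := abs_le.1 k4
    have k6 := hd (Ψ r)
    have k7 : (t : ℝ) * z (Sum.inr r) = dt (Ψ r) y - dt (Ψ r) y' - t * x (Sum.inr r) := by
      rw [k6, ← k1]; ring
    have k8 : |((t * z (Sum.inr r) - (round (dt (Ψ r) y) - round (dt (Ψ r) y')) : ℤ) : ℝ)| < 1 := by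
      push_cast
      rw [abs_lt]
      constructor <;> linarith [k2.1, k2.2, k3.1, k3.2, k5.1, k5.2]
    have k9 : (t * z (Sum.inr r) - (round (dt (Ψ r) y) - round (dt (Ψ r) y')) : ℤ) = 0 :=
      Int.abs_lt_one_iff.1 (by exact_mod_cast k8)
    exact_mod_cast sub_eq_zero.1 k9
  refine ⟨t, ht1, ht2, fun a => ((round (dt (θ a) y + ∑ r, c a r * (round (dt (Ψ r) y) : ℝ)) -
    round (dt (θ a) y' + ∑ r, c a r * (round (dt (Ψ r) y') : ℝ)) : ℤ) : ℝ), fun a => ⟨_, rfl⟩, ?_⟩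
  refine (pi_norm_le_iff_of_nonneg (by linarith)).2 fun a => ?_
  have e : ((t : ℝ) • (L0 θ c ∘ₗ ps N Ψ) x) a =
      (dt (θ a) y + ∑ r, c a r * (round (dt (Ψ r) y) : ℝ)) -
      (dt (θ a) y' + ∑ r, c a r * (round (dt (Ψ r) y') : ℝ)) := by
    rw [Pi.smul_apply, LinearMap.comp_apply, L0_ap, smul_eq_mul, add_sub_add_comm, hd,
      ← sum_sub_distrib, mul_add, mul_sum _ (fun r => c a r * _)]
    simp only [hz]
    congr 1
    exact sum_congr rfl fun r _ => by linear_combination c a r * hr r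
  have k2 := abs_le.1 (h2 y hy a)
  have k3 := abs_le.1 (h2 y' hy' a)
  rw [Pi.sub_apply, e, Real.norm_eq_abs, abs_le]
  push_cast
  constructor <;> linarith [k2.1, k2.2, k3.1, k3.2]

theorem pw_exp {x y : ℝ} {n : ℕ} (h0 : 0 ≤ x) (h : x ≤ Real.exp y) : x ^ n ≤ Real.exp (n * y) := by
  rw [Real.exp_nat_mul]
  exact pow_le_pow_left₀ h0 h n

theorem le_exp {x y : ℝ} (h : x ≤ y + 1) : x ≤ Real.exp y := h.trans (Real.add_one_le_exp y)

theorem mul_exp {a b x y z : ℝ} (ha : a ≤ Real.exp x) (hb : b ≤ Real.exp y) (h0 : 0 ≤ b)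
    (h : x + y ≤ z) : a * b ≤ Real.exp z :=
  (mul_le_mul ha hb h0 (Real.exp_pos _).le).trans (by
    rw [← Real.exp_add]; exact Real.exp_le_exp.2 h)

theorem num1 {Y : ℝ} (hY : 10 ≤ Y) {ρ m : ℕ} (hρ : (ρ : ℝ) ≤ Y) (hm1 : 1 ≤ m)
    (hm : (m : ℝ) ≤ Real.exp (4 * Y)) :
    2 ^ (ρ ^ 2 + 1) * Real.exp (7 * Y) ^ ρ / (1 / (4 * (m : ℝ))) ≤ Real.exp (Y ^ 10) ∧
    4 * m * Y * (Real.exp (7 * Y) ^ ρ / (1 / (4 * (m : ℝ)))) ≤ Real.exp (Y ^ 10) ∧
    Real.exp (-(9 * Y ^ 2)) ≤ 1 / (4 * (m : ℝ)) / Real.exp (7 * Y) ^ (ρ + 1) := by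
  have hm0 : (0 : ℝ) < m := by exact_mod_cast hm1
  have hρ0 : (0 : ℝ) ≤ ρ := Nat.cast_nonneg ρ
  have h1 : 4 * (m : ℝ) ≤ Real.exp (5 * Y) :=
    mul_exp (le_exp (y := Y) (by linarith)) hm hm0.le (by linarith)
  have h2 : Real.exp (7 * Y) ^ ρ ≤ Real.exp (7 * Y ^ 2) := by
    rw [← Real.exp_nat_mul]
    exact Real.exp_le_exp.2 (by nlinarith)
  have h3 : (2 : ℝ) ^ (ρ ^ 2 + 1) ≤ Real.exp (Y ^ 2 + 1) :=
    (pw_exp (y := 1) (by norm_num) (le_exp (by norm_num))).trans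
      (Real.exp_le_exp.2 (by push_cast; nlinarith))
  have h4 : Y ^ 3 ≤ Y ^ 10 := pow_le_pow_right₀ (by linarith) (by norm_num)
  have h5 : 10 * Y ^ 2 ≤ Y ^ 3 := by nlinarith
  have h6 : 10 * Y ≤ Y ^ 2 := by nlinarith
  refine ⟨?_, ?_, ?_⟩
  · rw [div_div_eq_mul_div, div_one]
    exact mul_exp (mul_exp h3 h2 (by positivity) le_rfl) h1 (by positivity) (by linarith)
  · rw [div_div_eq_mul_div, div_one]
    exact mul_exp (mul_exp h1 (le_exp (y := Y) (by linarith)) (by linarith) le_rfl)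
      (mul_exp h2 h1 (by positivity) le_rfl) (by positivity) (by linarith)
  · rw [div_div, Real.exp_neg, ← one_div]
    refine one_div_le_one_div_of_le (by positivity) ?_
    rw [pow_succ]
    exact mul_exp h1 (mul_exp h2 le_rfl (by positivity) le_rfl) (by positivity) (by linarith)

theorem num2 {Y N : ℝ} (hY : 10 ≤ Y) {ρ : ℕ} (hρ : (ρ : ℝ) ≤ Y) (hN : Real.exp (Y ^ 10) ≤ N) :
    (⌈Real.exp (10 * Y ^ 2)⌉₊ : ℝ) ^ ρ / N + ρ * (1 / ⌈Real.exp (10 * Y ^ 2)⌉₊) ≤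
      Real.exp (-(9 * Y ^ 2)) := by
  have h0 := Real.exp_pos (10 * Y ^ 2)
  have h1 := Nat.le_ceil (Real.exp (10 * Y ^ 2))
  have h2 := (Nat.ceil_lt_add_one h0.le).le
  have h6 : 10 * Y ≤ Y ^ 2 := by nlinarith
  have h3 : (⌈Real.exp (10 * Y ^ 2)⌉₊ : ℝ) ≤ Real.exp (11 * Y ^ 2) := by
    have k1 : 1 ≤ Real.exp (10 * Y ^ 2) := Real.one_le_exp (by positivity)
    exact (h2.trans (by linarith)).trans (mul_exp (a := 2) (x := Y ^ 2) (le_exp (by linarith)) le_rfl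
      h0.le (by linarith))
  have h4 := pw_exp (n := ρ) (Nat.cast_nonneg _) h3
  have h5 : Y ^ 5 ≤ Y ^ 10 := pow_le_pow_right₀ (by linarith) (by norm_num)
  have hρ0 : (0 : ℝ) ≤ ρ := Nat.cast_nonneg ρ
  have h7 : ρ * (11 * Y ^ 2) + 10 * Y ^ 2 ≤ Y ^ 5 := by
    have k1 : ρ * (11 * Y ^ 2) ≤ Y * (11 * Y ^ 2) := mul_le_mul_of_nonneg_right hρ (by positivity)
    have k2 : 100 * Y ^ 3 ≤ Y ^ 5 := by nlinarith [pow_pos (by linarith : 0 < Y) 3]
    nlinarith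
  have h8 : (⌈Real.exp (10 * Y ^ 2)⌉₊ : ℝ) ^ ρ / N ≤ Real.exp (-(10 * Y ^ 2)) := by
    rw [div_le_iff₀ (lt_of_lt_of_le (Real.exp_pos _) hN)]
    refine h4.trans (le_trans ?_ (mul_le_mul_of_nonneg_left hN (Real.exp_pos _).le))
    rw [← Real.exp_add]
    exact Real.exp_le_exp.2 (by linarith)
  have h9 : (1 : ℝ) / ⌈Real.exp (10 * Y ^ 2)⌉₊ ≤ Real.exp (-(10 * Y ^ 2)) := by
    rw [Real.exp_neg, ← one_div]
    exact one_div_le_one_div_of_le h0 h1
  have h10 := mul_le_mul hρ h9 (by positivity) (by linarith)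
  have h11 := mul_exp (a := 1 + Y) (x := Y) (le_exp (by linarith)) (le_refl (Real.exp (-(10 * Y ^ 2))))
    (Real.exp_pos _).le (z := -(9 * Y ^ 2)) (by linarith)
  linarith

theorem nz_le (x : ℝ) {y : ℝ} (h : ∃ n : ℤ, y = n) : nz x ≤ |x - y| := by
  obtain ⟨n, rfl⟩ := h
  exact round_le x n

end Fb

open Fb in
theorem fib1 : FIB1 := by
  refine ⟨10, ?_⟩
  intro Y q N κ ι _ _ Ψ Z θ c ε hS hκ hZ hd h1 hε0 hε h2
  classical
  have hY : 10 ≤ Y := by exact_mod_cast hS.C1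
  have hY2 : 10 * Y ≤ Y ^ 2 := by nlinarith
  have hY10 : 10 * Y ^ 2 ≤ Y ^ 10 :=
    le_trans (by nlinarith : 10 * Y ^ 2 ≤ Y ^ 3) (pow_le_pow_right₀ (by linarith) (by norm_num))
  have hN1 : 1 ≤ N := by
    by_contra k
    have := hS.lg
    rw [show N = 0 by omega, Nat.cast_zero, Real.log_zero] at this
    linarith
  have hN0 : (0 : ℝ) < N := by exact_mod_cast hN1
  have hN : Real.exp (Y ^ 10) ≤ N := (Real.le_log_iff_exp_le hN0).1 hS.lg
  obtain ⟨m, hm⟩ : ∃ m, m = ⌈Real.exp (3 * Y)⌉₊ := ⟨_, rfl⟩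
  have hm3 : Real.exp (3 * Y) ≤ m := hm ▸ Nat.le_ceil _
  have hm1 : 1 ≤ m := hm ▸ Nat.ceil_pos.2 (Real.exp_pos _)
  have hm0 : (0 : ℝ) < m := by exact_mod_cast hm1
  have hm4 : (m : ℝ) ≤ Real.exp (4 * Y) := by
    have k1 := (Nat.ceil_lt_add_one (Real.exp_pos (3 * Y)).le).le
    have k2 : 1 ≤ Real.exp (3 * Y) := Real.one_le_exp (by linarith)
    rw [← hm] at k1
    exact (k1.trans (by linarith)).trans (mul_exp (a := 2) (x := Y) (le_exp (by linarith)) le_rfl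
      (Real.exp_pos _).le (by linarith))
  have hc : (5 * N) ^ q < (m + 1) * Z.card := by
    have k1 : (5 : ℝ) ^ q ≤ Real.exp (2 * Y) := by
      have k0 : (5 : ℝ) ≤ Real.exp 2 := by
        have := Real.add_one_le_exp 1
        have e : Real.exp 2 = Real.exp 1 * Real.exp 1 := by rw [← Real.exp_add]; norm_num
        have := Real.exp_one_gt_d9
        nlinarith
      exact (pw_exp (by norm_num) k0).trans (Real.exp_le_exp.2 (by linarith [hS.qY]))
    have k2 : ((5 : ℝ) * N) ^ q < (m + 1) * Z.card := by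
      calc ((5 : ℝ) * N) ^ q ≤ Real.exp (2 * Y) * (N : ℝ) ^ q := by
            rw [mul_pow]; exact mul_le_mul_of_nonneg_right k1 (by positivity)
        _ = Real.exp (3 * Y) * (Real.exp (-Y) * (N : ℝ) ^ q) := by
            rw [← mul_assoc, ← Real.exp_add]; ring_nf
        _ < (m + 1) * (Real.exp (-Y) * (N : ℝ) ^ q) :=
            mul_lt_mul_of_pos_right (by linarith) (by positivity)
        _ ≤ _ := mul_le_mul_of_nonneg_left hd (by positivity)
    exact_mod_cast k2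
  obtain ⟨n1, n2, n3⟩ := num1 hY hκ hm1 hm4
  have hfr : (finrank ℝ (EuclideanSpace ℝ (Fin q ⊕ κ)) : ℝ) ≤ 2 * Y := by
    rw [finrank_euclideanSpace, Fintype.card_sum, Fintype.card_fin]
    push_cast
    linarith [hS.qY]
  have hfr0 : (0 : ℝ) ≤ finrank ℝ (EuclideanSpace ℝ (Fin q ⊕ κ)) := Nat.cast_nonneg _
  have heY : Y ≤ Real.exp Y := le_exp (by linarith)
  obtain ⟨b0, k, hb0, hk1, hk2, hk3⟩ := H21.gaplv (V := ι → ℝ) (Lam (N : ℝ) Ψ) (hfin hN0.ne')
    (hsp hN0.ne') (Fintype.card κ) m (1 / (4 * (m : ℝ))) (Real.exp (7 * Y)) (by positivity)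
    (Real.one_le_exp (by linarith)) hm1 (le_exp (by linarith))
    (by
      have k1 : 2 * (finrank ℝ (EuclideanSpace ℝ (Fin q ⊕ κ)) : ℝ) ^ 2 ≤ 8 * (Y * Y) := by nlinarith
      have k2 := mul_exp (a := 8) (x := Y) (le_exp (by linarith))
        (mul_exp heY heY (by linarith) le_rfl) (by positivity) le_rfl
      have k3 := mul_exp hm4 (k1.trans k2) (by positivity) (z := 7 * Y) (by linarith)
      linarith)
    (hsm hN0 ⌈Real.exp (10 * Y ^ 2)⌉₊ (Nat.ceil_pos.2 (Real.exp_pos _))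
      ((num2 hY hκ hN).trans n3))
  obtain ⟨n, hn1, hn2, hn3⟩ := hk3 (IZ ι) (L0 θ c ∘ₗ ps N Ψ) (2 * ε) (1 / 2) (by linarith)
    (fun x hx h => funext fun a => by
      obtain ⟨z, hz⟩ := hx a
      have k1 := (norm_le_pi_norm x a).trans h
      rw [hz, Real.norm_eq_abs] at k1
      have k2 : |z| < 1 := by exact_mod_cast (by linarith : |(z : ℝ)| < 1)
      rw [hz, Int.abs_lt_one_iff.1 k2]
      simp)
    (by
      have k1 := pw_exp (n := 3) hm0.le hm4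
      have k2 := mul_exp (a := 12) (x := Y + Y) (le_exp (by linarith))
        (mul_exp k1 hε hε0 le_rfl) (by positivity) (z := 0) (by push_cast; linarith)
      rw [Real.exp_zero] at k2
      linarith)
    (short hN1 hm1 Z θ c hε0 hZ hc h1 h2)
  have hnm : (n : ℝ) ≤ m := by exact_mod_cast hn2
  let e := Fintype.equivFin κ
  let k' : κ → EuclideanSpace ℝ (Fin q ⊕ κ) →ₗ[ℝ] ℝ := fun s =>
    if h : (e s).1 < b0 then k ⟨(e s).1, h⟩ else 0
  have q1 : ∀ s, ∀ x ∈ Lam (N : ℝ) Ψ, ∃ z : ℤ, k' s x = z := fun s x hx => by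
    simp only [k']
    split_ifs
    · exact hk1 _ x hx
    · exact ⟨0, by simp⟩
  have q2 : ∀ s x, |k' s x| ≤ Real.exp (Y ^ 10) * ‖x‖ := fun s x => by
    simp only [k']
    split_ifs
    · exact (hk2 _ x).trans (mul_le_mul_of_nonneg_right n1 (norm_nonneg _))
    · simp only [LinearMap.zero_apply, abs_zero]
      positivity
  have q3 : ∀ x ∈ Lam (N : ℝ) Ψ, (∀ s, k' s x = 0) → ∀ t : ℝ, ‖x‖ ≤ Y * t → ∀ a,
      nz (n * L0 θ c (ps N Ψ x) a) ≤ Real.exp (Y ^ 10) * ε * t := by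
    intro x hx h0 t ht a
    obtain ⟨y, hy, h⟩ := hn3 x hx fun i => by
      have := h0 (e.symm ⟨i.1, lt_of_lt_of_le i.2 hb0⟩)
      simpa [k'] using this
    refine (nz_le _ (hy a)).trans (((norm_le_pi_norm _ a).trans h).trans ?_)
    have t0 : 0 ≤ t := by
      by_contra k
      have := mul_neg_of_pos_of_neg (by linarith : 0 < Y) (not_le.1 k)
      linarith [norm_nonneg x]
    calc _ ≤ m * (2 * (2 * ε) * Real.exp (7 * Y) ^ Fintype.card κ / (1 / (4 * (m : ℝ))) * (Y * t)) :=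
        mul_le_mul hnm (mul_le_mul_of_nonneg_left ht (by positivity)) (by positivity) hm0.le
      _ = 4 * m * Y * (Real.exp (7 * Y) ^ Fintype.card κ / (1 / (4 * (m : ℝ)))) * (ε * t) := by ring
      _ ≤ Real.exp (Y ^ 10) * (ε * t) := mul_le_mul_of_nonneg_right n2 (mul_nonneg hε0 t0)
      _ = _ := by ring
  choose b hb using fun s r => q1 s _ (sing_mem (Ψ := Ψ) hN0.ne' (Sum.inr r))
  refine ⟨b, n, hn1, hnm.trans (hm4.trans (Real.exp_le_exp.2 (by linarith))), fun s r => ?_,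
    fun s l => ?_, fun v B hB hv hvB a => ?_, fun hκ0 a l => ?_⟩
  · rw [← hb]
    refine (q2 s _).trans (mul_le_of_le_one_right (Real.exp_pos _).le ((nle _).trans ?_))
    simp [Fintype.sum_sum_type, ph_l, ph_r, Pi.single_apply, apply_ite abs]
  · obtain ⟨z, hz⟩ := q1 s _ (sing_mem (Ψ := Ψ) hN0.ne' (Sum.inl l))
    have k1 := (q2 s _).trans (mul_le_mul_of_nonneg_left
      (nle1 (Ψ := Ψ) hN0 l 1 (fun r => Ψ r l) 0 zero_le_one (fun r => by simp)) (Real.exp_pos _).le)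
    rw [ph_sum, map_sum, Fintype.sum_sum_type, mul_zero, add_zero, mul_one_div,
      sum_eq_single l (fun l' _ hl => by simp [hl]) (fun h => absurd (mem_univ l) h)] at k1
    simp only [map_smul, hb, hz, Sum.elim_inl, Sum.elim_inr, Pi.single_eq_same, smul_eq_mul,
      one_mul] at k1
    refine (nz_le _ (y := -z) ⟨-z, by simp⟩).trans (le_trans (le_of_eq ?_) k1)
    congr 1
    rw [sub_neg_eq_add, add_comm]
    simp only [mul_comm]
  · have k1 := q3 (ph N Ψ (Sum.elim 0 fun r => (v r : ℝ)))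
      (ph_mem hN0.ne' fun i => by
        rcases i with l | r
        · exact ⟨0, by simp⟩
        · exact ⟨v r, rfl⟩)
      (fun s => by
        rw [ph_sum, map_sum, Fintype.sum_sum_type]
        have : ∑ r, (b s r : ℝ) * v r = 0 := by exact_mod_cast hv s
        simpa [hb, mul_comm] using this) B
      ((nle _).trans (by
        rw [Fintype.sum_sum_type]
        simp only [ph_l, ph_r, Sum.elim_inl, Sum.elim_inr, Pi.zero_apply, zero_div, abs_zero,
          sum_const_zero, zero_add, mul_zero, zero_sub, abs_neg]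
        refine (sum_le_card_nsmul _ _ B fun r _ => hvB r).trans ?_
        rw [card_univ, nsmul_eq_mul]
        exact mul_le_mul_of_nonneg_right hκ hB)) a
    rw [ps_ph hN0.ne', L0_ap] at k1
    simpa using k1
  · have k1 := q3 (ph N Ψ (Sum.elim (Pi.single l 1) 0))
      (ph_mem hN0.ne' fun i => by
        rcases i with l' | r
        · by_cases h : l' = l
          · exact ⟨1, by simp [h]⟩
          · exact ⟨0, by simp [h]⟩
        · exact ⟨0, by simp⟩)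
      (fun s => hκ0.elim s) (1 / N)
      ((nle1 hN0 l 1 0 0 zero_le_one fun r => hκ0.elim r).trans (by
        rw [mul_zero, add_zero]
        exact le_mul_of_one_le_left (by positivity) (by linarith))) a
    rw [ps_ph hN0.ne', L0_ap, mul_one_div] at k1
    simpa [Pi.single_apply] using k1

end

end Vale.Agent.P057T.Loc
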