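import Vale.Agent.P057T.Loc.Defs

/-! The last step of the rounds. -/

set_option linter.all false

open Finset
open scoped BigOperators

namespace Vale.Agent.P057T.Loc

open Vale.Agent.P057Z Vale.Agent.P057L Vale.Agent.P057T.Gkh

namespace FinP

theorem nz_le (x : ℝ) (k : ℤ) : nz x ≤ |x - k| := round_le x k

theorem nz_sub (x y : ℝ) : nz (x - y) ≤ nz x + nz y := by
  refine (nz_le _ (round x - round y)).trans ?_
  have h : x - y - ((round x - round y : ℤ) : ℝ) = (x - round x) - (y - round y) := by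
    push_cast; ring
  rw [h]
  exact abs_sub _ _

theorem nz_add (x y : ℝ) : nz (x + y) ≤ nz x + nz y := by
  refine (nz_le _ (round x + round y)).trans ?_
  have h : x + y - ((round x + round y : ℤ) : ℝ) = (x - round x) + (y - round y) := by
    push_cast; ring
  rw [h]
  exact abs_add_le _ _

theorem dvd_of (n : ℕ) (y : ℤ) (hn : 1 ≤ n) (h : nz ((y : ℝ) * (n : ℝ)⁻¹) < (n : ℝ)⁻¹) :
    ∃ m : ℤ, y = n * m := by
  have hn0 : (0 : ℝ) < n := by exact_mod_cast hn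
  refine ⟨round ((y : ℝ) * (n : ℝ)⁻¹), ?_⟩
  set m := round ((y : ℝ) * (n : ℝ)⁻¹) with hm
  have h1 : (y : ℝ) * (n : ℝ)⁻¹ - m = ((y - n * m : ℤ) : ℝ) * (n : ℝ)⁻¹ := by
    push_cast; field_simp
  have h2 : |((y - n * m : ℤ) : ℝ)| * (n : ℝ)⁻¹ < 1 * (n : ℝ)⁻¹ := by
    have h3 : nz ((y : ℝ) * (n : ℝ)⁻¹) = |((y - n * m : ℤ) : ℝ)| * (n : ℝ)⁻¹ := by
      unfold nz
      rw [← hm, h1, abs_mul, abs_of_pos (inv_pos.2 hn0)]
    rw [← h3, one_mul]; exact h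
  have h4 : |((y - n * m : ℤ) : ℝ)| < 1 := lt_of_mul_lt_mul_right h2 (inv_pos.2 hn0).le
  have h5 : |y - n * m| < 1 := by exact_mod_cast h4
  have h6 := abs_lt.1 h5
  omega

theorem dt_small {q : ℕ} (θ : Fin q → ℝ) (y : Vz q) (n : ℕ) (hn : 1 ≤ n) (δ N : ℝ)
    (hd : ∀ l, ∃ m : ℤ, y l = n * m) (hθ : ∀ l, nz (n * θ l) ≤ δ) (hy : ∀ l, |(y l : ℝ)| ≤ N) :
    nz (dt θ y) ≤ q * (δ * N) := by
  choose m hm using hd
  have hn1 : (1 : ℝ) ≤ n := by exact_mod_cast hn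
  refine (nz_le _ (∑ l, round (n * θ l) * m l)).trans ?_
  have h1 : dt θ y - ((∑ l, round (n * θ l) * m l : ℤ) : ℝ) =
      ∑ l, (n * θ l - round (n * θ l)) * (m l : ℝ) := by
    unfold dt
    push_cast
    rw [← sum_sub_distrib]
    refine sum_congr rfl fun l _ => ?_
    rw [hm l]; push_cast; ring
  rw [h1]
  refine (abs_sum_le_sum_abs _ _).trans ?_
  have h2 : ∀ l ∈ (univ : Finset (Fin q)), |(n * θ l - round (n * θ l)) * (m l : ℝ)| ≤ δ * N := by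
    intro l _
    rw [abs_mul]
    have h3 : |(m l : ℝ)| ≤ N := by
      refine le_trans ?_ (hy l)
      rw [hm l]; push_cast
      rw [abs_mul, abs_of_nonneg (by linarith : (0 : ℝ) ≤ n)]
      nlinarith [abs_nonneg (m l : ℝ)]
    exact mul_le_mul (hθ l) h3 (abs_nonneg _) ((abs_nonneg _).trans (hθ l))
  refine (sum_le_sum h2).trans (le_of_eq ?_)
  simp

theorem dd_mono {j q : ℕ} {S : Finset (Pt j q)} {N : ℕ} {Y Y' : ℝ} (h : Dd S N Y) (hY : Y ≤ Y') :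
    Dd S N Y' :=
  ⟨h.1, le_trans (mul_le_mul_of_nonneg_right (Real.exp_le_exp.2 (by linarith)) (by positivity)) h.2⟩

theorem sh_mono {j q : ℕ} {x x' : ℝ} {W : Pt j q} (h : Sh x W) (hx : x ≤ x') : Sh x' W :=
  fun i l => (h i l).trans hx

theorem nums (j C1 C2 C3 C4 : ℕ) : ∃ C : ℕ, j + 1 ≤ C ∧ C1 ≤ C ∧ C2 ≤ C ∧ C3 ≤ C ∧ C4 ≤ C ∧
    ∀ Y : ℝ, (C : ℝ) ≤ Y → ∃ Y1 Y2 B Y3 W : ℝ, 2 ≤ Y ∧ Y ≤ Y1 ∧ Y ^ C1 ≤ Y1 ∧ Y1 ^ C2 ≤ Y2 ∧
      Y1 ≤ Y2 ∧ Y2 ^ C3 ≤ B ∧ Y2 ≤ B ∧ 4 * B ≤ Y3 ∧ Y * Y ≤ Y3 ∧ Y3 ^ C4 ≤ W ∧ Y3 ≤ W ∧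
      16 * W ≤ Y ^ C := by
  obtain ⟨e1, he1⟩ : ∃ e, e = C1 + 1 := ⟨_, rfl⟩
  obtain ⟨e2, he2⟩ : ∃ e, e = e1 * (C2 + 1) := ⟨_, rfl⟩
  obtain ⟨e3, he3⟩ : ∃ e, e = e2 * (C3 + 1) := ⟨_, rfl⟩
  obtain ⟨e4, he4⟩ : ∃ e, e = e3 + 2 := ⟨_, rfl⟩
  obtain ⟨E, hE⟩ : ∃ e, e = e4 * (C4 + 1) := ⟨_, rfl⟩
  obtain ⟨C, hC⟩ : ∃ e, e = E + 4 + j + C1 + C2 + C3 + C4 := ⟨_, rfl⟩
  refine ⟨C, ?_⟩
  refine ⟨by omega, by omega, by omega, by omega, by omega, fun Y hCY => ?_⟩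
  have h4C : (4 : ℝ) ≤ C := by exact_mod_cast (by omega : 4 ≤ C)
  have hY2 : (2 : ℝ) ≤ Y := by linarith
  have pw : ∀ a b : ℕ, a ≤ b → Y ^ a ≤ Y ^ b := fun a b h => pow_le_pow_right₀ (by linarith) h
  have pw1 : ∀ a : ℕ, 1 ≤ a → Y ≤ Y ^ a := fun a h => by simpa using pw 1 a h
  have a1 : 1 ≤ e1 := by omega
  have a12 : e1 ≤ e2 := by rw [he2]; nlinarith
  have a23 : e2 ≤ e3 := by rw [he3]; nlinarith
  have a4E : e4 ≤ E := by rw [hE]; nlinarith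
  obtain ⟨Y1, hY1⟩ : ∃ x, x = Y ^ e1 := ⟨_, rfl⟩
  obtain ⟨Y2, hY2'⟩ : ∃ x, x = Y ^ e2 := ⟨_, rfl⟩
  obtain ⟨B, hB⟩ : ∃ x, x = Y ^ e3 := ⟨_, rfl⟩
  obtain ⟨Y3, hY3⟩ : ∃ x, x = Y ^ e4 := ⟨_, rfl⟩
  obtain ⟨W, hW⟩ : ∃ x, x = Y ^ E := ⟨_, rfl⟩
  have b1 : Y ≤ Y1 := hY1 ▸ pw1 _ a1
  have b2 : Y ^ C1 ≤ Y1 := hY1 ▸ pw _ _ (by omega)
  have b3 : Y1 ^ C2 ≤ Y2 := by
    rw [hY1, hY2', ← pow_mul]; exact pw _ _ (by rw [he2]; nlinarith)
  have b4 : Y1 ≤ Y2 := by rw [hY1, hY2']; exact pw _ _ a12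
  have b5 : Y2 ^ C3 ≤ B := by
    rw [hY2', hB, ← pow_mul]; exact pw _ _ (by rw [he3]; nlinarith)
  have b6 : Y2 ≤ B := by rw [hY2', hB]; exact pw _ _ a23
  have b7 : B * (Y * Y) = Y3 := by rw [hB, hY3, he4]; ring
  have b8 : 4 * B ≤ Y3 := by nlinarith [mul_nonneg (by linarith : (0 : ℝ) ≤ B) (by nlinarith : (0 : ℝ) ≤ Y * Y - 4)]
  have b9 : Y * Y ≤ Y3 := by nlinarith [mul_nonneg (by linarith : (0 : ℝ) ≤ B - 1) (by nlinarith : (0 : ℝ) ≤ Y * Y)]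
  have b10 : Y3 ^ C4 ≤ W := by
    rw [hY3, hW, ← pow_mul]; exact pw _ _ (by rw [hE]; nlinarith)
  have b11 : Y3 ≤ W := by rw [hY3, hW]; exact pw _ _ a4E
  have b12 : 16 * W ≤ Y ^ C := by
    have h1 : Y ^ (E + 4) ≤ Y ^ C := pw _ _ (by omega)
    have h2 : (2 : ℝ) ^ 4 ≤ Y ^ 4 := pow_le_pow_left₀ (by norm_num) hY2 4
    have h3 : 0 ≤ W := by linarith
    rw [pow_add, ← hW] at h1
    nlinarith
  exact ⟨Y1, Y2, B, Y3, W, hY2, b1, b2, b3, b4, b5, b6, b8, b9, b10, b11, b12⟩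

theorem two_le (j : ℕ) (Y ε : ℝ) (h : ((j + 1 : ℕ) : ℝ) ≤ Y) (h0 : 0 ≤ ε) :
    2 ^ (j + 1) * ε + Real.exp Y * ε ≤ Real.exp (Y + 1) * ε := by
  have e2' : (2 : ℝ) ≤ Real.exp 1 := by linarith [Real.add_one_le_exp (1 : ℝ)]
  have h1 : (2 : ℝ) ^ (j + 1) ≤ Real.exp Y := by
    calc (2 : ℝ) ^ (j + 1) ≤ Real.exp 1 ^ (j + 1) := pow_le_pow_left₀ (by norm_num) e2' _
      _ = Real.exp ((j + 1 : ℕ) * 1) := (Real.exp_nat_mul _ _).symm
      _ ≤ _ := Real.exp_le_exp.2 (by linarith)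
  rw [Real.exp_add]
  have h3 := Real.exp_pos Y
  nlinarith [mul_le_mul_of_nonneg_right h1 h0,
    mul_le_mul_of_nonneg_right e2' (mul_nonneg h3.le h0)]

theorem endb (q N Y Z B W V ε : ℝ) (hN : 0 < N) (h0 : 0 ≤ ε) (hq : q ≤ Y) (hY : 2 ≤ Y)
    (hW : Y ≤ W) (hZ : Z ≤ W) (hB : B ≤ W) (hV : 16 * W ≤ V) :
    Real.exp Y * ε + q * (Real.exp Z * (Real.exp B * (Real.exp (Y + 1) * ε) / N) * N) ≤
      Real.exp V * ε := by
  have k5 : q * (Real.exp Z * (Real.exp B * (Real.exp (Y + 1) * ε) / N) * N) =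
      q * Real.exp (Z + B + (Y + 1)) * ε := by
    rw [Real.exp_add (Z + B), Real.exp_add Z]; field_simp
  have k6 : q * Real.exp (Z + B + (Y + 1)) ≤ Real.exp (5 * W) := by
    have h1 : q ≤ Real.exp W := by linarith [Real.add_one_le_exp W]
    calc _ ≤ Real.exp W * Real.exp (4 * W) :=
          mul_le_mul h1 (Real.exp_le_exp.2 (by linarith)) (Real.exp_pos _).le (Real.exp_pos _).le
      _ = _ := by rw [← Real.exp_add]; ring_nf
  have k7 : Real.exp Y ≤ Real.exp (5 * W) := Real.exp_le_exp.2 (by linarith)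
  have k8 : 2 * Real.exp (5 * W) ≤ Real.exp V := by
    have h1 : (2 : ℝ) ≤ Real.exp W := by linarith [Real.add_one_le_exp W]
    calc _ ≤ Real.exp W * Real.exp (5 * W) := mul_le_mul_of_nonneg_right h1 (Real.exp_pos _).le
      _ = Real.exp (W + 5 * W) := (Real.exp_add _ _).symm
      _ ≤ _ := Real.exp_le_exp.2 (by linarith)
  rw [k5]
  linarith [mul_le_mul_of_nonneg_right k6 h0, mul_le_mul_of_nonneg_right k7 h0,
    mul_le_mul_of_nonneg_right k8 h0]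

end FinP

open FinP

theorem fin (hT : TB) (hD : DIF) (hP : POP) (hF : FIB1) (j : ℕ) (hL : LOCT j) : FIN j := by
  obtain ⟨C1, hD⟩ := hD (j + 1)
  obtain ⟨C2, hP⟩ := hP j
  obtain ⟨C3, hF⟩ := hF
  obtain ⟨C4, hL⟩ := hL
  obtain ⟨C, c0, c1, c2, c3, c4, hnum⟩ := nums j C1 C2 C3 C4
  refine ⟨C, ?_⟩
  intro Y q N ι _ L t F g S ε R T Ψ L0 L1 θ c hS hι h0 hε hI hSt
  have hCY := hS.C1
  obtain ⟨Y1, Y2, B, Y3, W, hY2, b1, b2, b3, b4, b5, b6, b8, b9, b10, b11, b12⟩ := hnum Y hCY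
  obtain ⟨V, hV⟩ : ∃ x, x = Y ^ C := ⟨_, rfl⟩
  have hlg := hS.lg
  rw [← hV] at b12 hε hlg ⊢
  have hqY := hS.qY
  have sz : ∀ (Ci : ℕ) (Yi : ℝ), Ci ≤ C → Y ≤ Yi → Yi ^ Ci ≤ V → Sz Ci Yi q N := by
    intro Ci Yi h1 h2 h3
    have h4 : (Ci : ℝ) ≤ C := by exact_mod_cast h1
    exact ⟨by linarith, hS.q1, by linarith, by linarith⟩
  have hN1 : (1 : ℝ) ≤ N := by
    have h1 : 0 < Real.log N := by linarith
    by_contra hc
    have := Real.log_nonpos (Nat.cast_nonneg N) (not_le.1 hc).le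
    linarith
  have hN0 : (0 : ℝ) < N := by linarith
  obtain ⟨t1, -, t3, -, t5, -, -, t8, -, -⟩ := hT (j + 1) q
  obtain ⟨u1, -, -, -, -, -, -, -, u9, -⟩ := hT j q
  obtain ⟨S', hS', hv⟩ := hD Y q N ι L1 _ F g S ε (sz _ _ c1 le_rfl (by linarith)) hSt.l1
    ⟨hSt.t1, fun a => t3 _ _ _ _ hSt.sub (hI.top a), hI.ig, hI.dd, hI.sm⟩
  obtain ⟨X, -, hX, hlab⟩ := hP Y1 q N S' (sz _ _ c2 b1 (by linarith)) (dd_mono hS' b2)
  obtain ⟨ε1, hε1⟩ : ∃ x, x = Real.exp (Y + 1) * ε := ⟨_, rfl⟩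
  have hε10 : 0 ≤ ε1 := by rw [hε1]; positivity
  have hε1W : ε1 ≤ Real.exp (-(2 * W)) := by
    rw [hε1]
    calc Real.exp (Y + 1) * ε ≤ Real.exp (Y + 1) * Real.exp (-V) :=
          mul_le_mul_of_nonneg_left hε (Real.exp_pos _).le
      _ = Real.exp (Y + 1 + -V) := (Real.exp_add _ _).symm
      _ ≤ _ := Real.exp_le_exp.2 (by linarith)
  have hsum : 2 ^ (j + 1) * ε + Real.exp Y * ε ≤ ε1 := by
    rw [hε1]
    exact two_le j Y ε (le_trans (by exact_mod_cast c0) hCY) h0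
  have hnf : ∀ a y x, nf ∅ Ψ (θ a) (c a) y x = dt (θ a x) y := by
    intro a y x; simp [nf]
  have hfib : ∀ x ∈ X, ∃ n : ℕ, 1 ≤ n ∧ (n : ℝ) ≤ Real.exp B ∧
      ∀ a l, nz (n * θ a x l) ≤ Real.exp B * ε1 / N := by
    intro x hx
    obtain ⟨Z, hZ, hZS⟩ := hX x hx
    obtain ⟨b, n, hn1, hn2, -, -, -, hk⟩ := hF Y2 q N Empty ι (fun r => r.elim) Z (fun a => θ a x)
      (fun _ r => r.elim) ε1 (sz _ _ c3 (by linarith) (by linarith))
      (by simp; linarith) (fun y hy l => hS'.1 _ (hZS y hy) 0 l)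
      (le_trans (mul_le_mul_of_nonneg_right (Real.exp_le_exp.2 (by linarith)) (by positivity)) hZ)
      (fun y _ r => r.elim) hε10 (hε1W.trans (Real.exp_le_exp.2 (by linarith))) (by
        intro y hy a
        obtain ⟨k1, k2, k3⟩ := hv _ (hZS y hy)
        have k4 := hSt.eq y x k1 k2 a
        rw [hnf] at k4
        have k5 := nz_sub (F a (cn y x)) (F a (cn y x) - dt (θ a x) y)
        rw [sub_sub_cancel] at k5
        rw [Finset.univ_eq_empty, sum_empty, add_zero]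
        linarith [k3 a])
    have hm : Real.exp (Y2 ^ C3) ≤ Real.exp B := Real.exp_le_exp.2 b5
    refine ⟨n, hn1, hn2.trans hm, fun a l => (hk inferInstance a l).trans ?_⟩
    exact div_le_div_of_nonneg_right (mul_le_mul_of_nonneg_right hm hε10) hN0.le
  choose! nn hn1 hn2 hn3 using hfib
  obtain ⟨b, X1, hX1, hd1, hb⟩ := hlab Unit B (fun x _ => (nn x : ℤ)) (by linarith) (by
    intro x hx _
    rw [Int.cast_natCast, abs_of_nonneg (Nat.cast_nonneg _)]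
    exact hn2 x hx)
  have hne : X1.Nonempty := by
    rw [← card_pos]
    have h1 : (0 : ℝ) < X1.card := lt_of_lt_of_le (by positivity) hd1.2
    exact_mod_cast h1
  obtain ⟨x0, hx0⟩ := hne
  have hnn : ∀ x ∈ X1, nn x = nn x0 := by
    intro x hx
    have h1 := congrFun ((hb x hx).trans (hb x0 hx0).symm) ()
    exact_mod_cast h1
  obtain ⟨n, hn⟩ : ∃ n, n = nn x0 := ⟨_, rfl⟩
  have n1 : 1 ≤ n := hn ▸ hn1 x0 (hX1 hx0)
  have n2 : (n : ℝ) ≤ Real.exp B := hn ▸ hn2 x0 (hX1 hx0)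
  have n0 : (0 : ℝ) < n := by exact_mod_cast n1
  obtain ⟨L0', hT0, -, hl0, -, hc0⟩ := hL Y3 q N (ι × Fin q) L0 t (fun a x => n * θ a.1 x a.2)
    (fun _ _ _ => 0) X1 (Real.exp B * ε1 / N) (sz _ _ c4 (by linarith) (by linarith))
    (by
      rw [Fintype.card_prod, Fintype.card_fin]; push_cast
      exact (mul_le_mul hι hqY (Nat.cast_nonneg _) (by linarith)).trans b9)
    (by linarith [hSt.l0]) (by positivity)
    (by
      refine (div_le_self (by positivity) hN1).trans ?_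
      calc Real.exp B * ε1 ≤ Real.exp B * Real.exp (-(2 * W)) :=
            mul_le_mul_of_nonneg_left hε1W (Real.exp_pos _).le
        _ = Real.exp (B + -(2 * W)) := (Real.exp_add _ _).symm
        _ ≤ _ := Real.exp_le_exp.2 (by linarith))
    ⟨hSt.t0, fun a => u1 _ _ _ _ ((hSt.cf a.1).1 a.2), fun _ _ _ _ _ => rfl,
      dd_mono hd1 (by simp; linarith), by
        intro x hx a
        rw [sum_const_zero, add_zero, hn, ← hnn x hx]
        exact hn3 x (hX1 hx) a.1 a.2⟩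
  obtain ⟨L', hT', hsub, hlen, hmem, hin⟩ := t8 (L1 ++ tl L0') (Fin q) (fun _ => insert 0 ∅)
    (fun l W => (W 0 l : ℝ) * (n : ℝ)⁻¹) (t5 _ _ hSt.t1 (u9 _ hT0))
    (fun l => Top.ent 0 l (notMem_empty _) (Top.cst _))
  have s1 : L1 ⊆ L' := fun p hp => hsub (List.mem_append_left _ hp)
  refine ⟨L', hT', fun p hp => s1 (hSt.sub hp), ?_, ?_, ?_⟩
  · have h1 : (L'.length : ℝ) ≤ L1.length + L0'.length + q := by
      rw [List.length_append, tl, List.length_map, Fintype.card_fin] at hlen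
      exact_mod_cast hlen
    linarith [hSt.l1]
  · intro hj hp p hp'
    rcases hmem p hp' with h | ⟨l, rfl⟩
    · rcases List.mem_append.1 h with h | h
      · exact hSt.pr hj hp p h
      · obtain ⟨p0, -, rfl⟩ := List.mem_map.1 h
        intro hu
        have h1 : (0 : Fin (j + 1)) ∈ p0.1.map (Fin.succEmb j) := by
          have h2 : p0.1.map (Fin.succEmb j) = univ := hu
          rw [h2]; exact mem_univ _
        obtain ⟨i, -, hi⟩ := mem_map.1 h1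
        exact Fin.succ_ne_zero i hi
    · intro hu
      have h2 : (insert 0 ∅ : Finset (Fin (j + 1))) = univ := hu
      have h1 : Fin.succ (⟨0, hj⟩ : Fin j) ∈ (insert 0 ∅ : Finset (Fin (j + 1))) := by
        rw [h2]; exact mem_univ _
      rcases mem_insert.1 h1 with h | h
      · exact Fin.succ_ne_zero _ h
      · exact notMem_empty _ h
  · intro Z hsh hvl a
    have hZ : cn (Z 0) (Fin.tail Z) = Z := Fin.cons_self_tail Z
    have ex : ∀ x : ℝ, x ≤ V → Real.exp (-V) ≤ Real.exp (-x) := fun x hx =>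
      Real.exp_le_exp.2 (by linarith)
    have k1 := hSt.eq (Z 0) (Fin.tail Z)
      (by rw [hZ]; exact sh_mono hsh (mul_le_mul_of_nonneg_right (ex _ (by linarith)) hN0.le))
      (by rw [hZ]; exact fun p hp => (hvl p (s1 hp)).trans (ex _ (by linarith))) a
    rw [hnf, hZ] at k1
    have k2 := hc0 (Fin.tail Z)
      (fun i l => (hsh i.succ l).trans (mul_le_mul_of_nonneg_right (ex _ (by linarith)) hN0.le))
      (fun p hp => (hvl _ (hsub (List.mem_append_right _ (List.mem_map_of_mem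
        (f := fun p : Cd j q => ((p.1.map (Fin.succEmb j), fun W => p.2 (Fin.tail W)) : Cd (j + 1) q))
        hp)))).trans (ex _ (by linarith)))
    have k3 := dt_small (θ a (Fin.tail Z)) (Z 0) n n1 _ N (fun l => dvd_of n _ n1 (by
        refine lt_of_le_of_lt (hvl _ ((hin l).2 (insert_nonempty _ _))) ?_
        calc Real.exp (-V) < Real.exp (-B) := Real.exp_lt_exp.2 (by linarith)
          _ = (Real.exp B)⁻¹ := Real.exp_neg _
          _ ≤ _ := inv_anti₀ n0 n2))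
      (fun l => k2 (a, l)) (fun l => (hsh 0 l).trans (by
        exact mul_le_of_le_one_left hN0.le (Real.exp_le_one_iff.2 (by linarith))))
    have k4 := nz_add (F a Z - dt (θ a (Fin.tail Z)) (Z 0)) (dt (θ a (Fin.tail Z)) (Z 0))
    rw [sub_add_cancel] at k4
    have k5 := endb q N Y (Y3 ^ C4) B W V ε hN0 h0 hqY hY2 (by linarith) b10 (by linarith) b12
    rw [← hε1] at k5
    linarith

end Vale.Agent.P057T.Loc
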