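import Vale.Agent.P057T.Loc.Defs

/-! Normal forms in the class zero. -/

set_option linter.all false

open Finset
open scoped BigOperators

namespace Vale.Agent.P057T.Loc

open Vale.Agent.P057Z Vale.Agent.P057L Vale.Agent.P057T.Gkh

noncomputable section

namespace Flt

variable {j q : ℕ}

def dn (t : Finset (Fin (j + 1))) : Finset (Fin j) := univ.filter fun i => i.succ ∈ t

theorem mem_dn {t : Finset (Fin (j + 1))} {i : Fin j} : i ∈ dn t ↔ i.succ ∈ t := by simp [dn]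

theorem mem_up {t : Finset (Fin j)} {i : Fin j} : i.succ ∈ up t ↔ i ∈ t := by simp [up]

theorem zero_up (t : Finset (Fin j)) : (0 : Fin (j + 1)) ∉ up t := by
  simp [up, Fin.succ_ne_zero]

theorem dn_up (t : Finset (Fin j)) : dn (up t) = t := by
  ext i; rw [mem_dn, mem_up]

theorem dn_ins0 (t : Finset (Fin (j + 1))) : dn (insert 0 t) = dn t := by
  ext i; simp [mem_dn, Fin.succ_ne_zero]

theorem dn_ins (i : Fin j) (t : Finset (Fin (j + 1))) : dn (insert i.succ t) = insert i (dn t) := by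
  ext i; simp [mem_dn]

theorem dn_un (a b : Finset (Fin (j + 1))) : dn (a ∪ b) = dn a ∪ dn b := by
  ext i; simp [mem_dn]

theorem dn_dj {a b : Finset (Fin (j + 1))} (h : Disjoint a b) : Disjoint (dn a) (dn b) :=
  disjoint_left.2 fun i ha hb => disjoint_left.1 h (mem_dn.1 ha) (mem_dn.1 hb)

theorem up_dn {t : Finset (Fin (j + 1))} (h : 0 ∈ t) : t = insert 0 (up (dn t)) := by
  ext i
  refine Fin.cases ?_ (fun i => ?_) i
  · simp [h]
  · simp [mem_up, mem_dn, Fin.succ_ne_zero]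

theorem rnd {x : ℝ} {n : ℤ} (h : |x - n| < 1 / 2) : round x = n := by
  have h2 := abs_sub_round x
  have h3 : |((round x - n : ℤ) : ℝ)| < 1 := by
    push_cast
    rw [abs_lt] at h ⊢
    rw [abs_le] at h2
    constructor <;> linarith [h.1, h.2, h2.1, h2.2]
  have h4 : |round x - n| < 1 := by exact_mod_cast h3
  rw [Int.abs_lt_one_iff] at h4
  omega

/-- normal forms -/
def NF {R : ℕ} (L0 : List (Cd j q)) (T : Fin R → Finset (Fin j)) (Ψ : Fin R → Pt j q → Fin q → ℝ)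
    (t : Finset (Fin j)) (F : Vz q → Pt j q → ℝ) : Prop :=
  ∃ θ c, Cf L0 T t θ c ∧ ∀ y x, Fv Ψ (((2 : ℝ) ^ R)⁻¹ / 4) y x → F y x = nf univ Ψ θ c y x

variable {R : ℕ} {L0 L1 : List (Cd j q)} {T : Fin R → Finset (Fin j)}
  {Ψ : Fin R → Pt j q → Fin q → ℝ} {t t' : Finset (Fin j)} {F F' : Vz q → Pt j q → ℝ}

theorem NF.zero : NF L0 T Ψ t fun _ _ => 0 :=
  ⟨fun _ _ => 0, fun _ _ => 0, ⟨fun _ => Top.zero _, fun _ => ⟨Top.zero _, Or.inr rfl⟩⟩,
    fun y x _ => by simp [nf, dt]⟩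

theorem NF.add (h : NF L0 T Ψ t F) (h' : NF L0 T Ψ t F') :
    NF L0 T Ψ t fun y x => F y x + F' y x := by
  obtain ⟨θ, c, ⟨a1, a2⟩, a3⟩ := h
  obtain ⟨θ', c', ⟨b1, b2⟩, b3⟩ := h'
  refine ⟨fun x l => θ x l + θ' x l, fun r x => c r x + c' r x,
    ⟨fun l => (a1 l).add (b1 l), fun r => ⟨(a2 r).1.add (b2 r).1, ?_⟩⟩, fun y x hv => ?_⟩
  · rcases (a2 r).2 with k | k
    · exact Or.inl k
    · rcases (b2 r).2 with k' | k'
      · exact Or.inl k'
      · exact Or.inr (by simp [k, k'])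
  · simp only [a3 y x hv, b3 y x hv, nf, dt, add_mul, sum_add_distrib]
    ring

theorem NF.mul (hT : TB) (h : NF L0 T Ψ t F) {G : Pt j q → ℝ} (hG : Top L0 t' G)
    (hd : Disjoint t t') : NF L0 T Ψ (t ∪ t') fun y x => F y x * G x := by
  obtain ⟨-, -, -, mul, -⟩ := hT j q
  obtain ⟨θ, c, ⟨a1, a2⟩, a3⟩ := h
  refine ⟨fun x l => θ x l * G x, fun r x => c r x * G x,
    ⟨fun l => mul _ _ _ _ _ hd (a1 l) hG, fun r => ?_⟩, fun y x hv => ?_⟩
  · rcases (a2 r).2 with k | k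
    · refine ⟨?_, Or.inl (k.trans subset_union_left)⟩
      rw [union_sdiff_distrib, (hd.symm.mono_right k).sdiff_eq_left]
      exact mul _ _ _ _ _ (hd.mono_left sdiff_subset) (a2 r).1 hG
    · have e : (fun x => c r x * G x) = fun _ => 0 := by simp [k]
      simp only [e]
      exact ⟨Top.zero _, Or.inr trivial⟩
  · simp only [a3 y x hv, nf, dt, add_mul, sum_mul]
    congr 1
    · exact sum_congr rfl fun _ _ => by ring
    · exact sum_congr rfl fun _ _ => by ring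

theorem NF.ent (l : Fin q) {G : Pt j q → ℝ} (hG : Top L0 t G) :
    NF L0 T Ψ t fun y x => (y l : ℝ) * G x := by
  refine ⟨fun x l' => if l' = l then G x else 0, fun _ _ => 0,
    ⟨fun l' => ?_, fun _ => ⟨Top.zero _, Or.inr rfl⟩⟩, fun y x _ => by simp [nf, dt, mul_comm]⟩
  by_cases h : l' = l
  · simp only [if_pos h]; exact hG
  · simp only [if_neg h]; exact Top.zero _

theorem NF.mono (hT : TB) (h : NF L0 T Ψ t F) (hL : L0 ⊆ L1) : NF L1 T Ψ t F := by
  obtain ⟨-, -, mono, -⟩ := hT j q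
  obtain ⟨θ, c, ⟨a1, a2⟩, a3⟩ := h
  exact ⟨θ, c, ⟨fun l => mono _ _ _ _ hL (a1 l), fun r => ⟨mono _ _ _ _ hL (a2 r).1, (a2 r).2⟩⟩, a3⟩

theorem half (R : ℕ) : ((2 : ℝ) ^ (R + 1))⁻¹ / 4 ≤ ((2 : ℝ) ^ R)⁻¹ / 4 := by
  gcongr
  · norm_num
  · omega

theorem NF.cons (h : NF L0 T Ψ t F) (T0 : Finset (Fin j)) (Ψ0 : Pt j q → Fin q → ℝ) :
    NF L0 (Fin.cons T0 T) (Fin.cons Ψ0 Ψ) t F := by
  obtain ⟨θ, c, ⟨a1, a2⟩, a3⟩ := h
  refine ⟨θ, Fin.cons (fun _ => 0) c, ⟨a1, fun r => ?_⟩, fun y x hv => ?_⟩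
  · exact Fin.cases ⟨Top.zero _, Or.inr rfl⟩ (fun r => a2 r) r
  · rw [a3 y x fun r => (hv r.succ).trans (half R)]
    simp [nf, Fin.sum_univ_succ]

/-- the invariant on brackets -/
def Br (L : List (Cd (j + 1) q)) (L0 : List (Cd j q)) (T : Fin R → Finset (Fin j))
    (Ψ : Fin R → Pt j q → Fin q → ℝ) : Prop :=
  ∀ p ∈ L, (0 ∉ p.1 → ∃ Z, Top L0 (dn p.1) Z ∧ ∀ y x, (round (p.2 (cn y x)) : ℝ) = Z x) ∧
    (0 ∈ p.1 → NF L0 T Ψ (dn p.1) fun y x => (round (p.2 (cn y x)) : ℝ))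

theorem frm (hT : TB) {L : List (Cd (j + 1) q)} (hB : Br L L0 T Ψ) {s : Finset (Fin (j + 1))}
    {F : Pt (j + 1) q → ℝ} (h : Top L s F) :
    (0 ∉ s → ∃ F0, Top L0 (dn s) F0 ∧ ∀ y x, F (cn y x) = F0 x) ∧
    (0 ∈ s → NF L0 T Ψ (dn s) fun y x => F (cn y x)) := by
  obtain ⟨-, -, -, mul, -⟩ := hT j q
  induction h with
  | cst c =>
    have e : dn (∅ : Finset (Fin (j + 1))) = ∅ := by simp [dn]
    rw [e]
    exact ⟨fun _ => ⟨fun _ => c, Top.cst c, fun _ _ => rfl⟩, fun h => absurd h (notMem_empty _)⟩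
  | zero s => exact ⟨fun _ => ⟨fun _ => 0, Top.zero _, fun _ _ => rfl⟩, fun _ => NF.zero⟩
  | add _ _ i1 i2 =>
    refine ⟨fun h => ?_, fun h => (i1.2 h).add (i2.2 h)⟩
    obtain ⟨A, a1, a2⟩ := i1.1 h
    obtain ⟨B, b1, b2⟩ := i2.1 h
    exact ⟨_, a1.add b1, fun y x => by simp only [a2, b2]⟩
  | @ent s F i l hi _ ih =>
    induction i using Fin.cases with
    | zero =>
      refine ⟨fun h => absurd (mem_insert_self _ _) h, fun _ => ?_⟩
      obtain ⟨A, a1, a2⟩ := ih.1 hi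
      rw [dn_ins0]
      simp only [a2]
      exact NF.ent l a1
    | succ i =>
      have hi' : i ∉ dn s := fun k => hi (mem_dn.1 k)
      rw [dn_ins]
      refine ⟨fun h => ?_, fun h => ?_⟩
      · obtain ⟨A, a1, a2⟩ := ih.1 fun k => h (mem_insert_of_mem k)
        exact ⟨_, a1.ent i l hi', fun y x => by simp only [a2]; rfl⟩
      · have h0 : 0 ∈ s := (mem_insert.1 h).resolve_left (Fin.succ_ne_zero i).symm
        have := (ih.2 h0).mul hT (Top.ent i l (notMem_empty i) (Top.cst 1))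
          (by simpa using hi')
        have e : dn s ∪ insert i ∅ = insert i (dn s) := by ext; simp [or_comm]
        rw [e] at this
        simp only [mul_one] at this
        simp only [mul_comm _ (F _)]
        exact this
  | @brk s F p hp hd _ ih =>
    rw [dn_un]
    refine ⟨fun h => ?_, fun h => ?_⟩
    · obtain ⟨A, a1, a2⟩ := ih.1 fun k => h (mem_union_right _ k)
      obtain ⟨Z, z1, z2⟩ := (hB p hp).1 fun k => h (mem_union_left _ k)
      exact ⟨_, mul _ _ _ _ _ (dn_dj hd) z1 a1, fun y x => by simp only [a2, z2]⟩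
    · by_cases h0 : 0 ∈ p.1
      · obtain ⟨A, a1, a2⟩ := ih.1 (disjoint_left.1 hd h0)
        simp only [a2]
        exact ((hB p hp).2 h0).mul hT a1 (dn_dj hd)
      · obtain ⟨Z, z1, z2⟩ := (hB p hp).1 h0
        have := (ih.2 ((mem_union.1 h).resolve_left h0)).mul hT z1 (dn_dj hd).symm
        rw [union_comm]
        simp only [z2, mul_comm (Z _)]
        exact this

theorem key {ρ : ℝ} {θ : Fin q → ℝ} {c : Fin R → ℝ} {ψ : Fin R → Fin q → ℝ} {y : Vz q}
    (h1 : ∀ r, nz (dt (ψ r) y) ≤ ρ)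
    (h0 : nz (dt (fun l => θ l + ∑ r, (c r - round (c r)) * ψ r l) y) ≤ ρ) :
    |dt θ y + ∑ r, c r * (round (dt (ψ r) y) : ℝ) -
      ((round (dt (fun l => θ l + ∑ r, (c r - round (c r)) * ψ r l) y) +
        ∑ r, round (c r) * round (dt (ψ r) y) : ℤ) : ℝ)| ≤ 2 ^ R * ρ := by
  have e : dt (fun l => θ l + ∑ r, (c r - round (c r)) * ψ r l) y =
      dt θ y + ∑ r, (c r - round (c r)) * dt (ψ r) y := by
    simp only [dt, add_mul, sum_add_distrib, sum_mul, mul_sum, mul_assoc]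
    rw [sum_comm]
  have ρ0 : 0 ≤ ρ := (abs_nonneg _).trans h0
  unfold nz at h0 h1
  generalize round (dt (fun l => θ l + ∑ r, (c r - round (c r)) * ψ r l) y) = m at *
  rw [e] at h0
  have h2 : |∑ r, (c r - round (c r)) * (dt (ψ r) y - round (dt (ψ r) y))| ≤ R * ρ := by
    refine (abs_sum_le_sum_abs _ _).trans ((sum_le_card_nsmul _ _ ρ fun r _ => ?_).trans (by simp))
    rw [abs_mul]
    exact (mul_le_mul ((abs_sub_round _).trans (by norm_num : (1 : ℝ) / 2 ≤ 1)) (h1 r)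
      (abs_nonneg _) zero_le_one).trans (one_mul _).le
  have h3 : (R : ℝ) + 1 ≤ 2 ^ R := by exact_mod_cast Nat.lt_two_pow_self
  have e2 : dt θ y + ∑ r, c r * (round (dt (ψ r) y) : ℝ) -
      ((m + ∑ r, round (c r) * round (dt (ψ r) y) : ℤ) : ℝ) =
      (dt θ y + ∑ r, (c r - round (c r)) * dt (ψ r) y - m) -
        ∑ r, (c r - round (c r)) * (dt (ψ r) y - round (dt (ψ r) y)) := by
    push_cast
    simp only [mul_sub, sub_mul, sum_sub_distrib]
    ring
  rw [e2]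
  refine (abs_sub _ _).trans ?_
  nlinarith

theorem main (hT : TB) {L : List (Cd (j + 1) q)} (h : TT L) :
    ∃ (L0 : List (Cd j q)) (R : ℕ) (T : Fin R → Finset (Fin j)) (Ψ : Fin R → Pt j q → Fin q → ℝ),
      TT L0 ∧ R ≤ L.length ∧ L0.length ≤ (L.length + 1) ^ 2 ∧
      (∀ r l, Top L0 (T r) fun x => Ψ r x l) ∧ (∀ r, ∃ p ∈ L, p.1 = insert 0 (up (T r))) ∧
      Br L L0 T Ψ ∧
      ∀ (ρ : ℝ) y x, ρ ≤ ((2 : ℝ) ^ R)⁻¹ / 4 → Fv Ψ ρ y x →
        ∀ p ∈ L, (0 : Fin (j + 1)) ∈ p.1 → nz (p.2 (cn y x)) ≤ 2 ^ R * ρ := by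
  obtain ⟨smul, tsum, mono, mul, -, -, -, ext, -⟩ := hT j q
  induction h with
  | nil =>
    exact ⟨[], 0, Fin.elim0, Fin.elim0, TT.nil, le_rfl, by simp, fun r => r.elim0, fun r => r.elim0,
      fun p hp => absurd hp List.not_mem_nil, fun _ _ _ _ _ p hp => absurd hp List.not_mem_nil⟩
  | @cons L t P _ _ hP ih =>
    obtain ⟨L0, R, T, Ψ, a1, a2, a3, a4, a5, a6, a7⟩ := ih
    have hF := frm hT a6 hP
    by_cases h0 : 0 ∈ t
    · obtain ⟨θ, c, ⟨c1, c2⟩, c3⟩ := hF.2 h0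
      obtain ⟨L1, b1, b2, b3, -, b5⟩ := ext L0 (Fin R) (fun r => dn t \ T r) c a1 fun r => (c2 r).1
      let Ψ0 : Pt j q → Fin q → ℝ := fun x l => θ x l + ∑ r, (c r x - round (c r x)) * Ψ r x l
      have kk : ∀ (ρ : ℝ) y x, ρ ≤ ((2 : ℝ) ^ (R + 1))⁻¹ / 4 →
          Fv (Fin.cons Ψ0 Ψ : Fin (R + 1) → Pt j q → Fin q → ℝ) ρ y x →
          round (P (cn y x)) = round (dt (Ψ0 x) y) + ∑ r, round (c r x) * round (dt (Ψ r x) y) ∧
            nz (P (cn y x)) ≤ 2 ^ R * ρ := by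
        intro ρ y x hρ hv
        have k1 := key (ρ := ρ) (θ := θ x) (c := fun r => c r x) (ψ := fun r => Ψ r x) (y := y)
          (fun r => hv r.succ) (hv 0)
        have k2 : P (cn y x) = dt (θ x) y + ∑ r, c r x * (round (dt (Ψ r x) y) : ℝ) :=
          c3 y x fun r => (hv r.succ).trans (hρ.trans (half R))
        rw [← k2] at k1
        have k3 : (2 : ℝ) ^ R * ρ < 1 / 2 := by
          refine (mul_le_mul_of_nonneg_left hρ (by positivity)).trans_lt ?_
          rw [pow_succ]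
          field_simp
          norm_num
        have k4 := rnd (k1.trans_lt k3)
        exact ⟨k4, by rw [nz, k4]; exact k1⟩
      refine ⟨L1, R + 1, Fin.cons (dn t) T, Fin.cons Ψ0 Ψ, b1, by simpa using a2, ?_, fun r l => ?_,
        fun r => ?_, fun p hp => ?_, fun ρ y x hρ hv p hp hp0 => ?_⟩
      · rw [Fintype.card_fin] at b3
        rw [List.length_cons]
        nlinarith
      · refine Fin.cases ?_ (fun r => mono _ _ _ _ b2 (a4 r l)) r
        refine (mono _ _ _ _ b2 (c1 l)).add (tsum _ _ _ _ _ fun r _ => ?_)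
        rcases (c2 r).2 with k | k
        · have k1 := mul _ _ _ _ _ sdiff_disjoint
            ((mono _ _ _ _ b2 (c2 r).1).add (smul _ _ _ (-1) (b5 r).1)) (mono _ _ _ _ b2 (a4 r l))
          rw [sdiff_union_of_subset k] at k1
          simpa only [neg_mul, one_mul, ← sub_eq_add_neg] using k1
        · simp only [k, round_zero, Int.cast_zero, sub_zero, zero_mul]
          exact Top.zero _
      · refine Fin.cases ⟨(t, P), List.mem_cons_self, up_dn h0⟩ (fun r => ?_) r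
        obtain ⟨p, hp, e⟩ := a5 r
        exact ⟨p, List.mem_cons_of_mem _ hp, e⟩
      · rcases List.mem_cons.1 hp with rfl | hp
        · refine ⟨fun k => absurd h0 k, fun _ => ⟨fun _ _ => 0,
            Fin.cons (fun _ => 1) fun r x => (round (c r x) : ℝ), ⟨fun _ => Top.zero _, fun r => ?_⟩,
            fun y x hv => ?_⟩⟩
          · refine Fin.cases ⟨?_, Or.inl subset_rfl⟩ (fun r => ⟨(b5 r).1, ?_⟩) r
            · show Top L1 (dn t \ dn t) fun _ => 1
              rw [sdiff_self]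
              exact Top.cst 1
            · exact (c2 r).2.imp id fun k => by simp [k]
          · simp only [(kk _ y x le_rfl hv).1]
            simp [nf, dt, Fin.sum_univ_succ]
        · refine ⟨fun k => ?_, fun k => (((a6 p hp).2 k).mono hT b2).cons _ _⟩
          obtain ⟨Z, z1, z2⟩ := (a6 p hp).1 k
          exact ⟨Z, mono _ _ _ _ b2 z1, z2⟩
      · have ρ0 : 0 ≤ ρ := (abs_nonneg _).trans (hv 0)
        have k1 : (2 : ℝ) ^ R * ρ ≤ 2 ^ (R + 1) * ρ := by
          gcongr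
          · norm_num
          · omega
        rcases List.mem_cons.1 hp with rfl | hp
        · exact (kk ρ y x hρ hv).2.trans k1
        · exact (a7 ρ y x (hρ.trans (half R)) (fun r => hv r.succ) p hp hp0).trans k1
    · obtain ⟨P0, c1, c2⟩ := hF.1 h0
      obtain ⟨L1, b1, b2, b3, -, b5⟩ := ext L0 Unit (fun _ => dn t) (fun _ => P0) a1 fun _ => c1
      refine ⟨L1, R, T, Ψ, b1, a2.trans (by simp), ?_, fun r l => mono _ _ _ _ b2 (a4 r l),
        fun r => ?_, fun p hp => ?_, fun ρ y x hρ hv p hp hp0 => ?_⟩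
      · rw [Fintype.card_unit] at b3
        rw [List.length_cons]
        nlinarith
      · obtain ⟨p, hp, e⟩ := a5 r
        exact ⟨p, List.mem_cons_of_mem _ hp, e⟩
      · rcases List.mem_cons.1 hp with rfl | hp
        · exact ⟨fun _ => ⟨_, (b5 ()).1, fun y x => by simp only [c2]⟩, fun k => absurd k h0⟩
        · refine ⟨fun k => ?_, fun k => ((a6 p hp).2 k).mono hT b2⟩
          obtain ⟨Z, z1, z2⟩ := (a6 p hp).1 k
          exact ⟨Z, mono _ _ _ _ b2 z1, z2⟩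
      · rcases List.mem_cons.1 hp with rfl | hp
        · exact absurd hp0 h0
        · exact a7 ρ y x hρ hv p hp hp0

end Flt

open Flt in
theorem flat (hT : TB) : FLAT := by
  intro j q L hL
  obtain ⟨L0, R, T, Ψ, a1, a2, a3, a4, a5, a6, a7⟩ := main hT hL
  refine ⟨L0, R, T, Ψ, a1, a2, a3, a4, a5, fun t F h => ?_, fun t F h => ?_, a7⟩
  · have := (frm hT a6 h).1 (zero_up t)
    rwa [dn_up] at this
  · have := (frm hT a6 h).2 (mem_insert_self _ _)
    rwa [dn_ins0, dn_up] at this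

end

end Vale.Agent.P057T.Loc
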