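import Vale.Agent.P057T.Loc.Locb0
import Vale.Agent.P057T.Gkh.Rq

/-! Bias against faces implies smallness on all valid tuples of a larger tower. -/

set_option linter.all false

open Finset
open scoped BigOperators

namespace Vale.Agent.P057T.Loc

open Vale.Agent.P057Z Vale.Agent.P057L Vale.Agent.P057T.Gkh Vale.Agent.P057T.Ten

noncomputable section

namespace Lb

variable {j q : ℕ}

open Classical in
/-- the brackets which see the class `0` -/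
def lc0 (L : List (Cd (j + 1) q)) : Finset (Cd (j + 1) q) := L.toFinset.filter fun p => 0 ∈ p.1

theorem mem_lc0 {L : List (Cd (j + 1) q)} {p} : p ∈ lc0 L ↔ p ∈ L ∧ (0 : Fin (j + 1)) ∈ p.1 := by
  simp [lc0]

theorem card_lc0 (L : List (Cd (j + 1) q)) : (lc0 L).card ≤ L.length := by
  classical
  unfold lc0
  convert (card_filter_le _ _).trans L.toFinset_card_le

theorem upd0 (y a : Vz q) (x : Pt j q) : Function.update (cn y x) 0 a = cn a x := by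
  unfold cn; rw [Fin.update_cons_zero]

theorem fib (hT : TB) {L : List (Cd (j + 1) q)} (hL : TT L) {F : Pt (j + 1) q → ℝ}
    (hF : Top L univ F) (xs : (Fin j → Bool) → Pt j q) {N : ℕ} (hN : 1 ≤ N) {δ ρ r : ℝ}
    (hρ0 : 0 ≤ ρ) (hρ : ρ ≤ 1 / 2) (hr : r < 1 / 4)
    (hb : δ * (sz q N).card ≤ ‖∑ y ∈ sz q N, ∏ e, cj e (ee (F (cn y (xs e))) *
      ((∏ p ∈ lc0 L, tent (p.2 (cn y (xs e))) : ℝ) : ℂ))‖)
    (a : Vz q) (ha : ∀ l, |(a l : ℝ)| ≤ ρ * N)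
    (h1 : ∀ e, ∀ p ∈ L, (0 : Fin (j + 1)) ∈ p.1 → nz (p.2 (cn a (xs e))) ≤ r)
    (h2 : ∀ e, ∀ p ∈ L, (0 : Fin (j + 1)) ∈ p.1 → nz (p.2 (cn (-a) (xs e))) ≤ r) (hr0 : 0 ≤ r) :
    δ * (4 * nz (∑ e, sg e * F (cn a (xs e)))) ≤ 2 ^ j * L.length * (8 * r) + 4 * q * ρ := by
  obtain ⟨-, -, -, -, -, -, t7, -, -, -, -, -, -, t14⟩ := hT (j + 1) q
  let om : Vz q → ℝ := fun y => ∏ z ∈ univ ×ˢ lc0 L, tent (z.2.2 (cn y (xs z.1)))
  have add : ∀ b : Vz q, (∀ e, ∀ p ∈ L, (0 : Fin (j + 1)) ∈ p.1 → nz (p.2 (cn b (xs e))) ≤ r) →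
      ∀ y, om y ≠ 0 → ∀ e t G, Top L t G → 0 ∈ t →
        G (cn (y + b) (xs e)) = G (cn y (xs e)) + G (cn b (xs e)) := by
    intro b hb y hy e t G hG ht
    have := t14 L t G 0 (cn y (xs e)) y b (1 / 4) r hL hG ht (by linarith)
      (fun p hp h0 => by
        rw [upd0]
        exact tent_ne (prod_ne_zero_iff.1 hy (e, p) (mem_product.2 ⟨mem_univ _, mem_lc0.2 ⟨hp, h0⟩⟩)))
      (fun p hp h0 => by rw [upd0]; exact hb e p hp h0)
    simpa only [upd0] using this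
  have hc : (((univ : Finset (Fin j → Bool)) ×ˢ lc0 L).card : ℝ) ≤ 2 ^ j * L.length := by
    rw [card_product, card_univ, Fintype.card_fun, Fintype.card_bool, Fintype.card_fin]
    exact_mod_cast Nat.mul_le_mul_left _ (card_lc0 L)
  have lip : ∀ b : Vz q, (∀ e, ∀ p ∈ L, (0 : Fin (j + 1)) ∈ p.1 → nz (p.2 (cn b (xs e))) ≤ r) →
      ∀ y, om y ≠ 0 → |om (y + b) - om y| ≤ 2 ^ j * L.length * (8 * r) := by
    intro b hb y hy
    refine (prod_lip _ _ _ (fun _ => tent_mem _) (fun _ => tent_mem _) (8 * r) ?_).trans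
      (mul_le_mul_of_nonneg_right hc (by linarith))
    rintro ⟨e, p⟩ hz
    obtain ⟨hp, h0⟩ := mem_lc0.1 (mem_product.1 hz).2
    have := add b hb y hy e p.1 p.2 (t7 L hL p hp).2 h0
    simp only [this]
    exact (tent_lip _ _).trans (by linarith [hb e p hp h0])
  refine period hN hρ0 hρ a ha om (fun y => ∑ e, sg e * F (cn y (xs e)))
    (fun y => ⟨prod_nonneg fun _ _ => (tent_mem _).1,
      prod_le_one (fun _ _ => (tent_mem _).1) fun _ _ => (tent_mem _).2⟩) (fun y => ?_)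
    (fun y hy => ?_) (hb.trans (le_of_eq (congrArg norm (sum_congr rfl fun y _ => ?_))))
  · by_cases hy : om y = 0
    · by_cases hy' : om (y + a) = 0
      · rw [hy, hy', sub_self, abs_zero]; positivity
      · have := lip (-a) h2 (y + a) hy'
        rwa [add_neg_cancel_right, abs_sub_comm] at this
    · exact lip a h1 y hy
  · rw [← sum_add_distrib]
    exact sum_congr rfl fun e _ => by rw [add a h1 y hy e univ F hF (mem_univ _), mul_add]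
  · simp only [cj_ee, prod_mul_distrib, om]
    rw [ee_sum, prod_product]
    push_cast
    rfl

/-- the linearised frequency -/
def th' {R : ℕ} (Ψ : Fin R → Pt j q → Fin q → ℝ) (θ : Pt j q → Fin q → ℝ) (c : Fin R → Pt j q → ℝ)
    (x : Pt j q) (l : Fin q) : ℝ := θ x l + ∑ r, (c r x - round (c r x)) * Ψ r x l

theorem lin {R : ℕ} (Ψ : Fin R → Pt j q → Fin q → ℝ) (θ : Pt j q → Fin q → ℝ)
    (c : Fin R → Pt j q → ℝ) (y : Vz q) (x : Pt j q) {ρ : ℝ} (h : Fv Ψ ρ y x) :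
    nz (dt (th' Ψ θ c x) y - nf univ Ψ θ c y x) ≤ R * ρ := by
  have e : dt (th' Ψ θ c x) y = dt (θ x) y + ∑ r, (c r x - round (c r x)) * dt (Ψ r x) y := by
    simp only [dt, th', add_mul, sum_add_distrib, sum_mul, mul_sum, mul_assoc]
    rw [sum_comm]
  refine (nz_le _ (-∑ r, round (c r x) * round (dt (Ψ r x) y))).trans ?_
  rw [show dt (th' Ψ θ c x) y - nf univ Ψ θ c y x - ((-∑ r, round (c r x) * round (dt (Ψ r x) y) : ℤ) : ℝ) =
      ∑ r, (c r x - round (c r x)) * (dt (Ψ r x) y - round (dt (Ψ r x) y)) by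
    rw [e, nf]; push_cast
    simp only [mul_sub, sub_mul, sum_sub_distrib]; ring]
  refine (abs_sum_le_sum_abs _ _).trans ((sum_le_sum (g := fun _ => ρ) fun r _ => ?_).trans
    (by simp))
  rw [abs_mul]
  have h1 := abs_sub_round (c r x)
  exact (mul_le_of_le_one_left (abs_nonneg _) (by linarith)).trans (h r)

theorem fv_neg {κ : Type} {Ψ : κ → Pt j q → Fin q → ℝ} {ρ : ℝ} {y : Vz q} {x : Pt j q}
    (h : Fv Ψ ρ y x) : Fv Ψ ρ (-y) x := fun r => by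
  rw [show dt (Ψ r x) (-y) = -dt (Ψ r x) y by simp [dt], nz_neg]; exact h r

theorem mix_upd (e : Fin j → Bool) (x x' : Pt j q) (i : Fin j) (a : Vz q) (k : Fin j) (hk : k ≠ i) :
    mix e (Function.update x i a) x' k = mix e x x' k := by
  simp only [mix, Function.update_of_ne hk]

theorem mix_off (e : Fin j → Bool) (x x' : Pt j q) (i : Fin j) (a : Vz q) (hi : e i ≠ true) :
    mix e (Function.update x i a) x' = mix e x x' := by
  funext k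
  by_cases hk : k = i
  · subst hk; simp only [mix, if_neg hi]
  · exact mix_upd e x x' i a k hk

theorem two_pow_le {n : ℕ} {Y : ℝ} (h : (n : ℝ) ≤ Y) : (2 : ℝ) ^ n ≤ Real.exp Y := by
  have h2 : (2 : ℝ) ≤ Real.exp 1 := by have := Real.add_one_le_exp (1 : ℝ); linarith
  calc (2 : ℝ) ^ n ≤ Real.exp 1 ^ n := by gcongr
    _ = Real.exp n := by rw [← Real.exp_nat_mul, mul_one]
    _ ≤ _ := Real.exp_le_exp.2 h

theorem sixty {Y : ℝ} (hY : 10 ≤ Y) : 60 * Y ^ 2 ≤ Real.exp (3 * Y) := by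
  have h1 := Real.quadratic_le_exp_of_nonneg (x := Y) (by linarith)
  have h2 : 60 ≤ Real.exp Y := by nlinarith
  have h3 : Y ≤ Real.exp Y := by nlinarith
  rw [show 3 * Y = Y + (Y + Y) by ring, Real.exp_add, Real.exp_add, sq]
  have : 0 ≤ Y := by linarith
  gcongr

theorem num1 {Y D J n R q : ℝ} (hD : 0 ≤ D) (hY : D + 10 ≤ Y) (hJ0 : 0 ≤ J) (hJ : J ≤ Y)
    (hn0 : 0 ≤ n) (hn : n ≤ Y) (hR0 : 0 ≤ R) (hR : R ≤ Real.exp Y) (hq : q ≤ Y) :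
    J * n * (8 * (R * Real.exp (-Y ^ 2))) + 4 * q * Real.exp (-Y ^ 2) ≤
      Real.exp (-(D * Y)) * (4 * (1 / 20)) := by
  have h1 := sixty (Y := Y) (by linarith)
  have e1 : 1 ≤ Real.exp Y := Real.one_le_exp (by linarith)
  have p := Real.exp_pos (-Y ^ 2)
  have hY0 : 0 ≤ Y := by linarith
  have h2 : J * n * (8 * R) ≤ Y * Y * (8 * Real.exp Y) := by gcongr
  have h3 : 4 * q ≤ 4 * Y ^ 2 * Real.exp Y := by nlinarith
  have h4 : Real.exp (3 * Y) * Real.exp Y * Real.exp (-Y ^ 2) ≤ Real.exp (-(D * Y)) := by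
    rw [← Real.exp_add, ← Real.exp_add]; exact Real.exp_le_exp.2 (by nlinarith)
  have h5 : 60 * Y ^ 2 * Real.exp Y * Real.exp (-Y ^ 2) ≤
      Real.exp (3 * Y) * Real.exp Y * Real.exp (-Y ^ 2) := by gcongr
  nlinarith [mul_le_mul_of_nonneg_right h2 p.le, mul_le_mul_of_nonneg_right h3 p.le]

theorem num2 {Y Z : ℝ} (hY : 10 ≤ Y) (hZ : Y ^ 2 ≤ Z) :
    20 * Y ^ 2 * Real.exp Y * Real.exp (-Z) ≤ Real.exp (-Y) := by
  have h1 := sixty hY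
  have h4 : Real.exp (3 * Y) * Real.exp Y * Real.exp (-Z) ≤ Real.exp (-Y) := by
    rw [← Real.exp_add, ← Real.exp_add]; exact Real.exp_le_exp.2 (by nlinarith)
  refine le_trans ?_ h4
  gcongr
  nlinarith [sq_nonneg Y]

theorem small {Y Z : ℝ} {R : ℕ} (hY : 10 ≤ Y) (hZ : Y ^ 2 ≤ Z) (hR : (R : ℝ) ≤ Y) :
    2 ^ R * Real.exp (-Z) ≤ 1 / 8 := by
  have h1 := num2 hY hZ
  have h2 : Real.exp (-Y) ≤ 1 := Real.exp_le_one_iff.2 (by linarith)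
  have h3 := mul_le_mul_of_nonneg_right (two_pow_le hR) (Real.exp_pos (-Z)).le
  have h4 : 0 ≤ Real.exp Y * Real.exp (-Z) := by positivity
  nlinarith [mul_le_mul_of_nonneg_right (show (100 : ℝ) ≤ Y ^ 2 by nlinarith) h4]

theorem small' {ρ : ℝ} {R : ℕ} (h : 2 ^ R * ρ ≤ 1 / 8) : ρ ≤ ((2 : ℝ) ^ R)⁻¹ / 4 := by
  have hp : (0 : ℝ) < 2 ^ R := by positivity
  rw [le_div_iff₀ (by norm_num), ← one_div, le_div_iff₀ hp]
  linarith

/-- a common label -/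
theorem label {α κ : Type} [Fintype κ] (X : Finset α) (k : α → κ → ℤ) {E n : ℝ} (hE : 0 ≤ E)
    (hn : (Fintype.card κ : ℝ) ≤ n) (hk : ∀ x ∈ X, ∀ r, |(k x r : ℝ)| ≤ Real.exp E) :
    ∃ (k0 : κ → ℤ) (X1 : Finset α), X1 ⊆ X ∧ (∀ x ∈ X1, k x = k0) ∧
      Real.exp (-((E + 2) * n)) * X.card ≤ X1.card := by
  classical
  let M : ℕ := ⌊Real.exp E⌋₊
  obtain ⟨k0, -, h⟩ := RqAux.pigeon X (Fintype.piFinset fun _ : κ => Icc (-(M : ℤ)) M) k
    ⟨0, by simp⟩ (fun x hx => Fintype.mem_piFinset.2 fun r => by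
      have h'' : (k x r).natAbs ≤ M :=
        Nat.le_floor (by rw [Nat.cast_natAbs]; push_cast; exact hk x hx r)
      rw [mem_Icc]; omega)
  refine ⟨k0, _, filter_subset _ _, fun x hx => (mem_filter.1 hx).2, ?_⟩
  have hc : ((Fintype.piFinset fun _ : κ => Icc (-(M : ℤ)) M).card : ℝ) ≤ Real.exp ((E + 2) * n) := by
    rw [Fintype.card_piFinset, prod_const, card_univ, Int.card_Icc,
      show ((M : ℤ) + 1 - -(M : ℤ)).toNat = 2 * M + 1 by omega]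
    have h1 : (M : ℝ) ≤ Real.exp E := Nat.floor_le (Real.exp_pos _).le
    have h2 : (1 : ℝ) ≤ Real.exp E := Real.one_le_exp hE
    have h3 : (3 : ℝ) ≤ Real.exp 2 := by have := Real.add_one_le_exp (2 : ℝ); linarith
    have h4 : (2 * (M : ℝ) + 1) ≤ Real.exp (E + 2) := by rw [Real.exp_add]; nlinarith
    push_cast
    calc (2 * (M : ℝ) + 1) ^ Fintype.card κ ≤ Real.exp (E + 2) ^ Fintype.card κ := by gcongr
      _ = Real.exp (Fintype.card κ * (E + 2)) := (Real.exp_nat_mul _ _).symm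
      _ ≤ _ := Real.exp_le_exp.2 (by nlinarith)
  rw [Real.exp_neg, inv_mul_le_iff₀ (Real.exp_pos _)]
  exact le_trans (by exact_mod_cast h) (mul_le_mul_of_nonneg_right hc (Nat.cast_nonneg _))

theorem dens {N : ℕ} (hN : 1 ≤ N) {Y : ℝ} (hq : (q : ℝ) ≤ Y) :
    Real.exp (-((j + 2) * Y)) * ((sz q N).card : ℝ) ^ (j + 1) ≤
      Real.exp (-Y) * (N : ℝ) ^ ((j + 1) * q) ∧ (N : ℝ) ^ (j * q) ≤ ((sz q N).card : ℝ) ^ j := by
  have hN' : (1 : ℝ) ≤ N := by exact_mod_cast hN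
  rw [card_sz hN]
  refine ⟨?_, by rw [← pow_mul, mul_comm q]; exact pow_le_pow_left₀ (by linarith) (by linarith) _⟩
  have h1 : (2 * N - 1 : ℝ) ^ q ≤ Real.exp Y * (N : ℝ) ^ q := by
    calc (2 * N - 1 : ℝ) ^ q ≤ (2 * N) ^ q := pow_le_pow_left₀ (by linarith) (by linarith) _
      _ = 2 ^ q * (N : ℝ) ^ q := mul_pow _ _ _
      _ ≤ _ := by gcongr; exact two_pow_le hq
  calc _ ≤ Real.exp (-((j + 2) * Y)) * (Real.exp Y * (N : ℝ) ^ q) ^ (j + 1) := by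
        gcongr; exact pow_nonneg (by linarith) _
    _ = _ := by
        rw [mul_pow, ← Real.exp_nat_mul, ← mul_assoc, ← Real.exp_add, ← pow_mul, mul_comm q]
        congr 2; push_cast; ring

theorem dens2 {Y : ℝ} (hY : 1 ≤ Y) :
    Real.exp (-((2 ^ j * (j + 2) + 1) * Y)) ≤ Real.exp (-((j + 2) * Y)) ^ 2 ^ j / 2 := by
  have h2 : (2 : ℝ) ≤ Real.exp Y := by have := Real.add_one_le_exp Y; linarith
  rw [← Real.exp_nat_mul, le_div_iff₀ (by norm_num)]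
  refine (mul_le_mul_of_nonneg_left h2 (Real.exp_pos _).le).trans (le_of_eq ?_)
  rw [← Real.exp_add]; congr 1; push_cast; ring

theorem up_univ : (insert 0 (up (univ : Finset (Fin j))) : Finset (Fin (j + 1))) = univ := by
  ext i
  refine Fin.cases (by simp) (fun i => by simp [up]) i

theorem pre {CB CT j : ℕ} {Y : ℝ}
    (c1 : (((2 * CB + 4) * (CT + 2) + (2 ^ j * (j + 2) + 1) + 10 : ℕ) : ℝ) ≤ Y) :
    ∃ Y2 Y3 Y4 Z : ℝ, Y2 = (Y ^ 2) ^ CB ∧ Y3 = Y ^ (2 * CB + 4) ∧ Y4 = Y3 ^ CT ∧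
      Z = Y ^ ((2 * CB + 4) * (CT + 2) + (2 ^ j * (j + 2) + 1) + 10) ∧
      (2 ^ j * (j + 2) + 1 : ℝ) + 10 ≤ Y ∧ (2 : ℝ) ^ j ≤ Y ∧ (CB : ℝ) ≤ Y ∧ (CT : ℝ) ≤ Y ∧
      Y ≤ Y ^ 2 ∧ 1 ≤ Y2 ∧ 100 * Y ^ 2 ≤ Y3 ∧ 100 * Y2 ≤ Y3 ∧ 1 ≤ Y4 ∧ Y4 + Y3 ≤ Z ∧
      (Y2 + 2) * Y ^ 2 + (2 ^ j * (j + 2) + 1) * Y ≤ Y3 := by
  push_cast at c1
  have cB : (0 : ℝ) ≤ CB := Nat.cast_nonneg _
  have cT : (0 : ℝ) ≤ CT := Nat.cast_nonneg _
  have cJ : (0 : ℝ) ≤ 2 ^ j := by positivity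
  have cj0 : (0 : ℝ) ≤ j := Nat.cast_nonneg _
  have cBT := mul_nonneg cB cT
  have cJj := mul_nonneg cJ cj0
  have hDY : (2 ^ j * (j + 2) + 1 : ℝ) + 10 ≤ Y := by linarith
  have hY : 10 ≤ Y := by linarith
  have h1Y : 1 ≤ Y := by linarith
  have hYY : Y ≤ Y ^ 2 := by nlinarith
  have hZ : (Y ^ (2 * CB + 4)) ^ CT * (Y ^ (2 * CB + 4) * Y ^ (2 * CB + 4)) ≤
      Y ^ ((2 * CB + 4) * (CT + 2) + (2 ^ j * (j + 2) + 1) + 10) := by
    rw [show (Y ^ (2 * CB + 4)) ^ CT * (Y ^ (2 * CB + 4) * Y ^ (2 * CB + 4)) =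
      Y ^ ((2 * CB + 4) * (CT + 2)) by rw [pow_mul]; ring]
    exact pow_le_pow_right₀ h1Y (by omega)
  have e3 : Y ^ (2 * CB + 4) = (Y ^ 2) ^ CB * Y ^ 2 * Y ^ 2 := by ring
  have h12 : 1 ≤ (Y ^ 2) ^ CB := one_le_pow₀ (by linarith)
  have h14 : 1 ≤ (Y ^ (2 * CB + 4)) ^ CT := one_le_pow₀ (one_le_pow₀ h1Y)
  refine ⟨_, _, _, _, rfl, rfl, rfl, rfl, hDY, by linarith, by linarith, by linarith, hYY, h12, ?_⟩
  have hD : (2 ^ j * (j + 2) + 1) * Y ≤ Y ^ 2 := by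
    rw [sq]; exact mul_le_mul_of_nonneg_right (by linarith) (by linarith)
  generalize Y ^ ((2 * CB + 4) * (CT + 2) + (2 ^ j * (j + 2) + 1) + 10) = Z at *
  generalize (Y ^ (2 * CB + 4)) ^ CT = Y4 at *
  generalize Y ^ (2 * CB + 4) = Y3 at *
  generalize (Y ^ 2) ^ CB = Y2 at *
  have hY100 : 100 ≤ Y ^ 2 := by nlinarith
  generalize Y ^ 2 = S at *
  have h22 : S ≤ Y2 * S := le_mul_of_one_le_left (by linarith) h12
  have h22' : Y2 ≤ Y2 * S := le_mul_of_one_le_right (by linarith) (by linarith)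
  have h23 : Y2 * S * 100 ≤ Y3 := e3 ▸ mul_le_mul_of_nonneg_left hY100 (by linarith)
  have h3 : 2 * Y3 ≤ Y3 * Y3 := mul_le_mul_of_nonneg_right (by linarith) (by linarith)
  have h4 : Y4 * (2 * Y3) ≤ Z := (mul_le_mul_of_nonneg_left h3 (by linarith)).trans hZ
  have h5 : Y4 ≤ Y4 * Y3 := le_mul_of_one_le_right (by linarith) (by linarith)
  have h6 : Y3 ≤ Y4 * Y3 := le_mul_of_one_le_left (by linarith) h14
  exact ⟨by linarith, by linarith, h14, by linarith, by linarith⟩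

theorem num3 {Y J R : ℝ} (hY : 10 ≤ Y) (hJ : J ≤ Y) (hR0 : 0 ≤ R) (hR : R ≤ Y) :
    J * (R * Real.exp (-Y ^ 2)) ≤ 1 / 20 := by
  have hY0 : 0 ≤ Y := by linarith
  have f4 : J * (R * Real.exp (-Y ^ 2)) ≤ Y * (Y * Real.exp (-Y ^ 2)) := by gcongr
  have f5 := num2 hY le_rfl
  have f6 : Real.exp (-Y) ≤ 1 := Real.exp_le_one_iff.2 (by linarith)
  have f7 : 20 * Y ^ 2 * 1 * Real.exp (-Y ^ 2) ≤ 20 * Y ^ 2 * Real.exp Y * Real.exp (-Y ^ 2) := by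
    gcongr; exact Real.one_le_exp hY0
  linarith

theorem cardk {R : ℕ} {Y : ℝ} (hR : (R : ℝ) ≤ Y) (hJ : (2 : ℝ) ^ j ≤ Y) :
    (Fintype.card (Fin R × (Fin j → Bool)) : ℝ) ≤ Y ^ 2 := by
  rw [Fintype.card_prod, Fintype.card_fun, Fintype.card_bool, Fintype.card_fin,
    Fintype.card_fin, sq]
  push_cast
  exact mul_le_mul hR hJ (by positivity) ((Nat.cast_nonneg _).trans hR)

theorem key0 (hT : TB) {L : List (Cd (j + 1) q)} (tL : TT L) {F : Pt (j + 1) q → ℝ}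
    (hFt : Top L univ F) {N R : ℕ} (hN : 1 ≤ N) {Y D : ℝ} (hD0 : 0 ≤ D) (hDY : D + 10 ≤ Y)
    (hJY : (2 : ℝ) ^ j ≤ Y) (hlen : (L.length : ℝ) ≤ Y) (hRY : (R : ℝ) ≤ Y) (hq : (q : ℝ) ≤ Y)
    (Ψ : Fin R → Pt j q → Fin q → ℝ) (θ : Pt j q → Fin q → ℝ) (c : Fin R → Pt j q → ℝ)
    (hnf : ∀ y x, Fv Ψ (((2 : ℝ) ^ R)⁻¹ / 4) y x → F (cn y x) = nf univ Ψ θ c y x)
    (hV : ∀ (ρ : ℝ) y x, ρ ≤ ((2 : ℝ) ^ R)⁻¹ / 4 → Fv Ψ ρ y x →
      ∀ p ∈ L, (0 : Fin (j + 1)) ∈ p.1 → nz (p.2 (cn y x)) ≤ 2 ^ R * ρ)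
    (xs : (Fin j → Bool) → Pt j q)
    (hb : Real.exp (-(D * Y)) * (sz q N).card ≤ ‖∑ y ∈ sz q N, ∏ e, cj e (ee (F (cn y (xs e))) *
      ((∏ p ∈ lc0 L, tent (p.2 (cn y (xs e))) : ℝ) : ℂ))‖)
    (a : Vz q) (ha : ∀ l, |(a l : ℝ)| ≤ Real.exp (-Y ^ 2) * N)
    (fv : ∀ e, Fv Ψ (Real.exp (-Y ^ 2)) a (xs e)) :
    nz (dt (fun l => ∑ e, sg e * th' Ψ θ c (xs e) l) a) ≤ 1 / 10 := by
  have hY : 10 ≤ Y := by linarith
  have s1 := small hY le_rfl hRY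
  have p := Real.exp_pos (-Y ^ 2)
  have s0 : Real.exp (-Y ^ 2) ≤ 2 ^ R * Real.exp (-Y ^ 2) :=
    le_mul_of_one_le_left p.le (one_le_pow₀ one_le_two)
  have f1 := fib hT tL hFt xs hN (δ := Real.exp (-(D * Y)))
    (r := 2 ^ R * Real.exp (-Y ^ 2)) p.le (by linarith) (by linarith) hb a ha
    (fun e => hV _ a _ (small' s1) (fv e)) (fun e => hV _ (-a) _ (small' s1) (fv_neg (fv e)))
    (by positivity)
  have f2 := le_of_mul_le_mul_left (f1.trans (num1 hD0 hDY (by positivity) hJY (Nat.cast_nonneg _)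
    hlen (by positivity) (two_pow_le hRY) hq)) (Real.exp_pos _)
  have e1 : dt (fun l => ∑ e, sg e * th' Ψ θ c (xs e) l) a = ∑ e, sg e * F (cn a (xs e)) +
      ∑ e, sg e * (dt (th' Ψ θ c (xs e)) a - nf univ Ψ θ c a (xs e)) := by
    rw [← sum_add_distrib]
    simp only [dt, sum_mul]
    rw [sum_comm]
    refine sum_congr rfl fun e _ => ?_
    rw [hnf a _ fun r => (fv e r).trans (small' s1), ← mul_add, add_sub_cancel, mul_sum]
    simp only [mul_assoc]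
  have f3 : nz (∑ e, sg e * (dt (th' Ψ θ c (xs e)) a - nf univ Ψ θ c a (xs e))) ≤
      2 ^ j * (R * Real.exp (-Y ^ 2)) :=
    (nz_sum_le _ _).trans ((sum_le_sum (g := fun _ => R * Real.exp (-Y ^ 2)) fun e _ => by
      rw [nz_sg]; exact lin Ψ θ c a _ (fv e)).trans (by simp))
  have f4 := num3 hY hJY (Nat.cast_nonneg R) hRY
  rw [e1]
  refine (nz_add_le _ _).trans ?_
  linarith

theorem fc (hT : TB) {L0 : List (Cd j q)} (t0 : TT L0) {R : ℕ} {T : Fin R → Finset (Fin j)}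
    {Ψ : Fin R → Pt j q → Fin q → ℝ} (hΨ : ∀ r l, Top L0 (T r) fun x => Ψ r x l)
    (hTr : ∀ r, ∃ i, i ∉ T r) (A : Pt j q → Fin q → ℝ) (x' : Pt j q)
    (k0 : Fin R × (Fin j → Bool) → ℤ) (l : Fin q) :
    ∃ g : Fin j → Pt j q → ℝ, (∀ i, Ig (g i) i) ∧ ∀ x,
      sg (fun _ : Fin j => true) * A x l + ∑ i, g i x =
      ∑ e, sg e * A (mix e x x') l - ∑ r, (k0 r : ℝ) * Ψ r.1 (mix r.2 x x') l := by
  classical
  obtain ⟨-, -, -, -, -, a6, -⟩ := hT j q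
  obtain ⟨g1, p1, p2⟩ := faces (univ.erase fun _ : Fin j => true)
    (fun e x => sg e * A (mix e x x') l) (by
    intro e he
    obtain ⟨i, hi⟩ := Function.ne_iff.1 (ne_of_mem_erase he)
    exact ⟨i, fun W a => by beta_reduce; rw [mix_off e W x' i a hi]⟩)
  obtain ⟨g2, p3, p4⟩ := faces univ (fun (r : Fin R × (Fin j → Bool)) x =>
    (k0 r : ℝ) * Ψ r.1 (mix r.2 x x') l) (by
    intro r _
    obtain ⟨i, hi⟩ := hTr r.1
    exact ⟨i, fun W a => congrArg _ (a6 L0 _ _ _ _ t0 (hΨ r.1 l)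
      fun k hk => mix_upd _ _ _ _ _ _ fun h => hi (h ▸ hk))⟩)
  refine ⟨fun i x => g1 i x - g2 i x, fun i W a => by beta_reduce; rw [p1 i, p3 i], fun x => ?_⟩
  rw [sum_sub_distrib, p2, p4, ← add_sum_erase _ _ (mem_univ fun _ : Fin j => true), add_sub_assoc]
  rfl

theorem topth (hT : TB) {L0 : List (Cd j q)} (t0 : TT L0) {R : ℕ} {T : Fin R → Finset (Fin j)}
    {Ψ : Fin R → Pt j q → Fin q → ℝ} (hΨ : ∀ r l, Top L0 (T r) fun x => Ψ r x l)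
    {θ : Pt j q → Fin q → ℝ} {c : Fin R → Pt j q → ℝ} (hcf : Cf L0 T univ θ c) (s : ℝ) :
    ∃ L1, TT L1 ∧ L0 ⊆ L1 ∧ L1.length ≤ L0.length + R ∧
      ∀ l, Top L1 univ fun x => s * th' Ψ θ c x l := by
  obtain ⟨a1, a2, a3, a4, -, -, -, a8, -⟩ := hT j q
  obtain ⟨L1, t1, s01, l1, -, hrd⟩ := a8 L0 (Fin R) (fun r => univ \ T r) c t0 fun r => (hcf.2 r).1
  rw [Fintype.card_fin] at l1
  refine ⟨L1, t1, s01, l1, fun l =>
    a1 _ _ _ _ (Top.add (a3 _ _ _ _ s01 (hcf.1 l)) (a2 _ _ _ _ _ fun r _ => ?_))⟩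
  have h1 := Top.add (a3 _ _ _ _ s01 (hcf.2 r).1) (a1 _ _ _ (-1) (hrd r).1)
  have h2 := a4 _ _ _ _ _ sdiff_disjoint h1 (a3 _ _ _ _ s01 (hΨ r l))
  rw [sdiff_union_of_subset (subset_univ _)] at h2
  simpa only [neg_one_mul, ← sub_eq_add_neg] using h2

theorem last {R N : ℕ} {Y Y2 Y4 Z v : ℝ} (hY : 10 ≤ Y) (hN0 : (0 : ℝ) < N) (hq : (q : ℝ) ≤ Y)
    (hRY : (R : ℝ) ≤ Y) (hZ : Y4 + Y2 + Y ^ 2 ≤ Z) (hZ' : Y ^ 2 ≤ Z) (A : Fin q → ℝ) (y : Vz q)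
    (hy : ∀ l, |(y l : ℝ)| ≤ Real.exp (-Z) * N)
    (g1 : ∀ l, nz (A l) ≤ Real.exp Y4 * (Real.exp Y2 / N))
    (g2 : nz (dt A y - v) ≤ R * Real.exp (-Z)) : nz v ≤ Real.exp (-Y) := by
  have hY0 : 0 ≤ Y := by linarith
  have g3 : nz (dt A y) ≤ q * (Real.exp (-Z) * N * (Real.exp Y4 * (Real.exp Y2 / N))) :=
    (nz_sum_le _ _).trans ((sum_le_sum (g := fun _ => Real.exp (-Z) * N *
      (Real.exp Y4 * (Real.exp Y2 / N))) fun l _ => by
        rw [mul_comm]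
        exact (nz_int_mul _ _).trans
          (mul_le_mul (hy l) (g1 l) (nz_nonneg _) (by positivity))).trans (by simp))
  have g4 : Real.exp (-Z) * N * (Real.exp Y4 * (Real.exp Y2 / N)) ≤ Real.exp (-Y ^ 2) := by
    rw [show Real.exp (-Z) * N * (Real.exp Y4 * (Real.exp Y2 / N)) =
      Real.exp (-Z) * Real.exp Y4 * Real.exp Y2 by field_simp, ← Real.exp_add, ← Real.exp_add]
    exact Real.exp_le_exp.2 (by linarith)
  have g5 : Real.exp (-Z) ≤ Real.exp (-Y ^ 2) := Real.exp_le_exp.2 (by linarith)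
  have g6 := nz_add_le (dt A y) (-(dt A y - v))
  rw [nz_neg, show dt A y + -(dt A y - v) = v by ring] at g6
  have g7 : (q : ℝ) * (Real.exp (-Z) * N * (Real.exp Y4 * (Real.exp Y2 / N))) ≤
      Y * Real.exp (-Y ^ 2) := mul_le_mul hq g4 (by positivity) hY0
  have g8 : (R : ℝ) * Real.exp (-Z) ≤ Y * Real.exp (-Y ^ 2) :=
    mul_le_mul hRY g5 (by positivity) hY0
  have f5 := num2 hY le_rfl
  have hYY : Y ≤ Y ^ 2 := by nlinarith
  have f7 : 20 * Y * 1 * Real.exp (-Y ^ 2) ≤ 20 * Y ^ 2 * Real.exp Y * Real.exp (-Y ^ 2) := by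
    gcongr; exact Real.one_le_exp hY0
  have f8 : 0 ≤ Y * Real.exp (-Y ^ 2) := by positivity
  linarith

theorem len1 {a b c R : ℕ} {Y Y3 : ℝ} (h1 : a ≤ b + R) (h2 : b ≤ (c + 1) ^ 2) (h3 : (c : ℝ) ≤ Y)
    (h4 : (R : ℝ) ≤ Y) (hY : 10 ≤ Y) (h5 : 100 * Y ^ 2 ≤ Y3) : (a : ℝ) ≤ Y3 := by
  have h6 : (a : ℝ) ≤ (c + 1) ^ 2 + R := by exact_mod_cast h1.trans (Nat.add_le_add_right h2 _)
  have h7 : ((c : ℝ) + 1) ^ 2 ≤ (Y + 1) ^ 2 := by gcongr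
  nlinarith

theorem dn1 {a b c d n m X X1 : ℝ} (h : a + b ≤ c) (d3 : Real.exp (-b) ≤ d) (d2 : n ≤ m)
    (hn : 0 ≤ n) (hX : d * m ≤ X) (h1 : Real.exp (-a) * X ≤ X1) : Real.exp (-c) * n ≤ X1 := by
  have p := Real.exp_pos (-b)
  refine le_trans ?_ (le_trans (mul_le_mul_of_nonneg_left
    ((mul_le_mul d3 d2 hn (by linarith)).trans hX) (Real.exp_pos _).le) h1)
  rw [← mul_assoc, ← Real.exp_add]
  exact mul_le_mul_of_nonneg_right (Real.exp_le_exp.2 (by linarith)) hn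

theorem ext3 (hT : TB) {L : List (Cd (j + 1) q)} (tL : TT L) (pL : Pr L) {L0 L2 : List (Cd j q)}
    (t2 : TT L2) (s02 : L0 ⊆ L2) {R : ℕ} {T : Fin R → Finset (Fin j)}
    {Ψ : Fin R → Pt j q → Fin q → ℝ} (hΨ : ∀ r l, Top L0 (T r) fun x => Ψ r x l)
    (hty : ∀ r, ∃ p ∈ L, p.1 = insert 0 (up (T r))) :
    ∃ L3, TT L3 ∧ L ⊆ L3 ∧ tl L2 ⊆ L3 ∧ L3.length ≤ L2.length + L.length + R ∧ Pr L3 ∧
      ∀ r, fb (T r) (Ψ r) ∈ L3 := by
  obtain ⟨-, -, -, -, -, -, -, -, a9, -, a11, -⟩ := hT j q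
  obtain ⟨-, -, b3, -, b5, -, -, b8, -⟩ := hT (j + 1) q
  have s02' : tl L0 ⊆ tl L2 ++ L := fun p hp =>
    List.mem_append_left _ (List.map_subset _ s02 hp)
  obtain ⟨L3, t3, s3, l3, m3, n3⟩ := b8 (tl L2 ++ L) (Fin R) (fun r => (fb (T r) (Ψ r)).1)
    (fun r => (fb (T r) (Ψ r)).2) (b5 _ _ (a9 _ t2) tL) fun r => b3 _ _ _ _ s02' (a11 _ _ _ (hΨ r))
  rw [Fintype.card_fin, List.length_append, tl, List.length_map] at l3
  refine ⟨L3, t3, fun p hp => s3 (List.mem_append_right _ hp),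
    fun p hp => s3 (List.mem_append_left _ hp), l3, fun p hp => ?_,
    fun r => (n3 r).2 (insert_nonempty _ _)⟩
  rcases m3 p hp with h | ⟨r, rfl⟩
  · rcases List.mem_append.1 h with h | h
    · obtain ⟨p', -, rfl⟩ := List.mem_map.1 h
      intro hc
      have : (0 : Fin (j + 1)) ∈ p'.1.map (Fin.succEmb j) := by
        have h0 := mem_univ (0 : Fin (j + 1)); rw [← hc] at h0; exact h0
      simp at this
    · exact pL p h
  · obtain ⟨p, hp, e⟩ := hty r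
    exact fun h => pL p hp (e.trans h)

theorem fib0 {L : List (Cd (j + 1) q)} (F : Pt (j + 1) q → ℝ) {N : ℕ} (hN : 1 ≤ N) {Y : ℝ}
    (hq : (q : ℝ) ≤ Y) (u : Fin (j + 1) → Pt (j + 1) q → ℂ) (hu : ∀ i W, ‖u i W‖ ≤ 1)
    (hi : ∀ i, Ig (u i) i) (hsup : ∀ W, ∏ i, u i W ≠ 0 → Vl L (1 / 8) W)
    (hb : Real.exp (-Y) * (N : ℝ) ^ ((j + 1) * q) ≤
      ‖∑ W ∈ Fintype.piFinset (fun _ : Fin (j + 1) => sz q N), (∏ i, u i W) * ee (F W)‖) :
    ∃ (x' : Pt j q) (X : Finset (Pt j q)), (∀ x ∈ X, Sh N x) ∧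
      Real.exp (-((j + 2) * Y)) ^ 2 ^ j / 2 * ((sz q N).card : ℝ) ^ j ≤ X.card ∧
      ∀ x ∈ X, Real.exp (-((j + 2) * Y)) ^ 2 ^ j / 2 * (sz q N).card ≤
        ‖∑ y ∈ sz q N, ∏ e, cj e (ee (F (cn y (mix e x x'))) *
          ((∏ p ∈ lc0 L, tent (p.2 (cn y (mix e x x'))) : ℝ) : ℂ))‖ := by
  obtain ⟨d1, -⟩ := dens (j := j) hN hq
  obtain ⟨x', X, hX, hXc, hXb⟩ := fibres (sz q N) ⟨0, by simp [sz, sy]; omega⟩
    (fun W => ee (F W) * ((∏ p ∈ lc0 L, tent (p.2 W) : ℝ) : ℂ)) u (fun W => by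
      rw [norm_mul, norm_ee, one_mul, Complex.norm_real, Real.norm_eq_abs,
        abs_of_nonneg (prod_nonneg fun _ _ => (tent_mem _).1)]
      exact prod_le_one (fun _ _ => (tent_mem _).1) fun _ _ => (tent_mem _).2) hu hi
    (Real.exp_pos _).le (d1.trans (hb.trans (le_of_eq (congrArg norm (sum_congr rfl fun W _ => by
      by_cases h : ∏ i, u i W = 0
      · rw [h, zero_mul, zero_mul]
      · rw [prod_eq_one fun p hp => tent_one (hsup W h p (mem_lc0.1 hp).1)]; simp)))))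
  refine ⟨x', X, fun x hx i l => ?_, hXc, hXb⟩
  have h1 := Fintype.mem_piFinset.1 (hX x hx i) l
  unfold sy at h1
  rw [mem_Ioo] at h1
  rw [abs_le]
  exact ⟨by exact_mod_cast h1.1.le, by exact_mod_cast h1.2.le⟩

end Lb

open Lb

theorem locb (hT : TB) (hF : FLAT) (hB : BOHR) (j : ℕ) (hL : LOCT j) : LOCB j := by
  classical
  obtain ⟨CB, hB⟩ := hB
  obtain ⟨CT, hL⟩ := hL
  refine ⟨(2 * CB + 4) * (CT + 2) + (2 ^ j * (j + 2) + 1) + 10, ?_⟩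
  intro Y q N L F u hz hj hlen tL pL hFt hu hi hsup hb
  have hlg := hz.lg
  have hq := hz.qY
  have hq1 := hz.q1
  obtain ⟨Y2, Y3, Y4, Z, e2, e3, e4, eZ, hDY, hJY, hBY, hTY, hYY, h12, h23, h23', h14, hZ2, hdn⟩ :=
    pre hz.C1
  rw [← eZ] at hlg ⊢
  clear eZ hz e3
  have hD0 : (0 : ℝ) ≤ 2 ^ j * (j + 2) + 1 := by positivity
  have hY : 10 ≤ Y := by linarith
  have d3 := dens2 (j := j) (show 1 ≤ Y by linarith)
  generalize (2 ^ j * (j + 2) + 1 : ℝ) = D at *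
  have hN : 1 ≤ N := by
    rcases Nat.eq_zero_or_pos N with h | h
    · subst h; simp at hlg; linarith
    · exact h
  have hN0 : (0 : ℝ) < N := by exact_mod_cast hN
  obtain ⟨L0, R, T, Ψ, t0, hR, hl0, hΨ, hty, -, hnf, hV⟩ := hF j q L tL
  obtain ⟨θ, c, hcf, hnf⟩ := hnf univ F (up_univ.symm ▸ hFt)
  have hRY : (R : ℝ) ≤ Y := le_trans (by exact_mod_cast hR) hlen
  have hTr : ∀ r, ∃ i, i ∉ T r := fun r => by
    obtain ⟨p, hp, e⟩ := hty r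
    by_contra hc
    push Not at hc
    exact pL p hp (by rw [e, eq_univ_of_forall hc, up_univ])
  obtain ⟨-, d2⟩ := dens (j := j) hN hq
  obtain ⟨x', X, hX, hXc, hXb⟩ := fib0 F hN hq u hu hi hsup hb
  have key : ∀ x : Pt j q, ∃ k : Fin R × (Fin j → Bool) → ℤ, x ∈ X →
      (∀ r, |(k r : ℝ)| ≤ Real.exp Y2) ∧ ∀ l, nz (∑ e, sg e * th' Ψ θ c (mix e x x') l -
        ∑ r, (k r : ℝ) * Ψ r.1 (mix r.2 x x') l) ≤ Real.exp Y2 / N := by
    intro x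
    by_cases hx : x ∈ X
    swap
    · exact ⟨0, fun h => absurd h hx⟩
    obtain ⟨k, hk⟩ := hB (Y ^ 2) q N (Fin R × (Fin j → Bool)) (fun r => Ψ r.1 (mix r.2 x x'))
      (fun l => ∑ e, sg e * th' Ψ θ c (mix e x x') l)
      ⟨by linarith, hq1, by linarith, by rw [← e2]; linarith⟩ (cardk hRY hJY)
      fun a ha hv => key0 hT tL hFt hN hD0 hDY hJY hlen hRY hq Ψ θ c hnf hV (fun e => mix e x x')
        ((mul_le_mul_of_nonneg_right d3 (Nat.cast_nonneg _)).trans (hXb x hx)) a ha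
        fun e r => hv (r, e)
    rw [← e2] at hk
    exact ⟨k, fun _ => hk⟩
  choose k hk using key
  obtain ⟨k0, X1, hX1, hk0, hc1⟩ := label X k (E := Y2) (n := Y ^ 2) (by linarith)
    (cardk hRY hJY) fun x hx => (hk x hx).1
  choose g hg1 hg2 using fc hT t0 hΨ hTr (th' Ψ θ c) x' k0
  obtain ⟨L1, t1, s01, l1, hL1⟩ := topth hT t0 hΨ hcf (sg fun _ : Fin j => true)
  have hε : Real.exp Y2 / N ≤ Real.exp (-Y4) := by
    rw [div_le_iff₀ hN0, ← Real.exp_log hN0, ← Real.exp_add]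
    exact Real.exp_le_exp.2 (by linarith)
  have hin : In L1 univ (fun l x => sg (fun _ : Fin j => true) * th' Ψ θ c x l) g X1 N Y3
      (Real.exp Y2 / N) :=
    ⟨t1, hL1, fun l i _ => hg1 l i,
      ⟨fun x hx => hX x (hX1 hx), dn1 hdn d3 d2 (by positivity) hXc hc1⟩,
      fun x hx l => by rw [hg2, ← hk0 x hx]; exact (hk x (hX1 hx)).2 l⟩
  obtain ⟨L2, t2, s12, l2, -, hsm⟩ := hL Y3 q N (Fin q) L1 univ _ g X1
    (Real.exp Y2 / N) ⟨by linarith, hq1, by linarith, by rw [← e4]; linarith⟩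
    (by rw [Fintype.card_fin]; linarith) (len1 l1 hl0 hlen hRY hY h23) (by positivity)
    (e4 ▸ hε) hin
  rw [← e4] at l2 hsm
  obtain ⟨L3, t3, s3, s3', l3, p3, n3⟩ := ext3 hT tL pL t2 (fun _ h => s12 (s01 h)) hΨ hty
  refine ⟨L3, t3, s3, ?_, p3, fun W hW hv => ?_⟩
  · have h1 : (L3.length : ℝ) ≤ L2.length + L.length + R := by exact_mod_cast l3
    linarith
  · obtain ⟨y, x, rfl⟩ : ∃ y x, W = cn y x := ⟨W 0, Fin.tail W, (Fin.cons_self_tail W).symm⟩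
    have hZ4 : Real.exp (-Z) ≤ Real.exp (-Y4) := Real.exp_le_exp.2 (by linarith)
    have fv : Fv Ψ (Real.exp (-Z)) y x := fun r => hv _ (n3 r)
    have g1 := hsm x (fun i l => (hW i.succ l).trans (mul_le_mul_of_nonneg_right hZ4 hN0.le))
      fun p hp => (hv _ (s3' (List.mem_map_of_mem hp))).trans hZ4
    have g2 := lin Ψ θ c y x fv
    have s2 := small (Z := Z) hY (by linarith) hRY
    rw [← hnf y x fun r => (fv r).trans (small' s2)] at g2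
    exact last (Y2 := Y2) (Y4 := Y4) hY hN0 hq hRY (by linarith) (by linarith) _ y (hW 0)
      (fun l => by rw [← nz_sg fun _ : Fin j => true]; exact g1 l) g2

end

end Vale.Agent.P057T.Loc
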