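import Vale.Agent.P057T.Loc.Defs

/-! The induction on the number of classes for the local statement. -/

set_option linter.all false

open Finset
open scoped BigOperators

namespace Vale.Agent.P057T.Loc

open Vale.Agent.P057Z Vale.Agent.P057L Vale.Agent.P057T.Gkh

noncomputable section

variable {j q : ℕ}

namespace LtP

/-- the conclusion at size `Z` -/
def Cc (L : List (Cd j q)) {ι : Type} (F : ι → Pt j q → ℝ) (N : ℕ) (Z ε : ℝ) : Prop :=
  ∃ L' : List (Cd j q), TT L' ∧ L ⊆ L' ∧ (L'.length : ℝ) ≤ Z ∧ (2 ≤ j → Pr L → Pr L') ∧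
    ∀ W, Sh (Real.exp (-Z) * N) W → Vl L' (Real.exp (-Z)) W → ∀ a, nz (F a W) ≤ Real.exp Z * ε

theorem sh_mono {N : ℕ} {Z Z' : ℝ} (h : Z ≤ Z') {W : Pt j q} (hW : Sh (Real.exp (-Z') * N) W) :
    Sh (Real.exp (-Z) * N) W := fun i l => (hW i l).trans
  (mul_le_mul_of_nonneg_right (Real.exp_le_exp.2 (neg_le_neg h)) (Nat.cast_nonneg N))

theorem vl_mono {L : List (Cd j q)} {Z Z' : ℝ} (h : Z ≤ Z') {W : Pt j q}
    (hW : Vl L (Real.exp (-Z')) W) : Vl L (Real.exp (-Z)) W :=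
  fun p hp => (hW p hp).trans (Real.exp_le_exp.2 (neg_le_neg h))

theorem Cc.mono {L : List (Cd j q)} {ι : Type} {F : ι → Pt j q → ℝ} {N : ℕ} {Z Z' ε : ℝ}
    (h : Cc L F N Z ε) (hZ : Z ≤ Z') (hε : 0 ≤ ε) : Cc L F N Z' ε := by
  obtain ⟨L', h1, h2, h3, h4, h5⟩ := h
  exact ⟨L', h1, h2, h3.trans hZ, h4, fun W a b c => (h5 W (sh_mono hZ a) (vl_mono hZ b) c).trans
    (mul_le_mul_of_nonneg_right (Real.exp_le_exp.2 hZ) hε)⟩

theorem dd_mono {S : Finset (Pt j q)} {N : ℕ} {Y Y' : ℝ} (h : Dd S N Y) (hY : Y ≤ Y') :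
    Dd S N Y' :=
  ⟨h.1, (mul_le_mul_of_nonneg_right (Real.exp_le_exp.2 (neg_le_neg hY)) (by positivity)).trans h.2⟩

theorem in_mono {L : List (Cd j q)} {t : Finset (Fin j)} {ι : Type} {F : ι → Pt j q → ℝ}
    {g : ι → Fin j → Pt j q → ℝ} {S : Finset (Pt j q)} {N : ℕ} {Y Y' ε : ℝ}
    (h : In L t F g S N Y ε) (hY : Y ≤ Y') : In L t F g S N Y' ε :=
  ⟨h.tt, h.top, h.ig, dd_mono h.dd hY, h.sm⟩

theorem st_mono {R : ℕ} {L : List (Cd (j + 1) q)} {T : Fin R → Finset (Fin j)}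
    {Ψ : Fin R → Pt j q → Fin q → ℝ} {t : Finset (Fin j)} {ι : Type}
    {F : ι → Pt (j + 1) q → ℝ} {N : ℕ} {Y Y' ε : ℝ} {A : Finset (Fin R)} {L0 : List (Cd j q)}
    {L1 : List (Cd (j + 1) q)} {θ : ι → Pt j q → Fin q → ℝ} {c : ι → Fin R → Pt j q → ℝ}
    (h : St L T Ψ t F N Y ε A L0 L1 θ c) (hY : Y ≤ Y') (hε : 0 ≤ ε) :
    St L T Ψ t F N Y' ε A L0 L1 θ c :=
  ⟨h.t0, h.t1, h.l0.trans hY, h.l1.trans hY, h.rY.trans hY, h.sub, h.tls, h.fbs, h.pr, h.ps, h.ty,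
    h.cf, fun y x a b c => (h.eq y x (sh_mono hY a) (vl_mono hY b) c).trans
      (mul_le_mul_of_nonneg_right (Real.exp_le_exp.2 hY) hε)⟩

theorem y1 {C : ℕ} {Y : ℝ} {N : ℕ} (h : Sz C Y q N) : 1 ≤ Y :=
  le_trans (by exact_mod_cast h.q1) h.qY

theorem le_pw {Y : ℝ} (hY : 1 ≤ Y) (a : ℕ) : Y ≤ Y ^ (a + 1) :=
  le_self_pow₀ hY (Nat.succ_ne_zero a)

theorem pw_pw {Y : ℝ} (hY : 1 ≤ Y) {a b C : ℕ} (h : a * b ≤ C) : (Y ^ a) ^ b ≤ Y ^ C := by
  rw [← pow_mul]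
  exact pow_le_pow_right₀ hY h

theorem sz_pw {C : ℕ} {Y : ℝ} {N : ℕ} (h : Sz C Y q N) {a b : ℕ} (hab : (a + 1) * b ≤ C) :
    Sz b (Y ^ (a + 1)) q N := by
  have h1 := y1 h
  have h2 := le_pw h1 a
  have h3 : b ≤ C := le_trans (Nat.le_mul_of_pos_left b (Nat.succ_pos a)) hab
  exact ⟨le_trans (by exact_mod_cast h3) (h.C1.trans h2), h.q1, h.qY.trans h2,
    (pw_pw h1 hab).trans h.lg⟩

theorem sz_mono {C : ℕ} {Y : ℝ} {N : ℕ} (h : Sz C Y q N) {b : ℕ} (hb : b ≤ C) : Sz b Y q N :=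
  ⟨le_trans (by exact_mod_cast hb) h.C1, h.q1, h.qY, (pow_le_pow_right₀ (y1 h) hb).trans h.lg⟩

theorem ex_mono {ε Z Z' : ℝ} (h : ε ≤ Real.exp (-Z')) (hZ : Z ≤ Z') : ε ≤ Real.exp (-Z) :=
  h.trans (Real.exp_le_exp.2 (neg_le_neg hZ))

/-- all rounds -/
theorem rounds (hR : RND j) (hF : FIN j) (n : ℕ) :
    ∃ C : ℕ, ∀ (Y : ℝ) (q N : ℕ) (ι : Type) [Fintype ι] (L : List (Cd (j + 1) q))
      (t : Finset (Fin j)) (F : ι → Pt (j + 1) q → ℝ) (g : ι → Fin (j + 1) → Pt (j + 1) q → ℝ)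
      (S : Finset (Pt (j + 1) q)) (ε : ℝ) (R : ℕ) (T : Fin R → Finset (Fin j))
      (Ψ : Fin R → Pt j q → Fin q → ℝ) (A : Finset (Fin R)) (L0 : List (Cd j q))
      (L1 : List (Cd (j + 1) q)) (θ : ι → Pt j q → Fin q → ℝ) (c : ι → Fin R → Pt j q → ℝ),
      Sz C Y q N → (Fintype.card ι : ℝ) ≤ Y → 0 ≤ ε → ε ≤ Real.exp (-Y ^ C) →
      In L (insert 0 (up t)) F g S N Y ε → St L T Ψ t F N Y ε A L0 L1 θ c →
      (A.image T).card ≤ n → Cc L F N (Y ^ C) ε := by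
  induction n with
  | zero =>
    obtain ⟨C, hC⟩ := hF
    refine ⟨C, fun Y q N ι _ L t F g S ε R T Ψ A L0 L1 θ c hs hι h0 hε hI hS hn => ?_⟩
    have hA : A = ∅ := image_eq_empty.1 (card_eq_zero.1 (Nat.le_zero.1 hn))
    subst hA
    obtain ⟨L', h1, h2, h3, h4, h5⟩ := hC Y q N ι L t F g S ε R T Ψ L0 L1 θ c hs hι h0 hε hI hS
    exact ⟨L', h1, h2, h3, fun h => h4 (by omega), h5⟩
  | succ n ih =>
    obtain ⟨C, hC⟩ := ih
    obtain ⟨D, hD⟩ := hR
    refine ⟨(D + 1) * C + D, fun Y q N ι _ L t F g S ε R T Ψ A L0 L1 θ c hs hι h0 hε hI hS hn => ?_⟩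
    have hY := y1 hs
    have hYD := le_pw hY D
    have hp : (Y ^ (D + 1)) ^ C ≤ Y ^ ((D + 1) * C + D) := pw_pw hY (Nat.le_add_right _ _)
    have key : ∀ (A' : Finset (Fin R)) L0' L1' θ' c', St L T Ψ t F N (Y ^ (D + 1)) ε A' L0' L1' θ' c' →
        (A'.image T).card ≤ n → Cc L F N (Y ^ ((D + 1) * C + D)) ε := fun A' L0' L1' θ' c' a b =>
      (hC (Y ^ (D + 1)) q N ι L t F g S ε R T Ψ A' L0' L1' θ' c' (sz_pw hs (Nat.le_add_right _ _))
        (hι.trans hYD) h0 (ex_mono hε hp) (in_mono hI hYD) a b).mono hp h0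
    rcases A.eq_empty_or_nonempty with hA | hA
    · exact key A L0 L1 θ c (st_mono hS hYD h0) (by simp [hA])
    · obtain ⟨r0, hr0, hmax⟩ := exists_max_image A (fun r => (T r).card) hA
      obtain ⟨L0', L1', θ', c', h'⟩ := hD Y q N ι L t F g S ε R T Ψ A L0 L1 θ c (T r0)
        (sz_mono hs (Nat.le_add_left _ _)) hι h0
        (ex_mono hε (pow_le_pow_right₀ hY (Nat.le_add_left _ _))) hI hS
        (fun r hr h => (eq_of_subset_of_card_le h (hmax r hr)).symm)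
      refine key _ L0' L1' θ' c' (st_mono h' (pow_le_pow_right₀ hY (Nat.le_succ D)) h0) ?_
      have h1 : (A.filter fun r => T r ≠ T r0).image T ⊆ (A.image T).erase (T r0) := by
        intro e he
        obtain ⟨r, hr, rfl⟩ := mem_image.1 he
        exact mem_erase.2 ⟨(mem_filter.1 hr).2, mem_image_of_mem T (mem_filter.1 hr).1⟩
      have h2 := card_le_card h1
      rw [card_erase_of_mem (mem_image_of_mem T hr0)] at h2
      omega

/-- a popular slice -/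
theorem slice {S : Finset (Pt (j + 1) q)} {N : ℕ} {Y : ℝ} (hN : 1 ≤ N) (hq : (q : ℝ) ≤ Y)
    (h : Dd S N Y) :
    ∃ (y : Vz q) (X : Finset (Pt j q)), Dd X N (3 * Y) ∧ ∀ x ∈ X, cn y x ∈ S := by
  classical
  set B : Finset (Vz q) := Fintype.piFinset fun _ : Fin q => Icc (-(N : ℤ)) N with hB
  have hm : ∀ W ∈ S, W 0 ∈ B := fun W hW => Fintype.mem_piFinset.2 fun l => by
    have h1 : |W 0 l| ≤ (N : ℤ) := by exact_mod_cast h.1 W hW 0 l
    exact mem_Icc.2 (abs_le.1 h1)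
  have hne : B.Nonempty := ⟨0, Fintype.mem_piFinset.2 fun l => by simp⟩
  have hN' : (1 : ℝ) ≤ N := by exact_mod_cast hN
  have hc : (B.card : ℝ) ≤ Real.exp (2 * Y) * (N : ℝ) ^ q := by
    have h1 : (Icc (-(N : ℤ)) N).card = 2 * N + 1 := by
      rw [Int.card_Icc]
      omega
    have h2 : (B.card : ℝ) = (2 * N + 1) ^ q := by
      rw [hB, Fintype.card_piFinset, prod_const, h1, card_univ, Fintype.card_fin]
      push_cast
      rfl
    have h3 : (2 * N + 1 : ℝ) ≤ Real.exp 2 * N := by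
      have := Real.add_one_le_exp 2
      nlinarith
    rw [h2]
    refine (pow_le_pow_left₀ (by positivity) h3 q).trans ?_
    rw [mul_pow, ← Real.exp_nat_mul]
    exact mul_le_mul_of_nonneg_right (Real.exp_le_exp.2 (by linarith)) (by positivity)
  have hb : B.card • (Real.exp (-(3 * Y)) * (N : ℝ) ^ (j * q)) ≤ (S.card : ℝ) := by
    rw [nsmul_eq_mul]
    refine (mul_le_mul_of_nonneg_right hc (by positivity)).trans (le_trans (le_of_eq ?_) h.2)
    have e : Real.exp (-Y) = Real.exp (2 * Y) * Real.exp (-(3 * Y)) := by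
      rw [← Real.exp_add]
      exact congrArg _ (by ring)
    rw [e, add_mul, one_mul, pow_add]
    ring
  obtain ⟨y, -, hy⟩ := exists_le_card_fiber_of_nsmul_le_card_of_maps_to hm hne hb
  refine ⟨y, (S.filter fun W => W 0 = y).image fun W => (Fin.tail W : Pt j q), ⟨?_, ?_⟩, ?_⟩
  · intro x hx i l
    obtain ⟨W, hW, rfl⟩ := mem_image.1 hx
    exact h.1 W (mem_filter.1 hW).1 i.succ l
  · rw [card_image_of_injOn]
    · exact hy
    · intro W hW W' hW' e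
      have e0 : W 0 = W' 0 := (mem_filter.1 hW).2.trans (mem_filter.1 hW').2.symm
      funext i
      exact Fin.cases e0 (fun i => congrFun e i) i
  · intro x hx
    obtain ⟨W, hW, rfl⟩ := mem_image.1 hx
    rw [← (mem_filter.1 hW).2]
    have e : cn (W 0) (Fin.tail W : Pt j q) = W := Fin.cons_self_tail W
    rw [e]
    exact (mem_filter.1 hW).1

theorem up_eq (t : Finset (Fin (j + 1))) :
    up (univ.filter fun i : Fin j => i.succ ∈ t) = t.erase 0 := by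
  ext i
  refine Fin.cases ?_ (fun i => ?_) i
  · simp [up]
  · simp [up, Fin.succ_ne_zero]

theorem n1 {C : ℕ} {Y : ℝ} {N : ℕ} (h : Sz C Y q N) : 1 ≤ N := by
  rcases Nat.eq_zero_or_pos N with rfl | h0
  · have h1 := h.lg
    have h2 := one_le_pow₀ (n := C) (y1 h)
    simp at h1
    linarith
  · exact h0

/-- the class `0` is not in the type -/
theorem out0 (hT : TB) (hL : FLAT) (ih : LOCT j) :
    ∃ C : ℕ, ∀ (Y : ℝ) (q N : ℕ) (ι : Type) [Fintype ι] (L : List (Cd (j + 1) q))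
      (t : Finset (Fin j)) (F : ι → Pt (j + 1) q → ℝ) (g : ι → Fin (j + 1) → Pt (j + 1) q → ℝ)
      (S : Finset (Pt (j + 1) q)) (ε : ℝ), Sz C Y q N → (Fintype.card ι : ℝ) ≤ Y →
      (L.length : ℝ) ≤ Y → 0 ≤ ε → ε ≤ Real.exp (-Y ^ C) → In L (up t) F g S N Y ε →
      Cc L F N (Y ^ C) ε := by
  obtain ⟨C, hC⟩ := ih
  refine ⟨3 * C + 3, fun Y q N ι _ L t F g S ε hs hι hl h0 hε hI => ?_⟩
  have hY := y1 hs
  have hY3 : (3 : ℝ) ≤ Y := le_trans (by exact_mod_cast Nat.le_add_left 3 (3 * C)) hs.C1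
  have hp : (Y ^ 3) ^ C ≤ Y ^ (3 * C + 3) := pw_pw hY (Nat.le_add_right _ _)
  obtain ⟨L0, R, T, Ψ, t0, -, l0, -, -, hup, -, -⟩ := hL j q L hI.tt
  choose F0 hF0 eF0 using fun a => hup t (F a) (hI.top a)
  obtain ⟨y, X, hX, hXS⟩ := slice (n1 hs) hs.qY hI.dd
  have h9 : 3 * Y ≤ Y ^ 2 := by nlinarith
  have h3 : 3 * Y ≤ Y ^ 3 := h9.trans (pow_le_pow_right₀ hY (by norm_num))
  have l1 : (L0.length : ℝ) ≤ Y ^ 3 := by
    have h1 : (L0.length : ℝ) ≤ ((L.length : ℝ) + 1) ^ 2 := by exact_mod_cast l0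
    have h2 : ((L.length : ℝ) + 1) ^ 2 ≤ (Y + 1) ^ 2 :=
      pow_le_pow_left₀ (by positivity) (by linarith) 2
    nlinarith
  have hI0 : In L0 t F0 (fun a i x => g a i.succ (cn y x)) X N (Y ^ 3) ε :=
    ⟨t0, hF0, fun a i hi W v => by
        have e : cn y (Function.update W i v) = Function.update (cn y W) i.succ v :=
          Fin.cons_update (α := fun _ => Vz q) y W i v
        show g a i.succ (cn y (Function.update W i v)) = _
        rw [e]
        exact hI.ig a i.succ (mem_map_of_mem _ hi) _ _,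
      dd_mono hX h3, fun W hW a => by
        have h1 := hI.sm _ (hXS W hW) a
        rw [eF0, up, sum_map] at h1
        exact h1⟩
  obtain ⟨L', a1, a2, a3, -, a5⟩ := hC (Y ^ 3) q N ι L0 t F0 _ X ε
    (sz_pw (a := 2) hs (Nat.le_add_right _ _)) (hι.trans (le_pw hY 2)) l1 h0 (ex_mono hε hp) hI0
  have hq : (Y ^ 3) ^ C + Y ≤ Y ^ (3 * C + 3) := by
    have h1 : 1 ≤ (Y ^ 3) ^ C := one_le_pow₀ (one_le_pow₀ hY)
    rw [pow_add, pow_mul]
    nlinarith
  refine ⟨tl L' ++ L, (hT (j + 1) q).2.2.2.2.1 _ _ ((hT j q).2.2.2.2.2.2.2.2.1 _ a1) hI.tt,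
    List.subset_append_right _ _, ?_, fun _ hP p hp' => ?_, fun W b1 b2 a => ?_⟩
  · rw [List.length_append, tl, List.length_map]
    push_cast
    linarith
  · rcases List.mem_append.1 hp' with h | h
    · obtain ⟨p0, -, rfl⟩ := List.mem_map.1 h
      intro e
      have e1 : p0.1.map (Fin.succEmb j) = univ := e
      have h1 : (0 : Fin (j + 1)) ∈ p0.1.map (Fin.succEmb j) := e1 ▸ mem_univ _
      simp at h1
    · exact hP p h
  · have e : cn (W 0) (Fin.tail W : Pt j q) = W := Fin.cons_self_tail W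
    rw [← e, eF0]
    refine (a5 (Fin.tail W) (fun i l => sh_mono hp b1 i.succ l) (fun p hp' => ?_) a).trans
      (mul_le_mul_of_nonneg_right (Real.exp_le_exp.2 hp) h0)
    exact vl_mono hp b2 (p.1.map (Fin.succEmb j), fun W => p.2 (Fin.tail W))
      (List.mem_append_left _ (List.mem_map_of_mem hp'))

theorem base : LOCT 0 := by
  refine ⟨1, fun Y q N ι _ L t F g S ε hs hι hl h0 hε hI => ⟨L, hI.tt, List.Subset.refl _, ?_,
    fun _ h => h, fun W _ _ a => ?_⟩⟩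
  · rwa [pow_one]
  · have h1 : (0 : ℝ) < S.card := lt_of_lt_of_le (by simp [Real.exp_pos]) hI.dd.2
    obtain ⟨W', hW'⟩ := card_pos.1 (by exact_mod_cast h1 : 0 < S.card)
    have h2 := hI.sm W' hW' a
    rw [Subsingleton.elim t ∅, sum_empty, add_zero, Subsingleton.elim W' W] at h2
    exact h2.trans (le_mul_of_one_le_left h0 (Real.one_le_exp (by linarith [y1 hs, pow_one Y])))

end LtP

open LtP in
theorem loct (hT : TB) (hL : FLAT) (h0 : ∀ j, ST0 j) (hR : ∀ j, LOCT j → RND j)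
    (hF : ∀ j, LOCT j → FIN j) : ∀ j, LOCT j := by
  intro j
  induction j with
  | zero => exact base
  | succ j ih =>
    obtain ⟨C1, h1⟩ := out0 hT hL ih
    obtain ⟨C2, h2⟩ := rounds (hR j ih) (hF j ih) (2 ^ j)
    obtain ⟨C3, h3⟩ := h0 j
    refine ⟨(C3 + 1) * C2 + (C1 + C3), fun Y q N ι _ L t F g S ε hs hι hl hε0 hε hI => ?_⟩
    have hY := y1 hs
    have e := up_eq t
    by_cases ht : (0 : Fin (j + 1)) ∈ t
    · rw [← insert_erase ht, ← e] at hI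
      have hp : (Y ^ (C3 + 1)) ^ C2 ≤ Y ^ ((C3 + 1) * C2 + (C1 + C3)) :=
        pw_pw hY (Nat.le_add_right _ _)
      obtain ⟨R, T, Ψ, L0, L1, θ, c, hS⟩ := h3 Y q N ι L _ F ε
        (sz_mono hs (by omega)).C1 hl hε0 hI.tt hI.top
      refine (h2 (Y ^ (C3 + 1)) q N ι L _ F g S ε R T Ψ univ L0 L1 θ c
        (sz_pw hs (Nat.le_add_right _ _)) (hι.trans (le_pw hY C3)) hε0 (ex_mono hε hp)
        (in_mono hI (le_pw hY C3)) (st_mono hS (pow_le_pow_right₀ hY (Nat.le_succ C3)) hε0)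
        ?_).mono hp hε0
      refine (card_le_univ _).trans (le_of_eq ?_)
      rw [Fintype.card_finset, Fintype.card_fin]
    · rw [← erase_eq_of_notMem ht, ← e] at hI
      have hp : Y ^ C1 ≤ Y ^ ((C3 + 1) * C2 + (C1 + C3)) := pow_le_pow_right₀ hY (by omega)
      exact (h1 Y q N ι L _ F g S ε (sz_mono hs (by omega)) hι hl hε0 (ex_mono hε hp) hI).mono hp hε0

end

end Vale.Agent.P057T.Loc
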