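import Vale.Agent.P057T.Loc.Defs

/-! Popular fibres with a common label, and the first state. -/

set_option linter.all false

open Finset
open scoped BigOperators

namespace Vale.Agent.P057T.Loc

open Vale.Agent.P057Z Vale.Agent.P057L Vale.Agent.P057T.Gkh

noncomputable section

/-- the closed symmetric cube of integer vectors -/
def popBox (β : Type) [Fintype β] [DecidableEq β] (M : ℕ) : Finset (β → ℤ) :=
  Fintype.piFinset fun _ => Icc (-(M : ℤ)) M

theorem pop_box_card (β : Type) [Fintype β] [DecidableEq β] (M : ℕ) :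
    (popBox β M).card = (2 * M + 1) ^ Fintype.card β := by
  unfold popBox
  rw [Fintype.card_piFinset]
  have : (Icc (-(M : ℤ)) M).card = 2 * M + 1 := by
    rw [Int.card_Icc]
    omega
  simp [this]

theorem pop_box_mem (β : Type) [Fintype β] [DecidableEq β] (M : ℕ) (v : β → ℤ)
    (h : ∀ s, |(v s : ℝ)| ≤ M) : v ∈ popBox β M := by
  unfold popBox
  rw [Fintype.mem_piFinset]
  intro s
  have h1 : |v s| ≤ (M : ℤ) := by exact_mod_cast h s
  exact mem_Icc.2 (abs_le.1 h1)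

theorem pop_box_le (β : Type) [Fintype β] [DecidableEq β] (M : ℕ) (v : β → ℤ)
    (h : v ∈ popBox β M) (s : β) : |(v s : ℝ)| ≤ M := by
  unfold popBox at h
  have h1 := abs_le.2 (mem_Icc.1 (Fintype.mem_piFinset.1 h s))
  exact_mod_cast h1

theorem pop_fiber {α γ : Type} [DecidableEq γ] (X : Finset α) (Lb : Finset γ) (f : α → γ)
    (hne : Lb.Nonempty) (hf : ∀ x ∈ X, f x ∈ Lb) :
    ∃ b ∈ Lb, (X.card : ℝ) ≤ Lb.card * ((X.filter fun x => f x = b).card : ℝ) := by
  have h1 : X.card = ∑ b ∈ Lb, (X.filter fun x => f x = b).card :=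
    card_eq_sum_card_fiberwise (fun x hx => hf x hx)
  have h2 : ∑ _b ∈ Lb, (X.card : ℝ) ≤
      ∑ b ∈ Lb, (Lb.card : ℝ) * ((X.filter fun x => f x = b).card : ℝ) := by
    rw [sum_const, nsmul_eq_mul, ← mul_sum, h1]
    push_cast
    exact le_rfl
  exact exists_le_of_sum_le hne h2

theorem pop_lab {j q N : ℕ} (X : Finset (Pt j q)) (Y : ℝ) (hX : Dd X N Y) (β : Type) [Fintype β]
    (B : ℝ) (lab : Pt j q → β → ℤ) (hB : 1 ≤ B) (hl : ∀ x ∈ X, ∀ s, |(lab x s : ℝ)| ≤ Real.exp B) :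
    ∃ (b : β → ℤ) (X1 : Finset (Pt j q)), X1 ⊆ X ∧ Dd X1 N (Y + 3 * B * Fintype.card β) ∧
      ∀ x ∈ X1, lab x = b := by
  classical
  set M : ℕ := ⌊Real.exp B⌋₊ with hM
  have hM1 : (M : ℝ) ≤ Real.exp B := Nat.floor_le (Real.exp_pos B).le
  have hf : ∀ x ∈ X, lab x ∈ popBox β M := by
    intro x hx
    refine pop_box_mem β M _ fun s => ?_
    have h1 := hl x hx s
    have h2 : (((lab x s).natAbs : ℕ) : ℝ) = |(lab x s : ℝ)| := by
      rw [Nat.cast_natAbs]; push_cast; rfl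
    have h3 : (lab x s).natAbs ≤ M := Nat.le_floor (by rw [h2]; exact h1)
    rw [← h2]
    exact_mod_cast h3
  have hne : (popBox β M).Nonempty := ⟨0, pop_box_mem β M _ fun s => by simp⟩
  obtain ⟨b, -, hb⟩ := pop_fiber X (popBox β M) lab hne hf
  refine ⟨b, X.filter fun x => lab x = b, filter_subset _ _, ⟨?_, ?_⟩, ?_⟩
  · intro W hW
    exact hX.1 W (mem_filter.1 hW).1
  · have e1 : 1 ≤ Real.exp B := Real.one_le_exp (by linarith)
    have e2 : (3 : ℝ) ≤ Real.exp (2 * B) := by linarith [Real.add_one_le_exp (2 * B)]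
    have e3 : (2 * M + 1 : ℝ) ≤ Real.exp (3 * B) := by
      have : Real.exp (3 * B) = Real.exp (2 * B) * Real.exp B := by
        rw [← Real.exp_add]; ring_nf
      rw [this]
      nlinarith
    have e4 : ((popBox β M).card : ℝ) ≤ Real.exp (3 * B * Fintype.card β) := by
      rw [pop_box_card, mul_comm (3 * B), Real.exp_nat_mul]
      push_cast
      exact pow_le_pow_left₀ (by positivity) e3 _
    have e5 : (X.card : ℝ) ≤ Real.exp (3 * B * Fintype.card β) *
        ((X.filter fun x => lab x = b).card : ℝ) :=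
      hb.trans (mul_le_mul_of_nonneg_right e4 (by positivity))
    have e6 : Real.exp (-(Y + 3 * B * Fintype.card β)) * Real.exp (3 * B * Fintype.card β) =
        Real.exp (-Y) := by
      rw [← Real.exp_add]; ring_nf
    have e7 := hX.2
    have e8 : 0 < Real.exp (3 * B * Fintype.card β) := Real.exp_pos _
    refine le_of_mul_le_mul_left ?_ e8
    calc Real.exp (3 * B * Fintype.card β) *
          (Real.exp (-(Y + 3 * B * Fintype.card β)) * (N : ℝ) ^ (j * q))
        = Real.exp (-Y) * (N : ℝ) ^ (j * q) := by rw [← e6]; ring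
      _ ≤ _ := e7.trans e5
  · intro x hx
    exact (mem_filter.1 hx).2

/-- the closed symmetric box of tuples -/
def popBx (j q N : ℕ) : Finset (Pt j q) := Fintype.piFinset fun _ => popBox (Fin q) N

open Classical in
/-- the fibre over a tuple -/
def popFib {j q : ℕ} (S : Finset (Pt (j + 1) q)) (N : ℕ) (x : Pt j q) : Finset (Vz q) :=
  (popBox (Fin q) N).filter fun y => cn y x ∈ S

theorem pop_bx_card (j q N : ℕ) : (popBx j q N).card = (2 * N + 1) ^ (j * q) := by
  unfold popBx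
  rw [Fintype.card_piFinset]
  simp only [pop_box_card, Fintype.card_fin, prod_const, card_univ]
  rw [← pow_mul, mul_comm q j]

theorem pop_count {j q N : ℕ} (S : Finset (Pt (j + 1) q)) (hS : ∀ W ∈ S, Sh N W) :
    S.card ≤ ∑ x ∈ popBx j q N, (popFib S N x).card := by
  classical
  rw [← card_sigma]
  refine card_le_card_of_injOn (fun W => ⟨Fin.tail W, W 0⟩) ?_ ?_
  · intro W hW
    have hW' : W ∈ S := hW
    refine mem_coe.2 (mem_sigma.2 ⟨?_, ?_⟩)
    · unfold popBx
      rw [Fintype.mem_piFinset]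
      intro i
      exact pop_box_mem _ _ _ fun l => hS W hW' i.succ l
    · unfold popFib
      refine mem_filter.2 ⟨pop_box_mem _ _ _ fun l => hS W hW' 0 l, ?_⟩
      have : cn (W 0) (Fin.tail W) = W := Fin.cons_self_tail W
      rw [this]
      exact hW'
  · intro W _ W' _ h
    have h1 : Fin.tail W = Fin.tail W' := congrArg Sigma.fst h
    have h2 : W 0 = W' 0 := congrArg (fun p : (Σ _ : Pt j q, Vz q) => p.2) h
    rw [← Fin.cons_self_tail W, ← Fin.cons_self_tail W', h1, h2]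

theorem pop_num (j q : ℕ) (Y : ℝ) (hY : ((2 * j + 5 : ℕ) : ℝ) ≤ Y) (hq : (q : ℝ) ≤ Y) :
    Real.exp (-Y ^ (2 * j + 5)) * ((3 : ℝ) ^ q + 3 ^ (j * q)) ≤ Real.exp (-Y) := by
  push_cast at hY
  have hj : (0 : ℝ) ≤ j := by positivity
  have hq0 : (0 : ℝ) ≤ q := by positivity
  have hY1 : 1 ≤ Y := by linarith
  have h3 : (3 : ℝ) ≤ Real.exp 2 := by linarith [Real.add_one_le_exp (2 : ℝ)]
  have h2 : (2 : ℝ) ≤ Real.exp 1 := by linarith [Real.add_one_le_exp (1 : ℝ)]
  have a1 : ∀ n : ℕ, (n : ℝ) ≤ (j + 1) * Y → (3 : ℝ) ^ n ≤ Real.exp (2 * ((j + 1) * Y)) := by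
    intro n hn
    calc (3 : ℝ) ^ n ≤ Real.exp 2 ^ n := pow_le_pow_left₀ (by norm_num) h3 n
      _ = Real.exp (n * 2) := by rw [Real.exp_nat_mul]
      _ ≤ _ := Real.exp_le_exp.2 (by linarith)
  have a2 := a1 q (by nlinarith)
  have a3 := a1 (j * q) (by push_cast; nlinarith)
  have a4 : Y ^ 2 ≤ Y ^ (2 * j + 5) := pow_le_pow_right₀ hY1 (by omega)
  have a5 : (3 : ℝ) ^ q + 3 ^ (j * q) ≤ Real.exp 1 * Real.exp (2 * ((j + 1) * Y)) := by
    nlinarith [Real.exp_pos (2 * ((j + 1) * Y))]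
  calc _ ≤ Real.exp (-Y ^ (2 * j + 5)) * (Real.exp 1 * Real.exp (2 * ((j + 1) * Y))) :=
        mul_le_mul_of_nonneg_left a5 (Real.exp_pos _).le
    _ ≤ _ := by
        rw [← Real.exp_add, ← Real.exp_add]
        exact Real.exp_le_exp.2 (by nlinarith)

theorem pop : POP := by
  classical
  intro j
  refine ⟨2 * j + 5, ?_⟩
  intro Y q N S hz hD
  set C : ℕ := 2 * j + 5 with hC
  have hnum := pop_num j q Y hz.C1 hz.qY
  have hY1 : 1 ≤ Y := by
    have := hz.C1
    rw [hC] at this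
    push_cast at this
    have hj : (0 : ℝ) ≤ j := by positivity
    linarith
  have hN1 : 1 ≤ N := by
    rcases Nat.eq_zero_or_pos N with h | h
    · have h1 := hz.lg
      rw [h] at h1
      simp only [Nat.cast_zero, Real.log_zero] at h1
      have : 1 ≤ Y ^ C := one_le_pow₀ hY1
      linarith
    · exact h
  have hN : (1 : ℝ) ≤ N := by exact_mod_cast hN1
  set δ : ℝ := Real.exp (-Y ^ C) with hδ
  have hδ0 : 0 < δ := Real.exp_pos _
  let X : Finset (Pt j q) :=
    (popBx j q N).filter fun x => δ * (N : ℝ) ^ q ≤ (popFib S N x).card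
  have hXd : Dd X N (Y ^ C) := by
    refine ⟨?_, ?_⟩
    · intro W hW i l
      have h1 : W ∈ popBx j q N := (mem_filter.1 hW).1
      unfold popBx at h1
      exact pop_box_le _ _ _ (Fintype.mem_piFinset.1 h1 i) l
    · by_contra hcon
      push Not at hcon
      have c1 : (S.card : ℝ) ≤ ∑ x ∈ popBx j q N, ((popFib S N x).card : ℝ) := by
        exact_mod_cast pop_count S hD.1
      have c2 : ∀ n : ℕ, (((2 * N + 1) ^ n : ℕ) : ℝ) ≤ 3 ^ n * (N : ℝ) ^ n := by
        intro n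
        rw [← mul_pow]
        push_cast
        exact pow_le_pow_left₀ (by positivity) (by linarith) n
      have c3 : ∀ x, ((popFib S N x).card : ℝ) ≤ 3 ^ q * (N : ℝ) ^ q := by
        intro x
        refine le_trans ?_ (c2 q)
        have : (popFib S N x).card ≤ (popBox (Fin q) N).card := card_le_card (filter_subset _ _)
        rw [pop_box_card, Fintype.card_fin] at this
        exact_mod_cast this
      rw [← sum_filter_add_sum_filter_not (popBx j q N)
        (fun x => δ * (N : ℝ) ^ q ≤ (popFib S N x).card)] at c1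
      have c4 : ∑ x ∈ X, ((popFib S N x).card : ℝ) ≤ X.card * (3 ^ q * (N : ℝ) ^ q) := by
        rw [← nsmul_eq_mul, ← sum_const]
        exact sum_le_sum fun x _ => c3 x
      have c5 : ∑ x ∈ (popBx j q N).filter (fun x => ¬ δ * (N : ℝ) ^ q ≤ (popFib S N x).card),
          ((popFib S N x).card : ℝ) ≤ (3 ^ (j * q) * (N : ℝ) ^ (j * q)) * (δ * (N : ℝ) ^ q) := by
        refine le_trans (sum_le_card_nsmul _ _ (δ * (N : ℝ) ^ q) fun x hx => ?_) ?_
        · exact (not_le.1 (mem_filter.1 hx).2).le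
        · rw [nsmul_eq_mul]
          refine mul_le_mul_of_nonneg_right (le_trans ?_ (c2 (j * q))) (by positivity)
          rw [← pop_bx_card]
          exact_mod_cast card_le_card (filter_subset _ _)
      have c6 : (X.card : ℝ) * (3 ^ q * (N : ℝ) ^ q) <
          δ * (N : ℝ) ^ (j * q) * (3 ^ q * (N : ℝ) ^ q) :=
        mul_lt_mul_of_pos_right hcon (by positivity)
      have c7 := hD.2
      have c8 : (N : ℝ) ^ ((j + 1) * q) = (N : ℝ) ^ (j * q) * (N : ℝ) ^ q := by
        rw [add_mul, one_mul, pow_add]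
      have c9 := mul_le_mul_of_nonneg_right hnum
        (show 0 ≤ (N : ℝ) ^ (j * q) * (N : ℝ) ^ q by positivity)
      rw [c8] at c7
      have c10 : (S.card : ℝ) ≤ X.card * (3 ^ q * (N : ℝ) ^ q) +
          (3 ^ (j * q) * (N : ℝ) ^ (j * q)) * (δ * (N : ℝ) ^ q) := c1.trans (add_le_add c4 c5)
      have c11 : δ * ((3 : ℝ) ^ q + 3 ^ (j * q)) * ((N : ℝ) ^ (j * q) * (N : ℝ) ^ q) =
          δ * (N : ℝ) ^ (j * q) * (3 ^ q * (N : ℝ) ^ q) +
          (3 ^ (j * q) * (N : ℝ) ^ (j * q)) * (δ * (N : ℝ) ^ q) := by ring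
      linarith
  refine ⟨X, hXd, ?_, ?_⟩
  · intro x hx
    exact ⟨popFib S N x, (mem_filter.1 hx).2, fun y hy => (mem_filter.1 hy).2⟩
  · intro β _ B lab hB hl
    exact pop_lab X (Y ^ C) hXd β B lab hB hl

theorem st0_num (Y : ℝ) (R : ℕ) (hY : 3 ≤ Y) (hR : (R : ℝ) ≤ Y) :
    Real.exp (-Y ^ 3) ≤ ((2 : ℝ) ^ R)⁻¹ / 4 := by
  have h2 : (2 : ℝ) ≤ Real.exp 1 := by linarith [Real.add_one_le_exp (1 : ℝ)]
  have a1 : (2 : ℝ) ^ (R + 2) ≤ Real.exp (Y ^ 3) := by
    calc (2 : ℝ) ^ (R + 2) ≤ Real.exp 1 ^ (R + 2) := pow_le_pow_left₀ (by norm_num) h2 _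
      _ = Real.exp ((R + 2 : ℕ) * 1) := by rw [Real.exp_nat_mul]
      _ ≤ _ := Real.exp_le_exp.2 (by push_cast; nlinarith [mul_self_nonneg (Y - 3)])
  have a2 : ((2 : ℝ) ^ R)⁻¹ / 4 = ((2 : ℝ) ^ (R + 2))⁻¹ := by
    rw [pow_add, mul_inv]; norm_num [div_eq_mul_inv]
  rw [a2, Real.exp_neg]
  exact inv_anti₀ (by positivity) a1

theorem st0 (hT : TB) (hF : FLAT) (j : ℕ) : ST0 j := by
  classical
  refine ⟨3, ?_⟩
  intro Y q N ι _ L t F ε hC hL hε htt htop
  have hY : (3 : ℝ) ≤ Y := by exact_mod_cast hC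
  obtain ⟨L0, R, T, Ψ, f1, f2, f3, f4, f5, -, f7, -⟩ := hF j q L htt
  choose θ c hcf heq using fun a => f7 t (F a) (htop a)
  obtain ⟨-, -, -, -, -, -, -, -, b9, -, b11, -⟩ := hT j q
  obtain ⟨-, -, b3, -, b5, -, -, b8, -⟩ := hT (j + 1) q
  have hM : TT (L ++ tl L0) := b5 _ _ htt (b9 L0 f1)
  obtain ⟨L1, g1, g2, g3, g4, g5⟩ := b8 (L ++ tl L0) (Fin R) (fun r => (fb (T r) (Ψ r)).1)
    (fun r => (fb (T r) (Ψ r)).2) hM
    (fun r => b3 _ _ _ _ (List.subset_append_right _ _) (b11 L0 (T r) (Ψ r) (f4 r)))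
  have hR : (R : ℝ) ≤ Y := le_trans (by exact_mod_cast f2) hL
  have hL0 : (L0.length : ℝ) ≤ (Y + 1) ^ 2 := by
    have h1 : (L0.length : ℝ) ≤ ((L.length : ℝ) + 1) ^ 2 := by exact_mod_cast f3
    exact h1.trans (pow_le_pow_left₀ (by positivity) (by linarith) 2)
  have hY3 : Y + (Y + 1) ^ 2 + Y ≤ Y ^ 3 := by nlinarith [mul_self_nonneg (Y - 3)]
  have hfb : ∀ r, fb (T r) (Ψ r) ∈ L1 := fun r => (g5 r).2 (insert_nonempty _ _)
  refine ⟨R, T, Ψ, L0, L1, θ, c, f1, g1, by linarith, ?_, by nlinarith, ?_, ?_, hfb, ?_, f4, f5,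
    hcf, ?_⟩
  · have h1 : L1.length ≤ L.length + L0.length + R := by
      simpa [tl] using g3
    have h2 : (L1.length : ℝ) ≤ L.length + L0.length + R := by exact_mod_cast h1
    linarith
  · exact List.Subset.trans (List.subset_append_left _ _) g2
  · exact List.Subset.trans (List.subset_append_right _ _) g2
  · intro _ hP p hp
    rcases g4 p hp with h | ⟨r, h⟩
    · rcases List.mem_append.1 h with h | h
      · exact hP p h
      · obtain ⟨p0, -, h0⟩ := List.mem_map.1 h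
        intro hu
        have h1 : (0 : Fin (j + 1)) ∈ p.1 := by rw [hu]; exact mem_univ _
        rw [← h0] at h1
        obtain ⟨i, -, hi⟩ := mem_map.1 h1
        exact Fin.succ_ne_zero i hi
    · obtain ⟨p', hp', e⟩ := f5 r
      have h1 : p.1 = p'.1 := by rw [h, e]; rfl
      rw [h1]
      exact hP p' hp'
  · intro y x _ hV a
    have hv : Fv Ψ (((2 : ℝ) ^ R)⁻¹ / 4) y x := by
      intro r
      have h1 : nz (dt (Ψ r x) y) ≤ Real.exp (-Y ^ 3) := hV _ (hfb r)
      exact h1.trans (st0_num Y R hY hR)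
    rw [heq a y x hv, sub_self]
    have : nz 0 = 0 := by simp [nz]
    rw [this]
    positivity

end

end Vale.Agent.P057T.Loc
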