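import Vale.Agent.P057T.Loc.Rnd0

/-! The pointwise step of a round. -/

set_option linter.all false

open Finset
open scoped BigOperators

namespace Vale.Agent.P057T.Loc.R0

open Vale.Agent.P057Z Vale.Agent.P057L Vale.Agent.P057T.Gkh Vale.Agent.P057T.Loc

noncomputable section

variable {q : ℕ}

theorem rel_eq {κ : Type} [Fintype κ] (f : κ → ℤ) (Ψ : κ → Fin q → ℝ) (y : Vz q) {a b c d Y : ℝ}
    (hf : ∀ r, |(f r : ℝ)| ≤ a) (hΨ : ∀ r, nz (dt (Ψ r) y) ≤ b)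
    (hG : ∀ l, nz (∑ r, (f r : ℝ) * Ψ r l) ≤ c) (hy : ∀ l, |(y l : ℝ)| ≤ d)
    (hR : (Fintype.card κ : ℝ) ≤ Y) (hq : (q : ℝ) ≤ Y) (ha : 0 ≤ a) (hb : 0 ≤ b) (hc : 0 ≤ c)
    (hd : 0 ≤ d) (h : Y * (a * b) + Y * (c * d) < 1) :
    ((∑ r, f r * round (dt (Ψ r) y) : ℤ) : ℝ) =
      dt (fun l => (round (∑ r, (f r : ℝ) * Ψ r l) : ℝ)) y := by
  have e0 : ∑ r, (f r : ℝ) * dt (Ψ r) y = ∑ l, (∑ r, (f r : ℝ) * Ψ r l) * y l := by
    simp only [dt, mul_sum, sum_mul]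
    rw [sum_comm]
    exact sum_congr rfl fun l _ => sum_congr rfl fun r _ => by ring
  have e1 : ((∑ r, f r * round (dt (Ψ r) y) - ∑ l, round (∑ r, (f r : ℝ) * Ψ r l) * y l : ℤ) : ℝ) =
      ∑ l, ((∑ r, (f r : ℝ) * Ψ r l) - round (∑ r, (f r : ℝ) * Ψ r l)) * y l -
        ∑ r, (f r : ℝ) * (dt (Ψ r) y - round (dt (Ψ r) y)) := by
    simp only [sub_mul, mul_sub, sum_sub_distrib, e0]
    push_cast
    ring
  have b1 : |∑ l, ((∑ r, (f r : ℝ) * Ψ r l) - round (∑ r, (f r : ℝ) * Ψ r l)) * y l| ≤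
      Y * (c * d) := by
    refine (abs_sum_le_sum_abs _ _).trans ?_
    refine (sum_le_card_nsmul _ _ (c * d) fun l _ => ?_).trans ?_
    · rw [abs_mul]
      exact mul_le_mul (hG l) (hy l) (abs_nonneg _) hc
    · rw [card_univ, Fintype.card_fin, nsmul_eq_mul]
      exact mul_le_mul_of_nonneg_right hq (by positivity)
  have b2 : |∑ r, (f r : ℝ) * (dt (Ψ r) y - round (dt (Ψ r) y))| ≤ Y * (a * b) := by
    refine (abs_sum_le_sum_abs _ _).trans ?_
    refine (sum_le_card_nsmul _ _ (a * b) fun r _ => ?_).trans ?_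
    · rw [abs_mul]
      exact mul_le_mul (hf r) (hΨ r) (abs_nonneg _) ha
    · rw [card_univ, nsmul_eq_mul]
      exact mul_le_mul_of_nonneg_right hR (by positivity)
  have b3 : |((∑ r, f r * round (dt (Ψ r) y) -
      ∑ l, round (∑ r, (f r : ℝ) * Ψ r l) * y l : ℤ) : ℝ)| < 1 := by
    rw [e1]
    refine lt_of_le_of_lt (abs_sub _ _) ?_
    linarith
  have b4 : |∑ r, f r * round (dt (Ψ r) y) - ∑ l, round (∑ r, (f r : ℝ) * Ψ r l) * y l| < 1 := by
    exact_mod_cast b3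
  rw [Int.abs_lt_one_iff, sub_eq_zero] at b4
  rw [b4, dt]
  push_cast
  rfl

theorem point {R t : ℕ} (A : Finset (Fin R)) (P : Fin R → Prop) [DecidablePred P]
    (blk : Fin R → Prop) [DecidablePred blk] (hb : ∀ r, blk r ↔ r ∈ A ∧ P r)
    (f w : Fin t → Fin R → ℤ) (D n : ℤ) (hD : D ≠ 0) (hn : n ≠ 0)
    (hf : ∀ i r, ¬ blk r → f i r = 0) (c : Fin R → ℝ) (Ψ : Fin R → Fin q → ℝ) (y : Vz q)
    (θ : Fin q → ℝ) (G : Fin t → Fin q → ℝ) (H : Fin R → ℝ)
    (hH : ∀ r, H r = ∑ r', ((n * vv blk f w D r r' : ℤ) : ℝ) * c r')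
    (hm : ∀ r, n * D ∣ round (dt (Ψ r) y))
    (hG : ∀ i, ((∑ r, f i r * round (dt (Ψ r) y) : ℤ) : ℝ) = dt (G i) y) {η : ℝ} (hη : 0 ≤ η)
    (hs : ∀ r, nz (H r) ≤ η) :
    nz ((dt θ y + ∑ r ∈ A, c r * (round (dt (Ψ r) y) : ℝ)) -
      (dt (fun l => θ l + ∑ i, (∑ r, (if blk r then (w i r : ℝ) / D else 0) * c r) * G i l +
          ∑ r ∈ univ.filter blk, ((n * D : ℤ) : ℝ)⁻¹ * ((H r + (-1) * round (H r)) * Ψ r l)) y +
        ∑ r ∈ A.filter (fun r => ¬ P r), c r * (round (dt (Ψ r) y) : ℝ))) ≤ R * η := by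
  obtain ⟨z, hz⟩ := core blk f w D n hD hn hf c (fun r => round (dt (Ψ r) y)) (fun r _ => hm r) H hH
  have e1 : A.filter P = univ.filter blk := by
    ext r
    simp [hb]
  have e2 := sum_filter_add_sum_filter_not A P fun r => c r * (round (dt (Ψ r) y) : ℝ)
  rw [e1, hz] at e2
  have e3 : dt (fun l => θ l + ∑ i, (∑ r, (if blk r then (w i r : ℝ) / D else 0) * c r) * G i l +
      ∑ r ∈ univ.filter blk, ((n * D : ℤ) : ℝ)⁻¹ * ((H r + (-1) * round (H r)) * Ψ r l)) y =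
      dt θ y + ∑ i, (∑ r, (if blk r then (w i r : ℝ) / D else 0) * c r) * dt (G i) y +
      ∑ r ∈ univ.filter blk, (H r - round (H r)) * ((n * D : ℤ) : ℝ)⁻¹ * dt (Ψ r) y := by
    generalize ((n * D : ℤ) : ℝ)⁻¹ = u
    generalize hK : (fun i => ∑ r, (if blk r then (w i r : ℝ) / D else 0) * c r) = K
    have hK' : ∀ i, ∑ r, (if blk r then (w i r : ℝ) / D else 0) * c r = K i := fun i =>
      congrFun hK i
    simp only [hK', dt, add_mul, sum_add_distrib]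
    congr 1
    · congr 1
      simp only [sum_mul, mul_sum]
      rw [sum_comm]
      exact sum_congr rfl fun i _ => sum_congr rfl fun l _ => by ring
    · simp only [sum_mul, mul_sum]
      rw [sum_comm]
      exact sum_congr rfl fun i _ => sum_congr rfl fun l _ => by ring
  have e4 : (dt θ y + ∑ r ∈ A, c r * (round (dt (Ψ r) y) : ℝ)) -
      (dt (fun l => θ l + ∑ i, (∑ r, (if blk r then (w i r : ℝ) / D else 0) * c r) * G i l +
          ∑ r ∈ univ.filter blk, ((n * D : ℤ) : ℝ)⁻¹ * ((H r + (-1) * round (H r)) * Ψ r l)) y +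
        ∑ r ∈ A.filter (fun r => ¬ P r), c r * (round (dt (Ψ r) y) : ℝ)) =
      z + ∑ r ∈ univ.filter blk, (H r - round (H r)) * ((n * D : ℤ) : ℝ)⁻¹ *
        (round (dt (Ψ r) y) - dt (Ψ r) y) := by
    rw [e3, ← e2]
    simp only [hG, mul_sub, sum_sub_distrib]
    ring
  rw [e4]
  refine (nz_int_add _ _).trans ((abs_sum_le_sum_abs _ _).trans ?_)
  refine (sum_le_card_nsmul _ _ η fun r _ => ?_).trans ?_
  · have a1 : |((n * D : ℤ) : ℝ)⁻¹| ≤ 1 := by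
      rw [abs_inv]
      refine inv_le_one_of_one_le₀ ?_
      exact_mod_cast Int.one_le_abs (mul_ne_zero hn hD)
    have a2 : |(round (dt (Ψ r) y) : ℝ) - dt (Ψ r) y| ≤ 1 := by
      rw [abs_sub_comm]
      exact (abs_sub_round _).trans (by norm_num)
    have a3 : |H r - round (H r)| ≤ η := hs r
    rw [abs_mul, abs_mul]
    calc _ ≤ η * 1 * 1 := mul_le_mul (mul_le_mul a3 a1 (abs_nonneg _) hη) a2 (abs_nonneg _)
          (by positivity)
      _ = η := by ring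
  · rw [nsmul_eq_mul]
    refine mul_le_mul_of_nonneg_right ?_ hη
    exact_mod_cast (card_le_univ _).trans (Fintype.card_fin R).le

end

end Vale.Agent.P057T.Loc.R0
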