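import Vale.Agent.P057T.Loc.Rnd1
import Vale.Agent.P057T.Loc.Rnd2

/-! One round. -/

set_option linter.all false

open Finset
open scoped BigOperators

namespace Vale.Agent.P057T.Loc

open Vale.Agent.P057Z Vale.Agent.P057L Vale.Agent.P057T.Gkh Vale.Agent.P057T.Loc.R0

noncomputable section

namespace R0

theorem faces {j q R : ℕ} {L0 : List (Cd j q)} (h0 : TT L0) (T : Fin R → Finset (Fin j))
    (Ψ : Fin R → Pt j q → ℝ) (hΨ : ∀ r, Top L0 (T r) (Ψ r)) (A : Finset (Fin R))
    (I : Finset (Fin j)) (hI : ∀ r ∈ A, I ⊆ T r → T r = I) (b : Fin R → ℤ) :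
    ∃ g : Fin j → Pt j q → ℝ, (∀ i ∈ I, Ig (g i) i) ∧ ∀ x,
      ∑ r, ((if r ∈ A ∧ T r = I then b r else 0 : ℤ) : ℝ) * Ψ r x + ∑ i ∈ I, g i x =
        ∑ r, (b r : ℝ) * (if r ∈ A then Ψ r x else 0) := by
  classical
  have hc : ∀ r, ∃ o : Option (Fin j), (∀ i, o = some i → i ∉ T r) ∧
      (r ∈ A ∧ T r ≠ I → ∃ i ∈ I, o = some i) ∧ (¬ (r ∈ A ∧ T r ≠ I) → o = none) := by
    intro r
    by_cases h : r ∈ A ∧ T r ≠ I
    · obtain ⟨i, hi, hi'⟩ := not_subset.1 fun h' => h.2 (hI r h.1 h')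
      exact ⟨some i, fun i' e => Option.some.inj e ▸ hi', fun _ => ⟨i, hi, rfl⟩,
        fun h' => absurd h h'⟩
    · exact ⟨none, fun i e => by simp at e, fun h' => absurd h' h, fun _ => rfl⟩
  choose ch c1 c2 c3 using hc
  refine ⟨fun i x => ∑ r, if ch r = some i then (b r : ℝ) * Ψ r x else 0, fun i _ W a => ?_,
    fun x => ?_⟩
  · refine sum_congr rfl fun r _ => ?_
    split_ifs with h
    · rw [TbP.dep h0 (hΨ r) (Function.update W i a) W fun i' hi' =>
        Function.update_of_ne (fun e : i' = i => c1 r i h (e ▸ hi')) _ _]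
    · rfl
  · rw [sum_comm, ← sum_add_distrib]
    refine sum_congr rfl fun r _ => ?_
    by_cases h : r ∈ A ∧ T r ≠ I
    · obtain ⟨i, hi, e⟩ := c2 r h
      simp [e, h.1, h.2, hi]
    · have e := c3 r h
      by_cases hA : r ∈ A
      · have : T r = I := by
          by_contra h'
          exact h ⟨hA, h'⟩
        simp [e, hA, this]
      · simp [e, hA]

theorem small {Y M X : ℝ} (hY : 20 ≤ Y) (hM : Y ≤ M) (hX : 20 * M ≤ X) {u : ℝ} (hu : u ≤ 10 * M) :
    Y * Real.exp (u - X) ≤ 1 / 100 := by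
  have a1 : Y ≤ Real.exp Y := by linarith [Real.add_one_le_exp Y]
  refine (mul_le_mul_of_nonneg_right a1 (Real.exp_nonneg _)).trans ?_
  rw [← Real.exp_add]
  exact (Real.exp_le_exp.2 (by linarith)).trans (exp_small hY)

theorem nz_tri {a b c x y z : ℝ} (h1 : nz (a - b) ≤ x) (h2 : nz (b - c) ≤ y) (h : x + y ≤ z) :
    nz (a - c) ≤ z := by
  rw [← sub_add_sub_cancel a b c]
  linarith [nz_add (a - b) (b - c)]

end R0

theorem rnd (hD : DIF) (hP : POP) (hF : FIB1) (j : ℕ) (hL : LOCT j) : RND j := by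
  classical
  obtain ⟨e, he, hd⟩ := dense hD hP hF j
  obtain ⟨Cl, hl⟩ := hL
  obtain ⟨e5, he5⟩ : ∃ e5, e5 = e + Cl := ⟨_, rfl⟩
  obtain ⟨e6, he6⟩ : ∃ e6, e6 = e * Cl + 2 * e + Cl := ⟨_, rfl⟩
  refine ⟨e6 + 1, ?_⟩
  intro Y q N ι _ L t F g S ε R T Ψ A L0 L1 θ c I hz hι h0 hε hI hS hmax
  have hY : (20 : ℝ) ≤ Y := le_trans (by exact_mod_cast (by omega : 20 ≤ e6 + 1)) hz.C1
  have hY1 : (1 : ℝ) ≤ Y := by linarith
  have hYC : Y ≤ Y ^ (e6 + 1) := R0.le_pw hY1 (by omega)
  by_cases hIt : I ⊆ t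
  swap
  · have h1 := st_mono hS hYC h0
    refine ⟨L0, L1, θ, c, h1.t0, h1.t1, h1.l0, h1.l1, h1.rY, h1.sub, h1.tls, h1.fbs, h1.pr, h1.ps,
      h1.ty, h1.cf, fun y x s1 s2 a => ?_⟩
    have e1 : nf (A.filter fun r => T r ≠ I) Ψ (θ a) (c a) y x = nf A Ψ (θ a) (c a) y x := by
      unfold nf
      congr 1
      refine sum_filter_of_ne fun r _ hne e => hne ?_
      rcases ((hS.cf a).2 r).2 with h | h
      · exact absurd (e ▸ h) hIt
      · simp [h]
    rw [e1]
    exact h1.eq y x s1 s2 a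
  have z0 : Sz e Y q N := by
    simpa using sz_pw (C' := e) (e := 1) hz hY1 le_rfl (by omega) (by omega)
  have hεe : ε ≤ Real.exp (-Y ^ e) :=
    hε.trans (Real.exp_le_exp.2 (neg_le_neg (R0.pw_le hY1 (by omega))))
  obtain ⟨b, n, X, dX, n1, n2, b1, hX⟩ := hd Y q N ι L t F g S ε R T Ψ A L0 L1 θ c z0 h0 hεe hI hS
  have zl : Sz Cl (Y ^ e) q N := sz_pw hz hY1 (by omega) (by omega) (by omega)
  have hB1 : Y ^ 2 ≤ Y ^ e := R0.pw_le hY1 (by omega)
  have hM1 : (Y ^ e) ^ 2 ≤ Y ^ e6 := by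
    rw [← pow_mul]
    exact R0.pw_le hY1 (by omega)
  have hM2 : (Y ^ e) ^ Cl ≤ Y ^ e6 := by
    rw [← pow_mul]
    exact R0.pw_le hY1 (by omega)
  have hM3 : 20 * Y ^ e6 ≤ Y ^ (e6 + 1) := by
    rw [pow_succ, mul_comm]
    exact mul_le_mul_of_nonneg_left hY (by positivity)
  have hlg := hz.lg
  have hq := hz.qY
  generalize Y ^ (e6 + 1) = XX at *
  generalize Y ^ e6 = M at *
  generalize Y ^ e = B at *
  have hYB : 20 * Y ≤ B := by nlinarith
  have hBM : 20 * B ≤ M := by nlinarith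
  have hN : Real.exp XX ≤ N := by
    have hN0 : (0 : ℝ) < N := by
      rcases Nat.eq_zero_or_pos N with h | h
      · rw [h, Nat.cast_zero, Real.log_zero] at hlg
        linarith
      · exact_mod_cast h
    rw [← Real.exp_log hN0]
    exact Real.exp_le_exp.2 hlg
  have hN0 : (0 : ℝ) < N := lt_of_lt_of_le (Real.exp_pos _) hN
  have hR := hS.rY
  have hR0 : (0 : ℝ) ≤ R := Nat.cast_nonneg _
  obtain ⟨f, hf⟩ : ∃ f : Fin R → Fin R → ℤ, ∀ s r, f s r = if r ∈ A ∧ T r = I then b s r else 0 :=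
    ⟨_, fun _ _ => rfl⟩
  have f1 : ∀ s r, |(f s r : ℝ)| ≤ Real.exp B := by
    intro s r
    rw [hf]
    split_ifs
    · exact b1 s r
    · simp [Real.exp_nonneg]
  obtain ⟨t', sel, w, D, ht', D0, hD1, hw, -, hs⟩ := Lin.crqR f (by linarith : 4 ≤ B)
    (by simpa using (by linarith : (R : ℝ) ≤ B)) f1
  have ht : (t' : ℝ) ≤ R := by exact_mod_cast ht'.trans (Fintype.card_fin R).le
  have ht0 : (0 : ℝ) ≤ t' := Nat.cast_nonneg _
  obtain ⟨G, hG⟩ : ∃ G : Fin t' × Fin q → Pt j q → ℝ,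
      G = fun p x => ∑ r, (f (sel p.1) r : ℝ) * Ψ r x p.2 := ⟨_, rfl⟩
  have Gt : ∀ p, Top L0 I (G p) := by
    intro p
    rw [hG]
    refine TbP.sum univ _ fun r _ => ?_
    by_cases hb : r ∈ A ∧ T r = I
    · exact TbP.congr' (TbP.smul _ (hS.ps r p.2)) hb.2 fun _ => rfl
    · exact TbP.congr' (Top.zero I) rfl fun _ => by simp [hf, hb]
  choose gG g1 g2 using fun p : Fin t' × Fin q => faces hS.t0 T (fun r x => Ψ r x p.2)
    (fun r => hS.ps r p.2) A I hmax (b (sel p.1))
  have c1 : (Fintype.card (Fin t' × Fin q) : ℝ) ≤ B := by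
    have : (0 : ℝ) ≤ q := Nat.cast_nonneg _
    have : (t' : ℝ) * q ≤ Y * Y := mul_le_mul (by linarith) hq this (by linarith)
    simp only [Fintype.card_prod, Fintype.card_fin, Nat.cast_mul]
    nlinarith
  have c2 : (Fintype.card (ι × Fin R) : ℝ) ≤ B := by
    have : (Fintype.card ι : ℝ) * R ≤ Y * Y := mul_le_mul hι hR hR0 (by linarith)
    simp only [Fintype.card_prod, Fintype.card_fin, Nat.cast_mul]
    nlinarith
  have l0 : (L0.length : ℝ) ≤ B := by linarith [hS.l0]
  obtain ⟨La, a1, a2, a3, -, a4⟩ := hl B q N (Fin t' × Fin q) L0 I G gG X (Real.exp B / N) zl c1 l0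
    (by positivity)
    (by
      rw [div_le_iff₀ hN0]
      refine le_trans ?_ (mul_le_mul_of_nonneg_left hN (Real.exp_nonneg _))
      rw [← Real.exp_add]
      exact Real.exp_le_exp.2 (by linarith))
    ⟨hS.t0, Gt, g1, dX, fun x hx p => by
      have := g2 p x
      simp only [← hf] at this
      rw [hG]
      simp only
      rw [this]
      exact (hX x hx).1 _ _⟩
  obtain ⟨H, hH⟩ : ∃ H : ι × Fin R → Pt j q → ℝ, H = fun p x => ∑ r',
      (((n : ℤ) * vv (fun r => r ∈ A ∧ T r = I) (fun i => f (sel i)) w D p.2 r' : ℤ) : ℝ) *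
        c p.1 r' x := ⟨_, rfl⟩
  have Ht : ∀ p, Top L0 (t \ I) (H p) := by
    intro p
    rw [hH]
    refine TbP.sum univ _ fun r _ => ?_
    by_cases hb : r ∈ A ∧ T r = I
    · exact TbP.congr' (TbP.smul _ ((hS.cf p.1).2 r).1) (by rw [hb.2]) fun _ => rfl
    · exact TbP.congr' (Top.zero _) rfl fun _ => by simp [vv, hb]
  obtain ⟨Lb, b2, b3, b4, -, b5⟩ := hl B q N (ι × Fin R) L0 (t \ I) H (fun _ _ _ => 0) X
    (Real.exp B * ε * Real.exp (4 * B ^ 2)) zl c2 l0 (by positivity)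
    (by
      refine (mul_le_mul_of_nonneg_right (mul_le_mul_of_nonneg_left hε (Real.exp_nonneg _))
        (Real.exp_nonneg _)).trans ?_
      rw [← Real.exp_add, ← Real.exp_add]
      exact Real.exp_le_exp.2 (by linarith))
    ⟨hS.t0, Ht, fun _ _ _ _ _ => rfl, dX, fun x hx p => by
      have := (hX x hx).2 (vv (fun r => r ∈ A ∧ T r = I) (fun i => f (sel i)) w D p.2) _
        (Real.exp_nonneg _) (fun s => vv_perp _ b f hf sel w D hs p.2 s)
        (fun r => vv_bd _ _ w D (by linarith) (by linarith) (fun i r => f1 _ r) hw hD1 p.2 r) p.1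
      rw [hH, sum_const_zero, add_zero]
      refine le_of_eq_of_le (congrArg nz ?_) this
      rw [mul_sum]
      refine sum_congr rfl fun r _ => ?_
      push_cast
      ring⟩
  obtain ⟨Lc, c3, c4, c5, -, c6⟩ := TbP.many (fun _ => I) G (TbP.app a1 b2)
    fun p => TbP.wk (List.Subset.trans a2 (List.subset_append_left _ _)) (Gt p)
  have s0 : L0 ⊆ Lc := List.Subset.trans (List.Subset.trans a2 (List.subset_append_left _ _)) c4
  obtain ⟨L0', d3, d4, d5, -, d6⟩ := TbP.many (fun _ => t \ I) H c3 fun p => TbP.wk s0 (Ht p)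
  have s1 : L0 ⊆ L0' := List.Subset.trans s0 d4
  obtain ⟨L1', k3, k4, k5, k6, k7⟩ := TbP.many (fun r => (fb (T r) (Ψ r)).1)
    (fun r W => (((n : ℤ) * D : ℤ) : ℝ)⁻¹ * (round ((fb (T r) (Ψ r)).2 W) : ℝ))
    (TbP.app (TbP.tlT d3) hS.t1)
    fun r => TbP.smul _ (TbP.rnd (List.mem_append_right _ (hS.fbs r)))
  have s2 : L1 ⊆ L1' := List.Subset.trans (List.subset_append_right _ _) k4
  have s3 : tl L0' ⊆ L1' := List.Subset.trans (List.subset_append_left _ _) k4
  have len0 : (L0'.length : ℝ) ≤ 4 * M := by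
    have u1 : (L0'.length : ℝ) ≤ Lc.length + Fintype.card (ι × Fin R) := by exact_mod_cast d5
    have u2 : (Lc.length : ℝ) ≤ La.length + Lb.length + Fintype.card (Fin t' × Fin q) := by
      rw [List.length_append] at c5
      exact_mod_cast c5
    linarith
  have len1 : (L1'.length : ℝ) ≤ 6 * M := by
    have u1 : (L1'.length : ℝ) ≤ L0'.length + L1.length + R := by
      rw [List.length_append, tl_len, Fintype.card_fin] at k5
      exact_mod_cast k5
    linarith [hS.l1]
  refine ⟨L0', L1', fun a x l => θ a x l + ∑ i, (∑ r, (if r ∈ A ∧ T r = I then (w i r : ℝ) / D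
    else 0) * c a r x) * (round (G (i, l) x) : ℝ) + ∑ r ∈ univ.filter (fun r => r ∈ A ∧ T r = I),
      (((n : ℤ) * D : ℤ) : ℝ)⁻¹ * ((H (a, r) x + (-1) * round (H (a, r) x)) * Ψ r x l), c,
    d3, k3, by linarith, by linarith, by linarith, List.Subset.trans hS.sub s2, s3, fun r => s2 (hS.fbs r),
    fun hj hp p hp' => ?_, fun r l => TbP.wk s1 (hS.ps r l), hS.ty,
    fun a => ⟨fun l => ?_, fun r => ⟨TbP.wk s1 ((hS.cf a).2 r).1, ((hS.cf a).2 r).2⟩⟩,
    fun y x v1 v2 a => ?_⟩
  · rcases k6 p hp' with h | ⟨r, rfl⟩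
    · rcases List.mem_append.1 h with h | h
      · exact pr_tl _ p h
      · exact hS.pr hj hp p h
    · exact hS.pr hj hp (fb (T r) (Ψ r)) (hS.fbs r)
  · refine Top.add (Top.add (TbP.wk s1 ((hS.cf a).1 l)) (TbP.sum univ _ fun i _ => ?_))
      (TbP.sum _ _ fun r hr => TbP.smul _ ?_)
    · refine TbP.congr' (TbP.mul sdiff_disjoint (TbP.sum univ _ fun r _ => ?_)
        (TbP.wk d4 (c6 (i, l)).1)) (sdiff_union_of_subset hIt) fun _ => rfl
      by_cases hb : r ∈ A ∧ T r = I
      · exact TbP.congr' (TbP.smul _ (TbP.wk s1 ((hS.cf a).2 r).1)) (by rw [hb.2]) fun _ => rfl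
      · exact TbP.congr' (Top.zero _) rfl fun _ => by simp [hb]
    · exact TbP.congr' (TbP.mul sdiff_disjoint (Top.add (TbP.wk s1 (Ht (a, r)))
        (TbP.smul (-1) (d6 (a, r)).1)) (TbP.congr' (TbP.wk s1 (hS.ps r l))
          (mem_filter.1 hr).2.2 fun _ => rfl)) (sdiff_union_of_subset hIt) fun _ => rfl
  · have v3 : Vl L0' (Real.exp (-XX)) x := vl_tail fun p hp => v2 p (s3 hp)
    have v4 : Sh (Real.exp (-B ^ Cl) * N) x := sh_mono (by linarith) (sh_tail v1)
    have w1 := a4 x v4 (vl_mono (List.Subset.trans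
      (List.Subset.trans (List.subset_append_left _ _) c4) d4)
      (by linarith) v3)
    have w2 := b5 x v4 (vl_mono (List.Subset.trans
      (List.Subset.trans (List.subset_append_right _ _) c4) d4)
      (by linarith) v3)
    have w3 := hS.eq y x (sh_mono hYC v1) (vl_mono s2 hYC v2) a
    have x1 : Real.exp (B ^ Cl) ≤ Real.exp M := Real.exp_le_exp.2 hM2
    have w4 := point A (fun r => T r = I) (fun r => r ∈ A ∧ T r = I) (fun _ => Iff.rfl)
      (fun i => f (sel i)) w D n D0 (by exact_mod_cast (by omega : n ≠ 0))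
      (fun i r hr => by rw [hf, if_neg hr]) (fun r => c a r x) (fun r => Ψ r x) y (θ a x)
      (fun i l => (round (G (i, l) x) : ℝ)) (fun r => H (a, r) x) (fun r => by rw [hH])
      (fun r => by
        refine dvd_of_nz (r := Real.exp (-XX))
          (mul_ne_zero (by exact_mod_cast (by omega : n ≠ 0)) D0) ?_ ?_
        · rw [mul_comm]
          exact v2 _ ((k7 r).2 (insert_nonempty _ _))
        · have u1 : |(((n : ℤ) * D : ℤ) : ℝ)| ≤ Real.exp B * Real.exp (2 * B ^ 2) := by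
            push_cast
            rw [abs_mul, Nat.abs_cast]
            exact mul_le_mul n2 hD1 (abs_nonneg _) (Real.exp_nonneg _)
          refine lt_of_le_of_lt (mul_le_mul_of_nonneg_right u1 (Real.exp_nonneg _)) ?_
          rw [← Real.exp_add, ← Real.exp_add, Real.exp_lt_one_iff]
          linarith)
      (fun i => by
        rw [hG]
        refine rel_eq (a := Real.exp B) (b := Real.exp (-XX)) (c := Real.exp M * (Real.exp B / N))
          (d := Real.exp (-XX) * N) (Y := Y) _ _ y (f1 _) (fun r => v2 _ (s2 (hS.fbs r)))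
          (fun l => ?_) (sh_head v1) (by simpa using hR) hq (by positivity) (by positivity)
          (by positivity) (by positivity) ?_
        · have := w1 (i, l)
          rw [hG] at this
          exact this.trans (mul_le_mul_of_nonneg_right x1 (by positivity))
        · have u1 : Real.exp B * Real.exp (-XX) = Real.exp (B - XX) := by
            rw [← Real.exp_add, sub_eq_add_neg]
          have u2 : Real.exp M * (Real.exp B / N) * (Real.exp (-XX) * N) =
              Real.exp (M + B - XX) := by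
            rw [sub_eq_add_neg, Real.exp_add, Real.exp_add]
            field_simp
          rw [u1, u2]
          linarith [small (u := B) hY (by linarith) hM3 (by linarith),
            small (u := M + B) hY (by linarith) hM3 (by linarith)])
      (η := Real.exp (6 * M) * ε) (by positivity)
      (fun r => (w2 (a, r)).trans (by
        have u : Real.exp (B ^ Cl) * (Real.exp B * ε * Real.exp (4 * B ^ 2)) =
            Real.exp (B ^ Cl + B + 4 * B ^ 2) * ε := by
          rw [Real.exp_add, Real.exp_add]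
          ring
        rw [u]
        exact mul_le_mul_of_nonneg_right (Real.exp_le_exp.2 (by linarith)) h0))
    have w5 : Real.exp Y + R * Real.exp (6 * M) ≤ Real.exp XX := by
      have u1 : Real.exp Y ≤ Real.exp (6 * M) := Real.exp_le_exp.2 (by linarith)
      have u2 : Real.exp Y * Real.exp (6 * M) ≤ Real.exp XX := by
        rw [← Real.exp_add]
        exact Real.exp_le_exp.2 (by linarith)
      nlinarith [Real.add_one_le_exp Y, Real.exp_pos (6 * M)]
    have w7 : Real.exp Y * ε + R * (Real.exp (6 * M) * ε) ≤ Real.exp XX * ε := by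
      rw [← mul_assoc, ← add_mul]
      exact mul_le_mul_of_nonneg_right w5 h0
    exact nz_tri w3 w4 w7

end

end Vale.Agent.P057T.Loc
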