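import Vale.Agent.P057T.Loc.Defs
import Vale.Agent.P057T.Gkh.Frm

/-! Row TB: basic facts on homogeneous forms and towers. -/

set_option linter.all false

open Finset
open scoped BigOperators

namespace Vale.Agent.P057T.Loc

open Vale.Agent.P057Z Vale.Agent.P057L Vale.Agent.P057T.Gkh

noncomputable section

namespace TbP

variable {j q : ℕ} {L L' : List (Cd j q)} {t t' : Finset (Fin j)} {F G : Pt j q → ℝ}

theorem congr' (h : Top L t F) (ht : t = t') (e : ∀ W, F W = G W) : Top L t' G := by
  have : F = G := funext e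
  subst this; subst ht; exact h

theorem smul (c : ℝ) (h : Top L t F) : Top L t (fun W => c * F W) := by
  induction h with
  | cst d => exact Top.cst (c * d)
  | zero t => exact congr' (Top.zero t) rfl (fun W => by ring)
  | add _ _ h1 h2 => exact congr' (Top.add h1 h2) rfl (fun W => by ring)
  | ent i l hi _ h1 => exact congr' (Top.ent i l hi h1) rfl (fun W => by ring)
  | brk p hp hd _ h1 => exact congr' (Top.brk p hp hd h1) rfl (fun W => by ring)

theorem sum {α : Type} (s : Finset α) (F : α → Pt j q → ℝ) (h : ∀ a ∈ s, Top L t (F a)) :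
    Top L t (fun W => ∑ a ∈ s, F a W) := by
  classical
  induction s using Finset.induction_on with
  | empty => exact congr' (Top.zero t) rfl (fun W => by simp)
  | insert a s ha ih =>
    exact congr' (Top.add (h a (mem_insert_self _ _))
      (ih fun b hb => h b (mem_insert_of_mem hb))) rfl (fun W => by rw [sum_insert ha])

theorem wk (hL : L ⊆ L') (h : Top L t F) : Top L' t F := by
  induction h with
  | cst d => exact Top.cst d
  | zero t => exact Top.zero t
  | add _ _ h1 h2 => exact Top.add h1 h2
  | ent i l hi _ h1 => exact Top.ent i l hi h1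
  | brk p hp hd _ h1 => exact Top.brk p (hL hp) hd h1

theorem mul (hd : Disjoint t t') (h : Top L t F) (h' : Top L t' G) :
    Top L (t ∪ t') (fun W => F W * G W) := by
  induction h with
  | cst d => exact congr' (smul d h') (empty_union _).symm fun _ => rfl
  | zero t => exact congr' (Top.zero _) rfl (fun W => by ring)
  | add _ _ h1 h2 => exact congr' (Top.add (h1 hd) (h2 hd)) rfl (fun W => by ring)
  | ent i l hi _ h1 =>
    rw [disjoint_insert_left] at hd
    exact congr' (Top.ent i l (fun k => (mem_union.1 k).elim hi hd.1) (h1 hd.2))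
      (insert_union _ _ _).symm (fun W => by ring)
  | brk p hp hp' _ h1 =>
    rw [disjoint_union_left] at hd
    exact congr' (Top.brk p hp (disjoint_union_right.2 ⟨hp', hd.1⟩) (h1 hd.2))
      (union_assoc _ _ _).symm (fun W => by ring)

theorem app (h : TT L) (h' : TT L') : TT (L ++ L') := by
  induction h with
  | nil => exact h'
  | cons _ hn hf ih => exact TT.cons ih hn (wk (List.subset_append_left _ _) hf)

theorem frm (h : Top L t F) : Frm L t F := by
  induction h with
  | cst d => exact Frm.cst _ d
  | zero t => exact Frm.cst t 0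
  | add _ _ h1 h2 => exact Frm.add h1 h2
  | ent i l hi _ h1 => exact Frm.ent i l hi h1
  | brk p hp hd _ h1 => exact Frm.brk p hp hd h1

theorem twr (h : TT L) : Twr L := by
  induction h with
  | nil => exact Twr.nil
  | cons _ _ hf ih => exact Twr.cons ih (frm hf)

theorem dep (hL : TT L) (h : Top L t F) : FrmP.Dep t F := FrmP.depA (FrmP.depB (twr hL)) (frm h)

theorem mem (h : TT L) : ∀ p ∈ L, p.1.Nonempty ∧ Top L p.1 p.2 := by
  induction h with
  | nil => intro p hp; exact absurd hp List.not_mem_nil
  | cons _ hn hf ih =>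
    intro p hp
    rcases List.mem_cons.1 hp with rfl | hp
    · exact ⟨hn, wk (List.subset_cons_self _ _) hf⟩
    · exact ⟨(ih p hp).1, wk (List.subset_cons_self _ _) (ih p hp).2⟩

theorem many0 {α : Type} (s : List α) (t : α → Finset (Fin j)) (P : α → Pt j q → ℝ) (h : TT L)
    (hs : ∀ a ∈ s, (t a).Nonempty ∧ Top L (t a) (P a)) :
    TT (s.map (fun a => (t a, P a)) ++ L) := by
  induction s with
  | nil => exact h
  | cons a s ih =>
    exact TT.cons (ih fun b hb => hs b (List.mem_cons_of_mem _ hb)) (hs a List.mem_cons_self).1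
      (wk (List.subset_append_right _ _) (hs a List.mem_cons_self).2)

theorem rnd {p : Cd j q} (hp : p ∈ L) : Top L p.1 (fun W => (round (p.2 W) : ℝ)) :=
  congr' (Top.brk p hp (disjoint_empty_right _) (Top.cst 1)) (union_empty _) fun _ => mul_one _

theorem many {α : Type} [Fintype α] (t : α → Finset (Fin j)) (P : α → Pt j q → ℝ) (h : TT L)
    (hs : ∀ a, Top L (t a) (P a)) : ∃ L', TT L' ∧ L ⊆ L' ∧
      L'.length ≤ L.length + Fintype.card α ∧ (∀ p ∈ L', p ∈ L ∨ ∃ a, p = (t a, P a)) ∧
      ∀ a, Top L' (t a) (fun W => (round (P a W) : ℝ)) ∧ ((t a).Nonempty → (t a, P a) ∈ L') := by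
  have hm : ∀ a, (t a).Nonempty → (t a, P a) ∈
      (univ.filter fun a => (t a).Nonempty).toList.map (fun a => (t a, P a)) ++ L := fun a ha =>
    List.mem_append_left _ (List.mem_map.2 ⟨a, by simpa using ha, rfl⟩)
  refine ⟨(univ.filter fun a => (t a).Nonempty).toList.map (fun a => (t a, P a)) ++ L,
    many0 _ t P h fun a ha => ⟨by simpa using ha, hs a⟩, List.subset_append_right _ _, ?_,
    fun p hp => ?_, fun a => ⟨?_, hm a⟩⟩
  · rw [List.length_append, List.length_map, length_toList, add_comm]
    exact Nat.add_le_add_left (card_le_univ _) _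
  · rcases List.mem_append.1 hp with hp | hp
    · obtain ⟨a, -, rfl⟩ := List.mem_map.1 hp
      exact Or.inr ⟨a, rfl⟩
    · exact Or.inl hp
  · rcases (t a).eq_empty_or_nonempty with e | e
    · exact congr' (Top.cst (round (P a 0) : ℝ)) e.symm fun W => by
        rw [dep h (hs a) 0 W fun i hi => by simp [e] at hi]
    · exact rnd (hm a e)

theorem tlF (h : Top L t F) : Top (tl L) (up t) (fun W => F (Fin.tail W)) := by
  induction h with
  | cst d => exact Top.cst d
  | zero t => exact Top.zero _
  | add _ _ h1 h2 => exact Top.add h1 h2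
  | ent i l hi _ h1 =>
    exact congr' (Top.ent (Fin.succEmb j i) l (fun hh => hi ((Finset.mem_map' _).1 hh)) h1)
      (Finset.map_insert _ _ _).symm (fun W => rfl)
  | brk p hp hd _ h1 =>
    exact congr' (Top.brk (p.1.map (Fin.succEmb j), fun W => p.2 (Fin.tail W))
      (List.mem_map.2 ⟨p, hp, rfl⟩) ((Finset.disjoint_map _).2 hd) h1)
      (Finset.map_union _ _).symm (fun W => rfl)

theorem tlT (h : TT L) : TT (tl L) := by
  induction h with
  | nil => exact TT.nil
  | cons _ hn hf ih => exact TT.cons ih (Finset.map_nonempty.2 hn) (tlF hf)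

theorem zero_not_up (t : Finset (Fin j)) : (0 : Fin (j + 1)) ∉ up t := fun h => by
  obtain ⟨i, -, e⟩ := mem_map.1 h
  exact Fin.succ_ne_zero i e

theorem fbT {Ψ : Pt j q → Fin q → ℝ} (h : ∀ l, Top L t fun x => Ψ x l) :
    Top (tl L) (fb t Ψ).1 (fb t Ψ).2 :=
  congr' (sum univ _ fun l _ => Top.ent 0 l (zero_not_up t) (tlF (h l))) rfl fun W =>
    sum_congr rfl fun l _ => mul_comm _ _

theorem round_add' {x y r r' : ℝ} (h : r + r' < 1 / 2) (hx : nz x ≤ r) (hy : nz y ≤ r') :
    round (x + y) = round x + round y := by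
  rw [nz, abs_le] at hx hy
  rw [round_eq, Int.floor_eq_iff]
  push_cast
  constructor <;> linarith [hx.1, hx.2, hy.1, hy.2]

section add

variable {i : Fin j} {W : Pt j q} {a b : Vz q}

theorem addA (hL : ∀ p ∈ L, FrmP.Dep p.1 p.2)
    (hr : ∀ p ∈ L, i ∈ p.1 → round (p.2 (Function.update W i (a + b))) =
      round (p.2 (Function.update W i a)) + round (p.2 (Function.update W i b)))
    (h : Top L t F) (hi : i ∈ t) :
    F (Function.update W i (a + b)) = F (Function.update W i a) + F (Function.update W i b) := by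
  induction h with
  | cst d => exact absurd hi (notMem_empty _)
  | zero t => exact (add_zero _).symm
  | add _ _ h1 h2 =>
    show _ + _ = (_ + _) + (_ + _)
    rw [h1 hi, h2 hi]
    ring
  | ent k l hk hF h1 =>
    by_cases hki : k = i
    · subst hki
      have hd := FrmP.depA hL (frm hF)
      simp only [Function.update_self, hd.upd hk, Pi.add_apply, Int.cast_add]
      ring
    · simp only [Function.update_of_ne hki]
      rw [h1 ((mem_insert.1 hi).resolve_left (Ne.symm hki))]
      ring
  | brk p hp hd hF h1 =>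
    by_cases hp' : i ∈ p.1
    · have hd' := FrmP.depA hL (frm hF)
      simp only [hd'.upd (Finset.disjoint_left.1 hd hp'), hr p hp hp', Int.cast_add]
      ring
    · simp only [(hL p hp).upd hp']
      rw [h1 ((mem_union.1 hi).resolve_left hp')]
      ring

theorem addB {r r' : ℝ} (hr : r + r' < 1 / 2) (h : TT L)
    (h1 : ∀ p ∈ L, i ∈ p.1 → nz (p.2 (Function.update W i a)) ≤ r)
    (h2 : ∀ p ∈ L, i ∈ p.1 → nz (p.2 (Function.update W i b)) ≤ r') :
    ∀ p ∈ L, i ∈ p.1 → round (p.2 (Function.update W i (a + b))) =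
      round (p.2 (Function.update W i a)) + round (p.2 (Function.update W i b)) := by
  induction h with
  | nil => intro p hp; exact absurd hp List.not_mem_nil
  | cons hL _ hf ih =>
    have ih' := ih (fun p hp => h1 p (List.mem_cons_of_mem _ hp))
      fun p hp => h2 p (List.mem_cons_of_mem _ hp)
    intro p hp hi
    rcases List.mem_cons.1 hp with rfl | hp
    · rw [← round_add' hr (h1 _ hp hi) (h2 _ hp hi)]
      exact congrArg round (addA (FrmP.depB (twr hL)) ih' hf hi)
    · exact ih' p hp hi

end add

end TbP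

theorem tb : TB := fun j q =>
  ⟨fun _ _ _ c h => TbP.smul c h, fun _ _ _ s F h => TbP.sum s F h,
    fun _ _ _ _ hL h => TbP.wk hL h, fun _ _ _ _ _ hd h h' => TbP.mul hd h h',
    fun _ _ h h' => TbP.app h h', fun _ _ _ W W' hT h e => TbP.dep hT h W W' e,
    fun _ h => TbP.mem h, fun _ _ _ t P h hs => TbP.many t P h hs, fun _ h => TbP.tlT h,
    fun _ _ _ h => TbP.tlF h, fun _ _ _ h => TbP.fbT h, fun _ _ _ h => TbP.frm h,
    fun _ h => TbP.twr h, fun _ _ _ _ _ _ _ _ _ hT h hi hr h1 h2 =>
      TbP.addA (FrmP.depB (TbP.twr hT)) (TbP.addB hr hT h1 h2) h hi⟩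

end

end Vale.Agent.P057T.Loc
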