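import Vale.Agent.P057T.Loc.Rnd
import Vale.Agent.P057T.Loc.Dif
import Vale.Agent.P057T.Loc.Flat
import Vale.Agent.P057T.Loc.Fib1
import Vale.Agent.P057T.Loc.Pop
import Vale.Agent.P057T.Loc.Fin
import Vale.Agent.P057T.Loc.Loct
import Vale.Agent.P057T.Loc.Bohr
import Vale.Agent.P057T.Loc.Locb

/-! The closed forms of local rigidity. -/

namespace Vale.Agent.P057T.Loc

theorem loctC (j : ℕ) : LOCT j :=
  loct tb (flat tb) (st0 tb (flat tb)) (rnd (dif tb) pop fib1) (fin tb (dif tb) pop fib1) j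

theorem locbC (j : ℕ) : LOCB j := locb tb (flat tb) bohr j (loctC j)

end Vale.Agent.P057T.Loc
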