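import Vale.Agent.P057T.Gkh.Defs

/-! Local rigidity of homogeneous bracket forms: definitions and row statements. -/

set_option linter.all false

open Finset
open scoped BigOperators

namespace Vale.Agent.P057T.Loc

open Vale.Agent.P057Z Vale.Agent.P057L Vale.Agent.P057T.Gkh

noncomputable section

variable {j q : ℕ}

/-- the additive character -/
def ee (x : ℝ) : ℂ := Complex.exp ((2 * Real.pi * x : ℝ) * Complex.I)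

/-- distance to the nearest integer -/
def nz (x : ℝ) : ℝ := |x - round x|

/-- homogeneous forms: the types of the factors of every monomial partition the type -/
inductive Top (L : List (Cd j q)) : Finset (Fin j) → (Pt j q → ℝ) → Prop
  | cst (c : ℝ) : Top L ∅ (fun _ => c)
  | zero (t : Finset (Fin j)) : Top L t (fun _ => 0)
  | add {t : Finset (Fin j)} {F G : Pt j q → ℝ} : Top L t F → Top L t G →
      Top L t (fun W => F W + G W)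
  | ent {t : Finset (Fin j)} {F : Pt j q → ℝ} (i : Fin j) (l : Fin q) : i ∉ t → Top L t F →
      Top L (insert i t) (fun W => (W i l : ℝ) * F W)
  | brk {t : Finset (Fin j)} {F : Pt j q → ℝ} (p : Cd j q) : p ∈ L → Disjoint p.1 t → Top L t F →
      Top L (p.1 ∪ t) (fun W => (round (p.2 W) : ℝ) * F W)

/-- homogeneous towers, no empty types -/
inductive TT : List (Cd j q) → Prop
  | nil : TT []
  | cons {L : List (Cd j q)} {t : Finset (Fin j)} {P : Pt j q → ℝ} : TT L → t.Nonempty →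
      Top L t P → TT ((t, P) :: L)

def Vl (L : List (Cd j q)) (r : ℝ) (W : Pt j q) : Prop := ∀ p ∈ L, nz (p.2 W) ≤ r

def Sh (x : ℝ) (W : Pt j q) : Prop := ∀ i l, |(W i l : ℝ)| ≤ x

/-- dense in the symmetric box -/
def Dd (S : Finset (Pt j q)) (N : ℕ) (Y : ℝ) : Prop :=
  (∀ W ∈ S, Sh N W) ∧ Real.exp (-Y) * (N : ℝ) ^ (j * q) ≤ S.card

/-- all types are proper -/
def Pr (L : List (Cd j q)) : Prop := ∀ p ∈ L, p.1 ≠ univ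

/-- the function does not see the class `i` -/
def Ig {E : Type} (g : Pt j q → E) (i : Fin j) : Prop :=
  ∀ W a, g (Function.update W i a) = g W

/-- a type in the classes `succ` -/
def up (t : Finset (Fin j)) : Finset (Fin (j + 1)) := t.map (Fin.succEmb j)

/-- flat validity -/
def Fv {κ : Type} (Ψ : κ → Pt j q → Fin q → ℝ) (ρ : ℝ) (y : Vz q) (x : Pt j q) : Prop :=
  ∀ r, nz (dt (Ψ r x) y) ≤ ρ

/-- the flat bracket on all classes -/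
def fb (T : Finset (Fin j)) (Ψ : Pt j q → Fin q → ℝ) : Cd (j + 1) q :=
  (insert 0 (up T), fun W => dt (Ψ (Fin.tail W)) (W 0))

/-- coefficients of a normal form of type `t` -/
def Cf {κ : Type} (L0 : List (Cd j q)) (T : κ → Finset (Fin j)) (t : Finset (Fin j))
    (θ : Pt j q → Fin q → ℝ) (c : κ → Pt j q → ℝ) : Prop :=
  (∀ l, Top L0 t fun x => θ x l) ∧ ∀ r, Top L0 (t \ T r) (c r) ∧ (T r ⊆ t ∨ c r = fun _ => 0)

/-- value of a normal form with active set `A` -/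
def nf {κ : Type} (A : Finset κ) (Ψ : κ → Pt j q → Fin q → ℝ) (θ : Pt j q → Fin q → ℝ)
    (c : κ → Pt j q → ℝ) (y : Vz q) (x : Pt j q) : ℝ :=
  dt (θ x) y + ∑ r ∈ A, c r x * (round (dt (Ψ r x) y) : ℝ)

/-- the input: forms of type `t` are small modulo faces on a dense set -/
structure In (L : List (Cd j q)) (t : Finset (Fin j)) {ι : Type} (F : ι → Pt j q → ℝ)
    (g : ι → Fin j → Pt j q → ℝ) (S : Finset (Pt j q)) (N : ℕ) (Y ε : ℝ) : Prop where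
  tt : TT L
  top : ∀ a, Top L t (F a)
  ig : ∀ a, ∀ i ∈ t, Ig (g a i) i
  dd : Dd S N Y
  sm : ∀ W ∈ S, ∀ a, nz (F a W + ∑ i ∈ t, g a i W) ≤ ε

/-- standing sizes -/
structure Sz (C : ℕ) (Y : ℝ) (q N : ℕ) : Prop where
  C1 : (C : ℝ) ≤ Y
  q1 : 1 ≤ q
  qY : (q : ℝ) ≤ Y
  lg : Y ^ C ≤ Real.log N

/-! ### Main statements -/

/-- small on a dense set implies small on all valid tuples of a larger tower -/
def LOCT (j : ℕ) : Prop :=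
  ∃ C : ℕ, ∀ (Y : ℝ) (q N : ℕ) (ι : Type) [Fintype ι] (L : List (Cd j q)) (t : Finset (Fin j))
    (F : ι → Pt j q → ℝ) (g : ι → Fin j → Pt j q → ℝ) (S : Finset (Pt j q)) (ε : ℝ),
    Sz C Y q N → (Fintype.card ι : ℝ) ≤ Y → (L.length : ℝ) ≤ Y → 0 ≤ ε →
    ε ≤ Real.exp (-Y ^ C) → In L t F g S N Y ε →
    ∃ L' : List (Cd j q), TT L' ∧ L ⊆ L' ∧ (L'.length : ℝ) ≤ Y ^ C ∧ (2 ≤ j → Pr L → Pr L') ∧
      ∀ W, Sh (Real.exp (-Y ^ C) * N) W → Vl L' (Real.exp (-Y ^ C)) W →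
        ∀ a, nz (F a W) ≤ Real.exp (Y ^ C) * ε

/-- bias against faces implies small on all valid tuples of a larger tower -/
def LOCB (j : ℕ) : Prop :=
  ∃ C : ℕ, ∀ (Y : ℝ) (q N : ℕ) (L : List (Cd (j + 1) q)) (F : Pt (j + 1) q → ℝ)
    (u : Fin (j + 1) → Pt (j + 1) q → ℂ), Sz C Y q N → 1 ≤ j → (L.length : ℝ) ≤ Y → TT L → Pr L →
    Top L univ F → (∀ i W, ‖u i W‖ ≤ 1) → (∀ i, Ig (u i) i) →
    (∀ W, ∏ i, u i W ≠ 0 → Vl L (1 / 8) W) →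
    Real.exp (-Y) * (N : ℝ) ^ ((j + 1) * q) ≤
      ‖∑ W ∈ Fintype.piFinset (fun _ : Fin (j + 1) => sz q N), (∏ i, u i W) * ee (F W)‖ →
    ∃ L' : List (Cd (j + 1) q), TT L' ∧ L ⊆ L' ∧ (L'.length : ℝ) ≤ Y ^ C ∧ Pr L' ∧
      ∀ W, Sh (Real.exp (-Y ^ C) * N) W → Vl L' (Real.exp (-Y ^ C)) W → nz (F W) ≤ Real.exp (-Y)

/-! ### Rows -/

/-- basic facts -/
def TB : Prop :=
  ∀ j q : ℕ,
  (∀ (L : List (Cd j q)) t F (c : ℝ), Top L t F → Top L t (fun W => c * F W)) ∧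
  (∀ (L : List (Cd j q)) t (α : Type) (s : Finset α) (F : α → Pt j q → ℝ),
    (∀ a ∈ s, Top L t (F a)) → Top L t (fun W => ∑ a ∈ s, F a W)) ∧
  (∀ (L L' : List (Cd j q)) t F, L ⊆ L' → Top L t F → Top L' t F) ∧
  (∀ (L : List (Cd j q)) t t' F G, Disjoint t t' → Top L t F → Top L t' G →
    Top L (t ∪ t') (fun W => F W * G W)) ∧
  (∀ L L' : List (Cd j q), TT L → TT L' → TT (L ++ L')) ∧
  (∀ (L : List (Cd j q)) t F (W W' : Pt j q), TT L → Top L t F → (∀ i ∈ t, W i = W' i) →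
    F W = F W') ∧
  (∀ L : List (Cd j q), TT L → ∀ p ∈ L, p.1.Nonempty ∧ Top L p.1 p.2) ∧
  (∀ (L : List (Cd j q)) (α : Type) [Fintype α] (t : α → Finset (Fin j)) (P : α → Pt j q → ℝ),
    TT L → (∀ a, Top L (t a) (P a)) → ∃ L', TT L' ∧ L ⊆ L' ∧
      L'.length ≤ L.length + Fintype.card α ∧ (∀ p ∈ L', p ∈ L ∨ ∃ a, p = (t a, P a)) ∧
      ∀ a, Top L' (t a) (fun W => (round (P a W) : ℝ)) ∧ ((t a).Nonempty → (t a, P a) ∈ L')) ∧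
  (∀ L : List (Cd j q), TT L → TT (tl L)) ∧
  (∀ (L : List (Cd j q)) t F, Top L t F → Top (tl L) (up t) (fun W => F (Fin.tail W))) ∧
  (∀ (L : List (Cd j q)) t (Ψ : Pt j q → Fin q → ℝ), (∀ l, Top L t fun x => Ψ x l) →
    Top (tl L) (fb t Ψ).1 (fb t Ψ).2) ∧
  (∀ (L : List (Cd j q)) t F, Top L t F → Frm L t F) ∧
  (∀ L : List (Cd j q), TT L → Twr L) ∧
  ∀ (L : List (Cd j q)) t F (i : Fin j) (W : Pt j q) (a b : Vz q) (r r' : ℝ), TT L → Top L t F →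
    i ∈ t → r + r' < 1 / 2 → (∀ p ∈ L, i ∈ p.1 → nz (p.2 (Function.update W i a)) ≤ r) →
    (∀ p ∈ L, i ∈ p.1 → nz (p.2 (Function.update W i b)) ≤ r') →
    F (Function.update W i (a + b)) = F (Function.update W i a) + F (Function.update W i b)

/-- cube differences inside one colour class -/
def DIF : Prop :=
  ∀ j : ℕ, ∃ C : ℕ, ∀ (Y : ℝ) (q N : ℕ) (ι : Type) (L : List (Cd j q)) (t : Finset (Fin j))
    (F : ι → Pt j q → ℝ) (g : ι → Fin j → Pt j q → ℝ) (S : Finset (Pt j q)) (ε : ℝ),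
    Sz C Y q N → (L.length : ℝ) ≤ Y → In L t F g S N Y ε →
    ∃ S' : Finset (Pt j q), Dd S' N (Y ^ C) ∧ ∀ h ∈ S', Sh (Real.exp (-Y) * N) h ∧
      Vl L (Real.exp (-Y)) h ∧ ∀ a, nz (F a h) ≤ 2 ^ j * ε

/-- normal forms in the class `0` -/
def FLAT : Prop :=
  ∀ (j q : ℕ) (L : List (Cd (j + 1) q)), TT L →
    ∃ (L0 : List (Cd j q)) (R : ℕ) (T : Fin R → Finset (Fin j)) (Ψ : Fin R → Pt j q → Fin q → ℝ),
      TT L0 ∧ R ≤ L.length ∧ L0.length ≤ (L.length + 1) ^ 2 ∧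
      (∀ r l, Top L0 (T r) fun x => Ψ r x l) ∧ (∀ r, ∃ p ∈ L, p.1 = insert 0 (up (T r))) ∧
      (∀ t F, Top L (up t) F → ∃ F0, Top L0 t F0 ∧ ∀ y x, F (cn y x) = F0 x) ∧
      (∀ t F, Top L (insert 0 (up t)) F → ∃ θ c, Cf L0 T t θ c ∧
        ∀ y x, Fv Ψ (((2 : ℝ) ^ R)⁻¹ / 4) y x → F (cn y x) = nf univ Ψ θ c y x) ∧
      ∀ (ρ : ℝ) y x, ρ ≤ ((2 : ℝ) ^ R)⁻¹ / 4 → Fv Ψ ρ y x →
        ∀ p ∈ L, (0 : Fin (j + 1)) ∈ p.1 → nz (p.2 (cn y x)) ≤ 2 ^ R * ρ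

/-- one fibre: short relations, and what they do not kill is rational -/
def FIB1 : Prop :=
  ∃ C : ℕ, ∀ (Y : ℝ) (q N : ℕ) (κ ι : Type) [Fintype κ] [Fintype ι] (Ψ : κ → Fin q → ℝ)
    (Z : Finset (Vz q)) (θ : ι → Fin q → ℝ) (c : ι → κ → ℝ) (ε : ℝ), Sz C Y q N →
    (Fintype.card κ : ℝ) ≤ Y → (∀ y ∈ Z, ∀ l, |(y l : ℝ)| ≤ N) →
    Real.exp (-Y) * (N : ℝ) ^ q ≤ Z.card → (∀ y ∈ Z, ∀ r, nz (dt (Ψ r) y) ≤ 1 / 100) → 0 ≤ ε →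
    ε ≤ Real.exp (-Y ^ C) →
    (∀ y ∈ Z, ∀ a, nz (dt (θ a) y + ∑ r, c a r * (round (dt (Ψ r) y) : ℝ)) ≤ ε) →
    ∃ (b : κ → κ → ℤ) (n : ℕ), 1 ≤ n ∧ (n : ℝ) ≤ Real.exp (Y ^ C) ∧
      (∀ s r, |(b s r : ℝ)| ≤ Real.exp (Y ^ C)) ∧
      (∀ s l, nz (∑ r, (b s r : ℝ) * Ψ r l) ≤ Real.exp (Y ^ C) / N) ∧
      (∀ (v : κ → ℤ) (B : ℝ), 0 ≤ B → (∀ s, ∑ r, b s r * v r = 0) → (∀ r, |(v r : ℝ)| ≤ B) →
        ∀ a, nz (n * ∑ r, c a r * (v r : ℝ)) ≤ Real.exp (Y ^ C) * ε * B) ∧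
      (IsEmpty κ → ∀ a l, nz (n * θ a l) ≤ Real.exp (Y ^ C) * ε / N)

/-- duality for Bohr sets -/
def BOHR : Prop :=
  ∃ C : ℕ, ∀ (Y : ℝ) (q N : ℕ) (κ : Type) [Fintype κ] (Ψ : κ → Fin q → ℝ) (ξ : Fin q → ℝ),
    Sz C Y q N → (Fintype.card κ : ℝ) ≤ Y →
    (∀ y : Vz q, (∀ l, |(y l : ℝ)| ≤ Real.exp (-Y) * N) →
      (∀ r, nz (dt (Ψ r) y) ≤ Real.exp (-Y)) → nz (dt ξ y) ≤ 1 / 10) →
    ∃ k : κ → ℤ, (∀ r, |(k r : ℝ)| ≤ Real.exp (Y ^ C)) ∧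
      ∀ l, nz (ξ l - ∑ r, (k r : ℝ) * Ψ r l) ≤ Real.exp (Y ^ C) / N

/-- the state of the rounds -/
structure St {R : ℕ} (L : List (Cd (j + 1) q)) (T : Fin R → Finset (Fin j))
    (Ψ : Fin R → Pt j q → Fin q → ℝ) (t : Finset (Fin j)) {ι : Type}
    (F : ι → Pt (j + 1) q → ℝ) (N : ℕ) (Y ε : ℝ) (A : Finset (Fin R)) (L0 : List (Cd j q))
    (L1 : List (Cd (j + 1) q)) (θ : ι → Pt j q → Fin q → ℝ) (c : ι → Fin R → Pt j q → ℝ) :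
    Prop where
  t0 : TT L0
  t1 : TT L1
  l0 : (L0.length : ℝ) ≤ Y
  l1 : (L1.length : ℝ) ≤ Y
  rY : (R : ℝ) ≤ Y
  sub : L ⊆ L1
  tls : tl L0 ⊆ L1
  fbs : ∀ r, fb (T r) (Ψ r) ∈ L1
  pr : 1 ≤ j → Pr L → Pr L1
  ps : ∀ r l, Top L0 (T r) fun x => Ψ r x l
  ty : ∀ r, ∃ p ∈ L, p.1 = insert 0 (up (T r))
  cf : ∀ a, Cf L0 T t (θ a) (c a)
  eq : ∀ y x, Sh (Real.exp (-Y) * N) (cn y x) → Vl L1 (Real.exp (-Y)) (cn y x) →
    ∀ a, nz (F a (cn y x) - nf A Ψ (θ a) (c a) y x) ≤ Real.exp Y * ε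

/-- the first state -/
def ST0 (j : ℕ) : Prop :=
  ∃ C : ℕ, ∀ (Y : ℝ) (q N : ℕ) (ι : Type) [Fintype ι] (L : List (Cd (j + 1) q))
    (t : Finset (Fin j)) (F : ι → Pt (j + 1) q → ℝ) (ε : ℝ), (C : ℝ) ≤ Y → (L.length : ℝ) ≤ Y →
    0 ≤ ε → TT L → (∀ a, Top L (insert 0 (up t)) (F a)) →
    ∃ (R : ℕ) (T : Fin R → Finset (Fin j)) (Ψ : Fin R → Pt j q → Fin q → ℝ) (L0 : List (Cd j q))
      (L1 : List (Cd (j + 1) q)) (θ : ι → Pt j q → Fin q → ℝ) (c : ι → Fin R → Pt j q → ℝ),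
      St L T Ψ t F N (Y ^ C) ε univ L0 L1 θ c

/-- one round removes the active brackets of a maximal type -/
def RND (j : ℕ) : Prop :=
  ∃ C : ℕ, ∀ (Y : ℝ) (q N : ℕ) (ι : Type) [Fintype ι] (L : List (Cd (j + 1) q))
    (t : Finset (Fin j)) (F : ι → Pt (j + 1) q → ℝ) (g : ι → Fin (j + 1) → Pt (j + 1) q → ℝ)
    (S : Finset (Pt (j + 1) q)) (ε : ℝ) (R : ℕ) (T : Fin R → Finset (Fin j))
    (Ψ : Fin R → Pt j q → Fin q → ℝ) (A : Finset (Fin R)) (L0 : List (Cd j q))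
    (L1 : List (Cd (j + 1) q)) (θ : ι → Pt j q → Fin q → ℝ) (c : ι → Fin R → Pt j q → ℝ)
    (I : Finset (Fin j)), Sz C Y q N → (Fintype.card ι : ℝ) ≤ Y → 0 ≤ ε →
    ε ≤ Real.exp (-Y ^ C) → In L (insert 0 (up t)) F g S N Y ε →
    St L T Ψ t F N Y ε A L0 L1 θ c → (∀ r ∈ A, I ⊆ T r → T r = I) →
    ∃ L0' L1' θ' c', St L T Ψ t F N (Y ^ C) ε (A.filter fun r => T r ≠ I) L0' L1' θ' c'

/-- the last step -/
def FIN (j : ℕ) : Prop :=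
  ∃ C : ℕ, ∀ (Y : ℝ) (q N : ℕ) (ι : Type) [Fintype ι] (L : List (Cd (j + 1) q))
    (t : Finset (Fin j)) (F : ι → Pt (j + 1) q → ℝ) (g : ι → Fin (j + 1) → Pt (j + 1) q → ℝ)
    (S : Finset (Pt (j + 1) q)) (ε : ℝ) (R : ℕ) (T : Fin R → Finset (Fin j))
    (Ψ : Fin R → Pt j q → Fin q → ℝ) (L0 : List (Cd j q))
    (L1 : List (Cd (j + 1) q)) (θ : ι → Pt j q → Fin q → ℝ) (c : ι → Fin R → Pt j q → ℝ),
    Sz C Y q N → (Fintype.card ι : ℝ) ≤ Y → 0 ≤ ε → ε ≤ Real.exp (-Y ^ C) →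
    In L (insert 0 (up t)) F g S N Y ε → St L T Ψ t F N Y ε ∅ L0 L1 θ c →
    ∃ L' : List (Cd (j + 1) q), TT L' ∧ L ⊆ L' ∧ (L'.length : ℝ) ≤ Y ^ C ∧
      (1 ≤ j → Pr L → Pr L') ∧
      ∀ W, Sh (Real.exp (-Y ^ C) * N) W → Vl L' (Real.exp (-Y ^ C)) W →
        ∀ a, nz (F a W) ≤ Real.exp (Y ^ C) * ε

/-- popular fibres with a common label -/
def POP : Prop :=
  ∀ j : ℕ, ∃ C : ℕ, ∀ (Y : ℝ) (q N : ℕ) (S : Finset (Pt (j + 1) q)), Sz C Y q N → Dd S N Y →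
    ∃ X : Finset (Pt j q), Dd X N (Y ^ C) ∧ (∀ x ∈ X, ∃ Z : Finset (Vz q),
      Real.exp (-Y ^ C) * (N : ℝ) ^ q ≤ Z.card ∧ ∀ y ∈ Z, cn y x ∈ S) ∧
      ∀ (β : Type) [Fintype β] (B : ℝ) (lab : Pt j q → β → ℤ), 1 ≤ B →
        (∀ x ∈ X, ∀ s, |(lab x s : ℝ)| ≤ Real.exp B) → ∃ (b : β → ℤ) (X1 : Finset (Pt j q)),
          X1 ⊆ X ∧ Dd X1 N (Y ^ C + 3 * B * Fintype.card β) ∧ ∀ x ∈ X1, lab x = b

end

end Vale.Agent.P057T.Loc
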