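import Vale.Agent.P057T.Loc.Defs
import Vale.Agent.P057T.TenH48

/-! Tools for the row LOCB. -/

set_option linter.all false

open Finset
open scoped BigOperators

namespace Vale.Agent.P057T.Loc

open Vale.Agent.P057Z Vale.Agent.P057L Vale.Agent.P057T.Gkh Vale.Agent.P057T.Ten

noncomputable section

namespace Lb

theorem nz_nonneg (x : ℝ) : 0 ≤ nz x := abs_nonneg _

theorem nz_le (x : ℝ) (n : ℤ) : nz x ≤ |x - n| := round_le x n

theorem nz_add_le (x y : ℝ) : nz (x + y) ≤ nz x + nz y := by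
  refine (nz_le _ (round x + round y)).trans ?_
  push_cast
  rw [show x + y - (round x + round y) = (x - round x) + (y - round y) by ring]
  exact abs_add_le _ _

theorem nz_neg (x : ℝ) : nz (-x) = nz x := by
  have h : ∀ x : ℝ, nz (-x) ≤ nz x := fun x => (nz_le _ (-round x)).trans (by
    push_cast
    rw [show -x - -(round x : ℝ) = -(x - round x) by ring, abs_neg]; rfl)
  exact le_antisymm (h x) (by simpa using h (-x))

theorem nz_le_abs (x : ℝ) : nz x ≤ |x| := by simpa using nz_le x 0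

theorem nz_add_int (x : ℝ) (n : ℤ) : nz (x + n) ≤ nz x := by
  refine (nz_le _ (round x + n)).trans (le_of_eq ?_)
  push_cast
  unfold nz
  congr 1; ring

theorem nz_int_mul (n : ℤ) (x : ℝ) : nz (n * x) ≤ |(n : ℝ)| * nz x := by
  refine (nz_le _ (n * round x)).trans (le_of_eq ?_)
  push_cast
  rw [← mul_sub, abs_mul]; rfl

theorem nz_sum_le {α : Type} (s : Finset α) (f : α → ℝ) : nz (∑ a ∈ s, f a) ≤ ∑ a ∈ s, nz (f a) :=
  le_sum_of_subadditive nz (by simp [nz]) nz_add_le s f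

theorem ee_add (x y : ℝ) : ee (x + y) = ee x * ee y := by
  unfold ee; rw [← Complex.exp_add]; congr 1; push_cast; ring

theorem ee_sum {α : Type} (s : Finset α) (f : α → ℝ) : ee (∑ a ∈ s, f a) = ∏ a ∈ s, ee (f a) := by
  classical
  induction s using Finset.induction_on with
  | empty => simp [ee]
  | insert a s ha ih => rw [sum_insert ha, prod_insert ha, ee_add, ih]

theorem norm_ee (x : ℝ) : ‖ee x‖ = 1 := Complex.norm_exp_ofReal_mul_I _

theorem conj_ee (x : ℝ) : starRingEnd ℂ (ee x) = ee (-x) := by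
  unfold ee; rw [← Complex.exp_conj, map_mul, Complex.conj_ofReal, Complex.conj_I]; congr 1
  push_cast; ring

theorem four_nz (t : ℝ) : 4 * nz t ≤ ‖1 - ee t‖ := by
  have e1 : ee t = Complex.exp (Complex.I * (2 * Real.pi * (t - round t) : ℝ)) := by
    unfold ee
    rw [show ((2 * Real.pi * t : ℝ) : ℂ) * Complex.I = Complex.I * (2 * Real.pi * (t - round t) : ℝ) +
      (round t : ℤ) * (2 * Real.pi * Complex.I) by push_cast; ring, Complex.exp_add,
      Complex.exp_int_mul_two_pi_mul_I, mul_one]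
  rw [e1, norm_sub_rev, Complex.norm_exp_I_mul_ofReal_sub_one, Real.norm_eq_abs, abs_mul,
    show 2 * Real.pi * (t - round t) / 2 = Real.pi * (t - round t) by ring]
  have h1 : |t - round t| ≤ 1 / 2 := abs_sub_round t
  have hp := Real.pi_pos
  have h2 := Real.mul_abs_le_abs_sin (x := Real.pi * (t - round t))
    (by rw [abs_mul, abs_of_pos hp]; nlinarith)
  rw [abs_mul, abs_of_pos hp, show 2 / Real.pi * (Real.pi * |t - round t|) = 2 * |t - round t| by
    field_simp] at h2
  unfold nz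
  rw [abs_two]; linarith

/-- the sign of a vertex -/
def sg {j : ℕ} (e : Fin j → Bool) : ℝ := (-1) ^ (∑ i, if e i then 1 else 0)

theorem cj_ee {j : ℕ} (e : Fin j → Bool) (x r : ℝ) : cj e (ee x * r) = ee (sg e * x) * r := by
  unfold cj sg
  generalize (∑ i, if e i then 1 else 0) = n
  induction n generalizing x with
  | zero => simp
  | succ n ih =>
    rw [pow_succ, pow_succ]
    have := ih (-x)
    rw [← conj_ee] at this
    rw [show (-1 : ℝ) ^ n * -1 * x = (-1) ^ n * -x by ring, ← this]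
    show (starRingEnd ℂ ^ n) (starRingEnd ℂ (ee x * r)) = _
    rw [map_mul (starRingEnd ℂ), Complex.conj_ofReal]

theorem nz_sg {j : ℕ} (e : Fin j → Bool) (x : ℝ) : nz (sg e * x) = nz x := by
  unfold sg
  rcases neg_one_pow_eq_or ℝ (∑ i, if e i then 1 else 0) with h | h <;> rw [h]
  · rw [one_mul]
  · rw [neg_one_mul, nz_neg]

/-- the cut off -/
def tent (s : ℝ) : ℝ := max 0 (min 1 (2 - 8 * nz s))

theorem tent_mem (s : ℝ) : 0 ≤ tent s ∧ tent s ≤ 1 :=
  ⟨le_max_left _ _, max_le zero_le_one (min_le_left _ _)⟩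

theorem tent_one {s : ℝ} (h : nz s ≤ 1 / 8) : tent s = 1 := by
  unfold tent; rw [min_eq_left (by linarith), max_eq_right zero_le_one]

theorem tent_ne {s : ℝ} (h : tent s ≠ 0) : nz s ≤ 1 / 4 := by
  by_contra hc
  exact h (max_eq_left ((min_le_right _ _).trans (by linarith)))

theorem tent_lip (s s' : ℝ) : |tent (s + s') - tent s| ≤ 8 * nz s' := by
  have h1 := nz_add_le s s'
  have h2 := nz_add_le (s + s') (-s')
  rw [nz_neg, add_neg_cancel_right] at h2
  have h0 := nz_nonneg s'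
  unfold tent
  rw [abs_le]
  constructor <;> simp only [max_def, min_def] <;> split_ifs <;> linarith

theorem prod_lip {α : Type} (s : Finset α) (f g : α → ℝ) (hf : ∀ a, 0 ≤ f a ∧ f a ≤ 1)
    (hg : ∀ a, 0 ≤ g a ∧ g a ≤ 1) (η : ℝ) (h : ∀ a ∈ s, |f a - g a| ≤ η) :
    |∏ a ∈ s, f a - ∏ a ∈ s, g a| ≤ s.card * η := by
  classical
  induction s using Finset.induction_on with
  | empty => simp
  | insert a s ha ih =>
    rw [prod_insert ha, prod_insert ha, card_insert_of_notMem ha]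
    have h1 := ih fun b hb => h b (mem_insert_of_mem hb)
    have h2 := h a (mem_insert_self _ _)
    have p0 : 0 ≤ ∏ b ∈ s, g b := prod_nonneg fun b _ => (hg b).1
    have p1 : ∏ b ∈ s, g b ≤ 1 := prod_le_one (fun b _ => (hg b).1) fun b _ => (hg b).2
    rw [show f a * ∏ b ∈ s, f b - g a * ∏ b ∈ s, g b =
      f a * (∏ b ∈ s, f b - ∏ b ∈ s, g b) + (f a - g a) * ∏ b ∈ s, g b by ring]
    refine (abs_add_le _ _).trans ?_
    rw [abs_mul, abs_mul, abs_of_nonneg (hf a).1, abs_of_nonneg p0]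
    push_cast
    have a1 := mul_le_of_le_one_left (abs_nonneg (∏ b ∈ s, f b - ∏ b ∈ s, g b)) (hf a).2
    have a2 := mul_le_of_le_one_right (abs_nonneg (f a - g a)) p1
    linarith

theorem card_sz {q N : ℕ} (hN : 1 ≤ N) : ((sz q N).card : ℝ) = (2 * N - 1) ^ q := by
  simp only [sz, sy, Fintype.card_piFinset, prod_const, card_univ, Fintype.card_fin, Int.card_Ioo]
  rw [show ((N : ℤ) - -(N : ℤ) - 1).toNat = 2 * N - 1 by omega]
  push_cast [show 1 ≤ 2 * N by omega]
  rfl

theorem near {α : Type} [DecidableEq α] (s t : Finset α) (f : α → ℂ) (hf : ∀ a, ‖f a‖ ≤ 1)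
    (h : t ⊆ s) : ‖∑ a ∈ s, f a - ∑ a ∈ t, f a‖ ≤ (s.card : ℝ) - t.card := by
  rw [← sum_sdiff h, add_sub_cancel_right]
  refine (norm_sum_le _ _).trans ((sum_le_sum fun a _ => hf a).trans (le_of_eq ?_))
  rw [sum_const, nsmul_eq_mul, mul_one, card_sdiff_of_subset h, Nat.cast_sub (card_le_card h)]

/-- a short shift of the box -/
theorem shift_box {q N : ℕ} (hN : 1 ≤ N) {ρ : ℝ} (hρ0 : 0 ≤ ρ) (hρ : ρ ≤ 1 / 2) (a : Vz q)
    (ha : ∀ l, |(a l : ℝ)| ≤ ρ * N) (f : Vz q → ℂ) (hf : ∀ y, ‖f y‖ ≤ 1) :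
    ‖∑ y ∈ sz q N, f (y + a) - ∑ y ∈ sz q N, f y‖ ≤ 4 * q * ρ * (sz q N).card := by
  classical
  have hN' : (1 : ℝ) ≤ N := by exact_mod_cast hN
  set A := ⌊ρ * N⌋₊ with hA
  have hA1 : (A : ℝ) ≤ ρ * N := Nat.floor_le (by positivity)
  have hA2 : ∀ l, |a l| ≤ A := fun l => by
    have : (a l).natAbs ≤ A := Nat.le_floor (by rw [Nat.cast_natAbs]; push_cast; exact ha l)
    rw [Int.abs_eq_natAbs]; exact_mod_cast this
  have hA3 : 2 * A ≤ N := by
    have : (2 * A : ℝ) ≤ N := by nlinarith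
    exact_mod_cast this
  have e : ∑ y ∈ sz q N, f (y + a) = ∑ y ∈ (sz q N).image (· + a), f y :=
    (sum_image fun x _ y _ h => add_right_cancel h).symm
  have s1 : sz q (N - A) ⊆ sz q N := fun y hy => by
    simp only [sz, sy, Fintype.mem_piFinset, mem_Ioo] at hy ⊢
    intro l; have := hy l; omega
  have s2 : sz q (N - A) ⊆ (sz q N).image (· + a) := fun y hy => by
    refine mem_image.2 ⟨y - a, ?_, sub_add_cancel _ _⟩
    simp only [sz, sy, Fintype.mem_piFinset, mem_Ioo, Pi.sub_apply] at hy ⊢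
    intro l; have := hy l; have := abs_le.1 (hA2 l); omega
  have n1 := near _ _ f hf s1
  have n2 := near _ _ f hf s2
  rw [card_image_of_injective _ (add_left_injective a)] at n2
  have c1 : ((sz q N).card : ℝ) - (sz q (N - A)).card ≤ 2 * q * ρ * (sz q N).card := by
    rw [card_sz hN, card_sz (show 1 ≤ N - A by omega), Nat.cast_sub (by omega)]
    have hM : (0 : ℝ) < 2 * N - 1 := by linarith
    have h2 : (2 * N - 1 : ℝ) * (1 + -(2 * ρ)) ≤ 2 * (N - A) - 1 := by nlinarith
    have h3 := one_add_mul_le_pow (a := -(2 * ρ)) (by linarith) q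
    have h4 : ((2 * N - 1 : ℝ) * (1 + -(2 * ρ))) ^ q ≤ (2 * (N - A) - 1) ^ q :=
      pow_le_pow_left₀ (mul_nonneg hM.le (by linarith)) h2 q
    rw [mul_pow] at h4
    have h5 := mul_le_mul_of_nonneg_left h3 (pow_pos hM q).le
    nlinarith
  rw [e]
  calc _ ≤ ‖∑ y ∈ (sz q N).image (· + a), f y - ∑ y ∈ sz q (N - A), f y‖ +
        ‖∑ y ∈ sz q N, f y - ∑ y ∈ sz q (N - A), f y‖ := by
        rw [norm_sub_rev (∑ y ∈ sz q N, f y)]
        exact norm_sub_le_norm_sub_add_norm_sub _ _ _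
    _ ≤ _ := by linarith

/-- a biased sum controls the phase of an almost period -/
theorem period {q N : ℕ} (hN : 1 ≤ N) {ρ η δ t : ℝ} (hρ0 : 0 ≤ ρ) (hρ : ρ ≤ 1 / 2) (a : Vz q)
    (ha : ∀ l, |(a l : ℝ)| ≤ ρ * N) (om φ : Vz q → ℝ) (h0 : ∀ y, 0 ≤ om y ∧ om y ≤ 1)
    (h1 : ∀ y, |om (y + a) - om y| ≤ η) (h2 : ∀ y, om y ≠ 0 → φ (y + a) = φ y + t)
    (hb : δ * (sz q N).card ≤ ‖∑ y ∈ sz q N, ee (φ y) * om y‖) :
    δ * (4 * nz t) ≤ η + 4 * q * ρ := by
  have hn : ∀ (x r : ℝ), ‖ee x * r‖ = |r| := fun x r => by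
    rw [norm_mul, norm_ee, one_mul, Complex.norm_real, Real.norm_eq_abs]
  have s1 := shift_box hN hρ0 hρ a ha (fun y => ee (φ y) * om y)
    fun y => by rw [hn, abs_of_nonneg (h0 y).1]; exact (h0 y).2
  have s2 : ‖∑ y ∈ sz q N, ee (φ (y + a)) * om (y + a) - (∑ y ∈ sz q N, ee (φ y) * om y) * ee t‖ ≤
      η * (sz q N).card := by
    rw [sum_mul, ← sum_sub_distrib]
    refine (norm_sum_le _ _).trans ((sum_le_sum (g := fun _ => η) fun y _ => ?_).trans
      (le_of_eq (by rw [sum_const, nsmul_eq_mul, mul_comm])))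
    by_cases hy : om y = 0
    · have := h1 y
      rw [hy, sub_zero] at this
      simpa [hy, norm_ee] using this
    · rw [h2 y hy, show ee (φ y + t) * om (y + a) - ee (φ y) * om y * ee t =
        ee (φ y + t) * ((om (y + a) - om y : ℝ) : ℂ) by rw [ee_add]; push_cast; ring, hn]
      exact h1 y
  set S := ∑ y ∈ sz q N, ee (φ y) * om y
  set S' := ∑ y ∈ sz q N, ee (φ (y + a)) * om (y + a)
  have hc : (0 : ℝ) < (sz q N).card := by
    have : (1 : ℝ) ≤ N := by exact_mod_cast hN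
    rw [card_sz hN]; exact pow_pos (by linarith) _
  have s3 : ‖S‖ * ‖1 - ee t‖ ≤ (η + 4 * q * ρ) * (sz q N).card := by
    rw [← norm_mul, show S * (1 - ee t) = (S' - S * ee t) - (S' - S) by ring]
    exact (norm_sub_le _ _).trans (by linarith)
  refine le_of_mul_le_mul_right (le_trans ?_ s3) hc
  calc δ * (4 * nz t) * (sz q N).card = δ * (sz q N).card * (4 * nz t) := by ring
    _ ≤ _ := mul_le_mul hb (four_nz t) (by linarith [nz_nonneg t]) (norm_nonneg _)

theorem sum_pi {α : Type} [DecidableEq α] {n : ℕ} (B : Finset α) (f : (Fin n → α) → ℂ) :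
    ∑ W ∈ Fintype.piFinset (fun _ : Fin n => B), f W = ∑ W : Fin n → B, f fun i => W i := by
  refine (sum_bij (fun W _ i => (W i : α)) ?_ ?_ ?_ fun _ _ => rfl).symm
  · exact fun W _ => Fintype.mem_piFinset.2 fun i => (W i).2
  · exact fun W _ W' _ h => funext fun i => Subtype.ext (congrFun h i)
  · exact fun W hW => ⟨fun i => ⟨W i, Fintype.mem_piFinset.1 hW i⟩, mem_univ _, rfl⟩

/-- box Cauchy-Schwarz, a base point and many biased fibres -/
theorem fibres {j q : ℕ} (B : Finset (Vz q)) (hB : B.Nonempty) (H : Pt (j + 1) q → ℂ)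
    (u : Fin (j + 1) → Pt (j + 1) q → ℂ) (hH : ∀ W, ‖H W‖ ≤ 1) (hu : ∀ i W, ‖u i W‖ ≤ 1)
    (hi : ∀ i, Ig (u i) i) {δ : ℝ} (hδ : 0 ≤ δ)
    (hb : δ * (B.card : ℝ) ^ (j + 1) ≤
      ‖∑ W ∈ Fintype.piFinset (fun _ : Fin (j + 1) => B), (∏ i, u i W) * H W‖) :
    ∃ (x' : Pt j q) (X : Finset (Pt j q)), (∀ x ∈ X, ∀ i, x i ∈ B) ∧
      δ ^ 2 ^ j / 2 * (B.card : ℝ) ^ j ≤ X.card ∧
      ∀ x ∈ X, δ ^ 2 ^ j / 2 * B.card ≤ ‖∑ y ∈ B, ∏ e, cj e (H (cn y (mix e x x')))‖ := by
  classical
  haveI : Nonempty B := hB.to_subtype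
  have hc : (0 : ℝ) < B.card := by exact_mod_cast hB.card_pos
  let co : (Fin j → B) → Pt j q := fun W i => W i
  have hco : ∀ (a : B) (W : Fin j → B), (fun i => ((Fin.cons a W : Fin (j + 1) → B) i : Vz q)) =
      cn a (co W) := fun a W => by
    funext i; refine Fin.cases rfl (fun _ => rfl) i
  have u0 : ∀ y x, u 0 (cn y x) = u 0 (cn 0 x) := fun y x => by
    rw [← hi 0 (cn y x) 0]; unfold cn; rw [Fin.update_cons_zero]
  have k := box (G := B) j B (fun W z => H (cn z (co W)) * u 0 (cn 0 (co W)))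
    (fun l W z => u l.succ (cn z (co W))) (fun _ _ _ => hu _ _) (by
      intro l W a z
      rw [← hi l.succ (cn z (co W)) a]
      congr 1
      unfold cn
      rw [← Fin.cons_update]
      congr 1
      funext i
      by_cases h : i = l
      · subst h; simp [co]
      · simp [co, Function.update_of_ne h])
  have h1 : δ ≤ ‖𝔼 z : B, 𝔼 W : Fin j → B, H (cn z (co W)) * u 0 (cn 0 (co W)) *
      ∏ l : Fin j, u l.succ (cn z (co W))‖ := by
    have e := exp_cons (G := B) fun W : Fin (j + 1) → B =>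
      (∏ i, u i fun i => W i) * H fun i => W i
    rw [expect_comm, ← (e.trans (expect_congr rfl fun W _ => expect_congr rfl fun a _ => by
      rw [hco, Fin.prod_univ_succ, u0]; ring)), Fintype.expect_eq_sum_div_card, norm_div,
      ← sum_pi B fun W => (∏ i, u i W) * H W, le_div_iff₀ (by simpa using pow_pos hc (j + 1))]
    simpa using hb
  let S : (Fin j → B) → (Fin j → B) → ℝ := fun W' W =>
    ‖𝔼 z : B, ∏ e, cj e (H (cn z (mix e (co W) (co W'))))‖
  have hS1 : ∀ W' W, S W' W ≤ 1 := fun W' W => (nle _ _).trans (expect_le univ_nonempty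
    fun z _ => by
      rw [norm_prod]
      exact prod_le_one (fun _ _ => norm_nonneg _) fun e _ => by rw [norm_cj]; exact hH _)
  have h2 : δ ^ 2 ^ j ≤ 𝔼 W', 𝔼 W, S W' W := by
    refine ((pow_le_pow_left₀ hδ h1 _).trans k).trans ?_
    rw [expect_comm]
    refine (nle _ _).trans (expect_le_expect fun W' _ => ?_)
    rw [expect_comm]
    refine (nle _ _).trans (expect_le_expect fun W _ => ?_)
    have hm : ∀ e, co (mix e W W') = mix e (co W) (co W') := fun e => by
      funext i; simp only [co, mix]; split_ifs <;> rfl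
    simp only [map_mul, prod_mul_distrib, hm]
    rw [← expect_mul, norm_mul]
    refine mul_le_of_le_one_right (norm_nonneg _) ?_
    rw [norm_prod]
    exact prod_le_one (fun _ _ => norm_nonneg _) fun e _ => by rw [norm_cj]; exact hu _ _
  obtain ⟨W', -, h3⟩ := exists_le_of_le_expect univ_nonempty h2
  set d := δ ^ 2 ^ j
  have hinj : Function.Injective co := fun W W' h => funext fun i => Subtype.ext (congrFun h i)
  refine ⟨co W', (univ.filter fun W => d / 2 ≤ S W' W).image co, ?_, ?_, ?_⟩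
  · intro x hx i
    obtain ⟨W, -, rfl⟩ := mem_image.1 hx
    exact (W i).2
  · rw [card_image_of_injective _ hinj]
    have hcard : (Fintype.card (Fin j → B) : ℝ) = (B.card : ℝ) ^ j := by simp
    rw [Fintype.expect_eq_sum_div_card, hcard, le_div_iff₀ (pow_pos hc _)] at h3
    have h4 : ∑ W, S W' W ≤ ∑ W : Fin j → B, (d / 2 + if d / 2 ≤ S W' W then 1 else 0) :=
      sum_le_sum fun W _ => by
        have : 0 ≤ d := pow_nonneg hδ _
        have := hS1 W' W
        split_ifs <;> linarith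
    rw [sum_add_distrib, sum_const, card_univ, nsmul_eq_mul, hcard, sum_boole] at h4
    linarith
  · intro x hx
    obtain ⟨W, hW, rfl⟩ := mem_image.1 hx
    have h5 := (mem_filter.1 hW).2
    simp only [S] at h5
    rw [Fintype.expect_eq_sum_div_card, norm_div, le_div_iff₀ (by simpa using hB),
      sum_coe_sort B fun z => ∏ e, cj e (H (cn z (mix e (co W) (co W'))))] at h5
    simpa using h5

/-- terms which miss a class form faces -/
theorem faces {j q : ℕ} {α : Type} (s : Finset α) (f : α → Pt j q → ℝ)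
    (h : ∀ a ∈ s, ∃ i, Ig (f a) i) :
    ∃ g : Fin j → Pt j q → ℝ, (∀ i, Ig (g i) i) ∧ ∀ W, ∑ i, g i W = ∑ a ∈ s, f a W := by
  classical
  induction s using Finset.induction_on with
  | empty => exact ⟨fun _ _ => 0, fun _ _ _ => rfl, fun _ => by simp⟩
  | insert a s ha ih =>
    obtain ⟨g, h1, h2⟩ := ih fun b hb => h b (mem_insert_of_mem hb)
    obtain ⟨i, hi⟩ := h a (mem_insert_self _ _)
    refine ⟨fun i' W => g i' W + if i' = i then f a W else 0, fun i' W b => ?_, fun W => ?_⟩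
    · beta_reduce
      rw [h1 i' W b]
      split_ifs with hh
      · rw [hh, hi W b]
      · rfl
    · rw [sum_add_distrib, h2, sum_insert ha, sum_ite_eq']
      simp [add_comm]

end Lb

end

end Vale.Agent.P057T.Loc
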