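import Vale.Agent.P057T.Loc.Defs
import Vale.Agent.P057T.Gkh.Lin

/-! Tools for the rounds. -/

set_option linter.all false

open Finset
open scoped BigOperators

namespace Vale.Agent.P057T.Loc.R0

open Vale.Agent.P057Z Vale.Agent.P057L Vale.Agent.P057T.Gkh Vale.Agent.P057T.Loc

noncomputable section

variable {j q : ℕ}

theorem nz_le (x : ℝ) (z : ℤ) : nz x ≤ |x - z| := round_le x z

theorem nz_nonneg (x : ℝ) : 0 ≤ nz x := abs_nonneg _

theorem nz_add (x y : ℝ) : nz (x + y) ≤ nz x + nz y := by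
  refine (nz_le _ (round x + round y)).trans ?_
  have : x + y - ((round x + round y : ℤ) : ℝ) = (x - round x) + (y - round y) := by
    push_cast
    ring
  rw [this]
  exact abs_add_le _ _

theorem nz_neg (x : ℝ) : nz (-x) ≤ nz x := by
  refine (nz_le _ (-round x)).trans ?_
  have : -x - ((-round x : ℤ) : ℝ) = -(x - round x) := by
    push_cast
    ring
  rw [this, abs_neg]
  exact le_rfl

theorem nz_sub (x y : ℝ) : nz (x - y) ≤ nz x + nz y := by
  rw [sub_eq_add_neg]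
  exact (nz_add _ _).trans (by linarith [nz_neg y])

theorem nz_int_add (z : ℤ) (e : ℝ) : nz (z + e) ≤ |e| := by
  refine (nz_le _ z).trans ?_
  rw [add_sub_cancel_left]

theorem dvd_of_nz {m k : ℤ} (hk : k ≠ 0) {r : ℝ} (h : nz ((m : ℝ) * (k : ℝ)⁻¹) ≤ r)
    (hr : |(k : ℝ)| * r < 1) : k ∣ m := by
  have hk0 : (k : ℝ) ≠ 0 := by exact_mod_cast hk
  set z := round ((m : ℝ) * (k : ℝ)⁻¹) with hz
  have h1 : |((m - k * z : ℤ) : ℝ)| < 1 := by
    have e : ((m - k * z : ℤ) : ℝ) = k * ((m : ℝ) * (k : ℝ)⁻¹ - z) := by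
      push_cast
      field_simp
    rw [e, abs_mul]
    exact lt_of_le_of_lt (mul_le_mul_of_nonneg_left h (abs_nonneg _)) hr
  have h2 : |m - k * z| < 1 := by exact_mod_cast h1
  have h3 : m - k * z = 0 := by
    rw [Int.abs_lt_one_iff] at h2
    exact h2
  exact ⟨z, by linarith⟩

theorem dd_mono {S : Finset (Pt j q)} {N : ℕ} {Y Y' : ℝ} (h : Dd S N Y) (hY : Y ≤ Y') :
    Dd S N Y' :=
  ⟨h.1, (mul_le_mul_of_nonneg_right (Real.exp_le_exp.2 (by linarith)) (by positivity)).trans h.2⟩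

theorem sh_mono {W : Pt j q} {N : ℕ} {Y Y' : ℝ} (hY : Y ≤ Y') (h : Sh (Real.exp (-Y') * N) W) :
    Sh (Real.exp (-Y) * N) W := fun i l =>
  (h i l).trans (mul_le_mul_of_nonneg_right (Real.exp_le_exp.2 (by linarith)) (Nat.cast_nonneg _))

theorem vl_mono {L L' : List (Cd j q)} {W : Pt j q} {Y Y' : ℝ} (hL : L ⊆ L') (hY : Y ≤ Y')
    (h : Vl L' (Real.exp (-Y')) W) : Vl L (Real.exp (-Y)) W := fun p hp =>
  (h p (hL hp)).trans (Real.exp_le_exp.2 (by linarith))

theorem sh_tail {x : Pt j q} {y : Vz q} {r : ℝ} (h : Sh r (cn y x)) : Sh r x :=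
  fun i l => h i.succ l

theorem sh_head {x : Pt j q} {y : Vz q} {r : ℝ} (h : Sh r (cn y x)) (l : Fin q) :
    |(y l : ℝ)| ≤ r := h 0 l

theorem vl_tail {L : List (Cd j q)} {x : Pt j q} {y : Vz q} {r : ℝ} (h : Vl (tl L) r (cn y x)) :
    Vl L r x := fun p hp => h _ (List.mem_map.2 ⟨p, hp, rfl⟩)

theorem tl_sub {L L' : List (Cd j q)} (h : L ⊆ L') : tl L ⊆ tl L' := List.map_subset _ h

theorem tl_len (L : List (Cd j q)) : (tl L).length = L.length := List.length_map _

theorem pr_tl (L : List (Cd j q)) : Pr (tl L) := by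
  intro p hp e
  obtain ⟨p', -, rfl⟩ := List.mem_map.1 hp
  have : (0 : Fin (j + 1)) ∈ p'.1.map (Fin.succEmb j) := by
    simp only at e
    rw [e]
    exact mem_univ _
  obtain ⟨i, -, hi⟩ := mem_map.1 this
  exact Fin.succ_ne_zero i hi

theorem fb_val (T : Finset (Fin j)) (Ψ : Pt j q → Fin q → ℝ) (y : Vz q) (x : Pt j q) :
    (fb T Ψ).2 (cn y x) = dt (Ψ x) y := rfl

theorem st_mono {R : ℕ} {L : List (Cd (j + 1) q)} {T : Fin R → Finset (Fin j)}
    {Ψ : Fin R → Pt j q → Fin q → ℝ} {t : Finset (Fin j)} {ι : Type}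
    {F : ι → Pt (j + 1) q → ℝ} {N : ℕ} {Y Y' ε : ℝ} {A : Finset (Fin R)} {L0 : List (Cd j q)}
    {L1 : List (Cd (j + 1) q)} {θ : ι → Pt j q → Fin q → ℝ} {c : ι → Fin R → Pt j q → ℝ}
    (h : St L T Ψ t F N Y ε A L0 L1 θ c) (hY : Y ≤ Y') (hε : 0 ≤ ε) :
    St L T Ψ t F N Y' ε A L0 L1 θ c :=
  ⟨h.t0, h.t1, h.l0.trans hY, h.l1.trans hY, h.rY.trans hY, h.sub, h.tls, h.fbs, h.pr, h.ps, h.ty,
    h.cf, fun y x h1 h2 a => (h.eq y x (sh_mono hY h1) (vl_mono (List.Subset.refl _) hY h2) a).trans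
      (mul_le_mul_of_nonneg_right (Real.exp_le_exp.2 hY) hε)⟩

theorem pw_le {Y : ℝ} (hY : 1 ≤ Y) {a b : ℕ} (h : a ≤ b) : Y ^ a ≤ Y ^ b := pow_le_pow_right₀ hY h

theorem le_pw {Y : ℝ} (hY : 1 ≤ Y) {a : ℕ} (h : 1 ≤ a) : Y ≤ Y ^ a := le_self_pow₀ hY (by omega)

theorem sz_pw {C C' e : ℕ} {Y : ℝ} {N : ℕ} (h : Sz C Y q N) (hY : 1 ≤ Y) (he : 1 ≤ e)
    (h1 : C' ≤ C) (h2 : e * C' ≤ C) : Sz C' (Y ^ e) q N :=
  ⟨((Nat.cast_le.2 h1).trans h.C1).trans (le_pw hY he), h.q1, h.qY.trans (le_pw hY he), by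
    rw [← pow_mul]
    exact (pw_le hY h2).trans h.lg⟩

variable {κ : Type} [Fintype κ] [DecidableEq κ]

/-- the vectors orthogonal to the relations of the block -/
def vv {t : ℕ} (blk : κ → Prop) [DecidablePred blk] (f w : Fin t → κ → ℤ) (D : ℤ) (r r' : κ) : ℤ :=
  if blk r' then (if r' = r then D else 0) - ∑ i, f i r * w i r' else 0

theorem core {t : ℕ} (blk : κ → Prop) [DecidablePred blk] (f w : Fin t → κ → ℤ) (D n : ℤ)
    (hD : D ≠ 0) (hn : n ≠ 0) (hf : ∀ i r, ¬ blk r → f i r = 0) (c : κ → ℝ) (m : κ → ℤ)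
    (hm : ∀ r, blk r → n * D ∣ m r) (H : κ → ℝ)
    (hH : ∀ r, H r = ∑ r', ((n * vv blk f w D r r' : ℤ) : ℝ) * c r') :
    ∃ z : ℤ, ∑ r ∈ univ.filter blk, c r * (m r : ℝ) =
      ∑ i, (∑ r, (if blk r then (w i r : ℝ) / D else 0) * c r) * ((∑ r, f i r * m r : ℤ) : ℝ) +
        ∑ r ∈ univ.filter blk, (H r - round (H r)) * ((n * D : ℤ) : ℝ)⁻¹ * (m r : ℝ) + z := by
  have hD0 : (D : ℝ) ≠ 0 := by exact_mod_cast hD
  have hn0 : (n : ℝ) ≠ 0 := by exact_mod_cast hn
  choose! k hk using hm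
  refine ⟨∑ r ∈ univ.filter blk, round (H r) * k r, ?_⟩
  have e1 : ∑ r ∈ univ.filter blk, (H r - round (H r)) * ((n * D : ℤ) : ℝ)⁻¹ * (m r : ℝ) +
      ((∑ r ∈ univ.filter blk, round (H r) * k r : ℤ) : ℝ) =
      ∑ r ∈ univ.filter blk, H r * ((n * D : ℤ) : ℝ)⁻¹ * (m r : ℝ) := by
    rw [Int.cast_sum, ← sum_add_distrib]
    refine sum_congr rfl fun r hr => ?_
    rw [hk r (mem_filter.1 hr).2]
    push_cast
    field_simp
    ring
  rw [add_assoc, e1]
  have e2 : ∀ r, H r * ((n * D : ℤ) : ℝ)⁻¹ = (if blk r then c r else 0) -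
      ∑ i, (f i r : ℝ) * ∑ r', (if blk r' then (w i r' : ℝ) / D else 0) * c r' := by
    intro r
    have e3 : ∀ r', ((n * vv blk f w D r r' : ℤ) : ℝ) * c r' * ((n * D : ℤ) : ℝ)⁻¹ =
        (if r' = r then (if blk r then c r else 0) else 0) -
          ∑ i, (f i r : ℝ) * ((if blk r' then (w i r' : ℝ) / D else 0) * c r') := by
      intro r'
      unfold vv
      by_cases hb : blk r'
      · simp only [hb, if_true]
        have e4 : ∑ i, (f i r : ℝ) * ((w i r' : ℝ) / D * c r') =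
            (∑ i, (f i r : ℝ) * w i r') * (c r' / D) := by
          rw [sum_mul]
          refine sum_congr rfl fun i _ => ?_
          ring
        rw [e4]
        by_cases e : r' = r
        · subst e
          simp only [hb, if_true]
          push_cast
          field_simp
        · simp only [e, if_false]
          push_cast
          field_simp
          ring
      · by_cases e : r' = r
        · subst e
          simp [hb]
        · simp [hb, e]
    rw [hH, sum_mul]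
    simp only [e3, sum_sub_distrib, sum_ite_eq', mem_univ, if_true, mul_sum]
    rw [sum_comm]
  simp only [e2, sub_mul, sum_sub_distrib]
  have e5 : ∑ r ∈ univ.filter blk, (if blk r then c r else 0) * (m r : ℝ) =
      ∑ r ∈ univ.filter blk, c r * (m r : ℝ) :=
    sum_congr rfl fun r hr => by rw [if_pos (mem_filter.1 hr).2]
  have e6 : ∑ r ∈ univ.filter blk,
      (∑ i, (f i r : ℝ) * ∑ r', (if blk r' then (w i r' : ℝ) / D else 0) * c r') * (m r : ℝ) =
      ∑ i, (∑ r, (if blk r then (w i r : ℝ) / D else 0) * c r) *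
        ((∑ r, f i r * m r : ℤ) : ℝ) := by
    rw [sum_filter_of_ne (fun r _ hne => by
      by_contra hb
      exact hne (by simp [hf _ r hb]))]
    simp only [sum_mul (s := (univ : Finset (Fin t)))]
    rw [sum_comm]
    refine sum_congr rfl fun i _ => ?_
    push_cast
    rw [mul_sum]
    refine sum_congr rfl fun r _ => ?_
    ring
  rw [e5, e6]
  ring

theorem vv_perp {t : ℕ} {α : Type} (blk : κ → Prop) [DecidablePred blk] (b f : α → κ → ℤ)
    (hf : ∀ s r, f s r = if blk r then b s r else 0) (sel : Fin t → α) (w : Fin t → κ → ℤ) (D : ℤ)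
    (hs : ∀ a, D • f a = ∑ i, (w i ⬝ᵥ f a) • f (sel i)) (r : κ) (s : α) :
    ∑ r', b s r' * vv blk (fun i => f (sel i)) w D r r' = 0 := by
  have e1 : ∀ r', b s r' * vv blk (fun i => f (sel i)) w D r r' =
      (if r' = r then f s r * D else 0) - ∑ i, f (sel i) r * (w i r' * f s r') := by
    intro r'
    unfold vv
    by_cases hb : blk r'
    · have e : f s r' = b s r' := by rw [hf, if_pos hb]
      simp only [hb, if_true, mul_sub, mul_sum, ← e]
      congr 1
      · split_ifs with h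
        · rw [h]
        · simp
      · refine sum_congr rfl fun i _ => ?_
        ring
    · have e : f s r' = 0 := by rw [hf, if_neg hb]
      simp only [hb, if_false, mul_zero, e, sum_const_zero, sub_zero]
      split_ifs with h
      · rw [← h, e, zero_mul]
      · rfl
  simp only [e1, sum_sub_distrib, sum_ite_eq', mem_univ, if_true]
  rw [sum_comm]
  have h := congrFun (hs s) r
  simp only [Pi.smul_apply, smul_eq_mul, Finset.sum_apply, dotProduct] at h
  simp only [← mul_sum]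
  rw [mul_comm (f s r), h, sub_eq_zero]
  refine sum_congr rfl fun i _ => ?_
  ring

theorem vv_bd {t : ℕ} (blk : κ → Prop) [DecidablePred blk] (f w : Fin t → κ → ℤ) (D : ℤ) {B : ℝ}
    (hB : 1 ≤ B) (ht : (t : ℝ) ≤ B) (hf : ∀ i r, |(f i r : ℝ)| ≤ Real.exp B)
    (hw : ∀ i r, |(w i r : ℝ)| ≤ Real.exp (2 * B ^ 2)) (hD : |(D : ℝ)| ≤ Real.exp (2 * B ^ 2))
    (r r' : κ) : |(vv blk f w D r r' : ℝ)| ≤ Real.exp (4 * B ^ 2) := by
  have h1 : |((if r' = r then D else 0 : ℤ) : ℝ)| ≤ Real.exp (2 * B ^ 2) := by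
    split_ifs
    · exact hD
    · simp [Real.exp_nonneg]
  have h2 : |((∑ i, f i r * w i r' : ℤ) : ℝ)| ≤ B * (Real.exp B * Real.exp (2 * B ^ 2)) := by
    push_cast
    refine (abs_sum_le_sum_abs _ _).trans ?_
    refine (sum_le_card_nsmul _ _ (Real.exp B * Real.exp (2 * B ^ 2)) fun i _ => ?_).trans ?_
    · rw [abs_mul]
      exact mul_le_mul (hf i r) (hw i r') (abs_nonneg _) (Real.exp_nonneg _)
    · rw [card_univ, Fintype.card_fin, nsmul_eq_mul]
      exact mul_le_mul_of_nonneg_right ht (by positivity)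
  have h3 : 1 + B * Real.exp B ≤ Real.exp (2 * B ^ 2) := by
    have a1 := Real.add_one_le_exp B
    have a2 : 1 ≤ Real.exp B := Real.one_le_exp (by linarith)
    have a3 : Real.exp B * Real.exp B ≤ Real.exp (2 * B ^ 2) := by
      rw [← Real.exp_add, Real.exp_le_exp]
      nlinarith
    nlinarith
  have h4 : Real.exp (4 * B ^ 2) = Real.exp (2 * B ^ 2) * Real.exp (2 * B ^ 2) := by
    rw [← Real.exp_add]
    congr 1
    ring
  have h5 := Real.exp_pos (2 * B ^ 2)
  unfold vv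
  split_ifs with hb h
  · rw [if_pos h] at h1
    rw [Int.cast_sub]
    refine (abs_sub _ _).trans ?_
    nlinarith
  · rw [if_neg h] at h1
    rw [Int.cast_sub]
    refine (abs_sub _ _).trans ?_
    nlinarith
  · simp [Real.exp_nonneg]

end

end Vale.Agent.P057T.Loc.R0
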