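import Vale.Agent.P057T.Loc.Rnd0
import Vale.Agent.P057T.Loc.Tb

/-! The dense data of a round. -/

set_option linter.all false

open Finset
open scoped BigOperators

namespace Vale.Agent.P057T.Loc.R0

open Vale.Agent.P057Z Vale.Agent.P057L Vale.Agent.P057T.Gkh Vale.Agent.P057T.Loc

noncomputable section

theorem two_pow_le {Y : ℝ} {k : ℕ} (h : (k : ℝ) ≤ Y) : (2 : ℝ) ^ k ≤ Real.exp Y := by
  have h2 : (2 : ℝ) ≤ Real.exp 1 := by linarith [Real.add_one_le_exp (1 : ℝ)]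
  calc (2 : ℝ) ^ k ≤ Real.exp 1 ^ k := pow_le_pow_left₀ (by norm_num) h2 k
    _ = Real.exp (k * 1) := (Real.exp_nat_mul _ _).symm
    _ ≤ Real.exp Y := Real.exp_le_exp.2 (by linarith)

theorem exp_small {Y : ℝ} (h : 20 ≤ Y) : Real.exp (-Y) ≤ 1 / 100 := by
  have h1 : (11 : ℝ) ≤ Real.exp 10 := by linarith [Real.add_one_le_exp (10 : ℝ)]
  have h2 : Real.exp 10 * Real.exp 10 ≤ Real.exp Y := by
    rw [← Real.exp_add]
    exact Real.exp_le_exp.2 (by linarith)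
  rw [Real.exp_neg, one_div]
  exact inv_anti₀ (by norm_num) (by nlinarith)

theorem dense (hD : DIF) (hP : POP) (hF : FIB1) (j : ℕ) : ∃ e : ℕ, 20 ≤ e ∧
    ∀ (Y : ℝ) (q N : ℕ) (ι : Type) [Fintype ι] (L : List (Cd (j + 1) q))
    (t : Finset (Fin j)) (F : ι → Pt (j + 1) q → ℝ) (g : ι → Fin (j + 1) → Pt (j + 1) q → ℝ)
    (S : Finset (Pt (j + 1) q)) (ε : ℝ) (R : ℕ) (T : Fin R → Finset (Fin j))
    (Ψ : Fin R → Pt j q → Fin q → ℝ) (A : Finset (Fin R)) (L0 : List (Cd j q))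
    (L1 : List (Cd (j + 1) q)) (θ : ι → Pt j q → Fin q → ℝ) (c : ι → Fin R → Pt j q → ℝ),
    Sz e Y q N → 0 ≤ ε → ε ≤ Real.exp (-Y ^ e) → In L (insert 0 (up t)) F g S N Y ε →
    St L T Ψ t F N Y ε A L0 L1 θ c →
    ∃ (b : Fin R → Fin R → ℤ) (n : ℕ) (X : Finset (Pt j q)), Dd X N (Y ^ e) ∧ 1 ≤ n ∧
      (n : ℝ) ≤ Real.exp (Y ^ e) ∧ (∀ s r, |(b s r : ℝ)| ≤ Real.exp (Y ^ e)) ∧ ∀ x ∈ X,
      (∀ s l, nz (∑ r, (b s r : ℝ) * (if r ∈ A then Ψ r x l else 0)) ≤ Real.exp (Y ^ e) / N) ∧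
      ∀ (v : Fin R → ℤ) (B : ℝ), 0 ≤ B → (∀ s, ∑ r, b s r * v r = 0) → (∀ r, |(v r : ℝ)| ≤ B) →
        ∀ a, nz (n * ∑ r, c a r x * (v r : ℝ)) ≤ Real.exp (Y ^ e) * ε * B := by
  classical
  obtain ⟨Cd', hd⟩ := hD (j + 1)
  obtain ⟨Cp, hp⟩ := hP j
  obtain ⟨Cf', hf⟩ := hF
  obtain ⟨e1, he1⟩ : ∃ e1, e1 = Cd' + 2 := ⟨_, rfl⟩
  obtain ⟨e2, he2⟩ : ∃ e2, e2 = e1 * Cp + e1 := ⟨_, rfl⟩
  obtain ⟨e3, he3⟩ : ∃ e3, e3 = e2 * Cf' + e2 := ⟨_, rfl⟩
  obtain ⟨e, he⟩ : ∃ e, e = e3 + 3 + (j + 20 + Cd' + Cp + Cf') := ⟨_, rfl⟩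
  refine ⟨e, by omega, ?_⟩
  intro Y q N ι _ L t F g S ε R T Ψ A L0 L1 θ c hz h0 hε hI hS
  have hY : (20 : ℝ) ≤ Y := le_trans (by exact_mod_cast (by omega : 20 ≤ e)) hz.C1
  have hY1 : (1 : ℝ) ≤ Y := by linarith
  have hj : ((j + 1 : ℕ) : ℝ) ≤ Y := le_trans (by exact_mod_cast (by omega : j + 1 ≤ e)) hz.C1
  have z0 : Sz Cd' Y q N := by
    simpa using sz_pw (C' := Cd') (e := 1) hz hY1 le_rfl (by omega) (by omega)
  obtain ⟨S', d1, hS'⟩ := hd Y q N ι L1 _ F g S ε z0 hS.l1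
    ⟨hS.t1, fun a => TbP.wk hS.sub (hI.top a), hI.ig, hI.dd, hI.sm⟩
  obtain ⟨X, d2, hX, hlab⟩ := hp (Y ^ e1) q N S'
    (sz_pw hz hY1 (by omega) (by omega) (by omega)) (dd_mono d1 (pw_le hY1 (by omega)))
  rw [← pow_mul] at d2 hX hlab
  have hB1 : Y ^ 2 ≤ Y ^ e3 := pw_le hY1 (by omega)
  have hB2 : Y ^ e3 * Y ^ 3 ≤ Y ^ e := by
    rw [← pow_add]
    exact pw_le hY1 (by omega)
  have hB3 : (Y ^ e2) ^ Cf' ≤ Y ^ e3 := by
    rw [← pow_mul]
    exact pw_le hY1 (by omega)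
  have hB4 : Y ^ (e1 * Cp) ≤ Y ^ e2 := pw_le hY1 (by omega)
  have hB5 : Y ^ e2 ≤ Y ^ e3 := pw_le hY1 (by omega)
  have hB6 : Y ≤ Y ^ e2 := le_pw hY1 (by omega)
  generalize hB : Y ^ e3 = B at *
  have hY2 : 20 * Y ≤ Y ^ 2 := by nlinarith
  have hY3 : 20 * Y ^ 2 ≤ Y ^ 3 := by nlinarith
  have hBe : 20 * (B * Y ^ 2) ≤ Y ^ e := by nlinarith
  have hBY : B ≤ B * Y ^ 2 := by nlinarith
  have hx : Real.exp (2 * Y) * Real.exp B ≤ Real.exp (Y ^ e) := by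
    rw [← Real.exp_add]
    exact Real.exp_le_exp.2 (by linarith)
  have hx1 : Real.exp B ≤ Real.exp (Y ^ e) := Real.exp_le_exp.2 (by linarith)
  have hx2 : Real.exp ((Y ^ e2) ^ Cf') ≤ Real.exp B := Real.exp_le_exp.2 hB3
  have key : ∀ x, ∃ (b : Fin R → Fin R → ℤ) (n : ℕ), x ∈ X → 1 ≤ n ∧
      (n : ℝ) ≤ Real.exp B ∧ (∀ s r, |(b s r : ℝ)| ≤ Real.exp B) ∧
      (∀ s l, nz (∑ r, (b s r : ℝ) * (if r ∈ A then Ψ r x l else 0)) ≤ Real.exp (Y ^ e) / N) ∧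
      ∀ (v : Fin R → ℤ) (B : ℝ), 0 ≤ B → (∀ s, ∑ r, b s r * v r = 0) → (∀ r, |(v r : ℝ)| ≤ B) →
        ∀ a, nz (n * ∑ r, c a r x * (v r : ℝ)) ≤ Real.exp (Y ^ e) * ε * B := by
    intro x
    by_cases hxX : x ∈ X
    swap
    · exact ⟨0, 0, fun h => absurd h hxX⟩
    obtain ⟨Z, hZ, hZS⟩ := hX x hxX
    have hdt : ∀ r (y : Vz q), dt (fun l => if r ∈ A then Ψ r x l else 0) y =
        if r ∈ A then dt (Ψ r x) y else 0 := by
      intro r y
      split_ifs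
      · rfl
      · simp [dt]
    obtain ⟨b, n, n1, n2, b1, b2, b3, -⟩ := hf (Y ^ e2) q N (Fin R) ι
      (fun r l => if r ∈ A then Ψ r x l else 0) Z (fun a => θ a x) (fun a r => c a r x)
      (Real.exp (2 * Y) * ε) (sz_pw hz hY1 (by omega) (by omega) (by omega))
      (by simpa using hS.rY.trans hB6)
      (fun y hy l => sh_head (d1.1 _ (hZS y hy)) l)
      (le_trans (mul_le_mul_of_nonneg_right (Real.exp_le_exp.2 (by linarith)) (by positivity)) hZ)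
      (fun y hy r => by
        rw [hdt]
        split_ifs
        · exact ((hS' _ (hZS y hy)).2.1 _ (hS.fbs r)).trans (exp_small hY)
        · simp [nz])
      (by positivity)
      (by
        refine (mul_le_mul_of_nonneg_left hε (Real.exp_nonneg _)).trans ?_
        rw [← Real.exp_add]
        exact Real.exp_le_exp.2 (by linarith))
      (fun y hy a => by
        obtain ⟨s1, s2, s3⟩ := hS' _ (hZS y hy)
        have e4 : dt (θ a x) y + ∑ r, c a r x *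
            (round (dt (fun l => if r ∈ A then Ψ r x l else 0) y) : ℝ) =
            F a (cn y x) - (F a (cn y x) - nf A Ψ (θ a) (c a) y x) := by
          rw [sub_sub_cancel, nf]
          congr 1
          rw [← sum_subset (subset_univ A) (fun r _ hr => by
            rw [hdt, if_neg hr, round_zero, Int.cast_zero, mul_zero])]
          exact sum_congr rfl fun r hr => by rw [hdt, if_pos hr]
        rw [e4]
        refine (nz_sub _ _).trans ?_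
        have a1 := s3 a
        have a2 := hS.eq y x s1 s2 a
        have a3 := two_pow_le hj
        have a4 : 2 * Real.exp Y ≤ Real.exp (2 * Y) := by
          rw [two_mul Y, Real.exp_add]
          nlinarith [Real.add_one_le_exp Y, Real.exp_pos Y]
        nlinarith)
    refine ⟨b, n, fun _ => ⟨n1, n2.trans hx2, fun s r => (b1 s r).trans hx2, fun s l =>
      (b2 s l).trans (div_le_div_of_nonneg_right (hx2.trans hx1) (Nat.cast_nonneg _)),
      fun v B' hB' h1 h2 a => (b3 v B' hB' h1 h2 a).trans ?_⟩⟩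
    refine mul_le_mul_of_nonneg_right ?_ hB'
    rw [← mul_assoc]
    refine mul_le_mul_of_nonneg_right ?_ h0
    refine le_trans ?_ hx
    rw [mul_comm]
    exact mul_le_mul_of_nonneg_left hx2 (Real.exp_nonneg _)
  choose bb nn hk using key
  obtain ⟨lb, X1, sub, d3, hl⟩ := hlab ((Fin R × Fin R) ⊕ Unit) B
    (fun x => Sum.elim (fun p => bb x p.1 p.2) fun _ => (nn x : ℤ)) (by nlinarith)
    (fun x hx s => by
      obtain ⟨-, n2, b1, -⟩ := hk x hx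
      rcases s with p | _
      · exact b1 _ _
      · simpa using n2)
  have d4 : Dd X1 N (Y ^ e) := by
    refine dd_mono d3 ?_
    have a1 : (Fintype.card ((Fin R × Fin R) ⊕ Unit) : ℝ) = (R : ℝ) * R + 1 := by simp
    have a2 : (R : ℝ) * R ≤ Y ^ 2 := by
      have := hS.rY
      have : (0 : ℝ) ≤ R := Nat.cast_nonneg _
      nlinarith
    rw [a1]
    have a3 : (0 : ℝ) ≤ B := by nlinarith
    nlinarith
  by_cases hne : X1.Nonempty
  · obtain ⟨x0, hx0⟩ := hne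
    have eb : ∀ x ∈ X1, bb x = bb x0 ∧ nn x = nn x0 := by
      intro x hx
      have a := (hl x hx).trans (hl x0 hx0).symm
      refine ⟨funext fun s => funext fun r => congrFun a (Sum.inl (s, r)), ?_⟩
      have := congrFun a (Sum.inr ())
      simpa using this
    obtain ⟨n1, n2, b1, -⟩ := hk x0 (sub hx0)
    refine ⟨bb x0, nn x0, X1, d4, n1, n2.trans hx1, fun s r => (b1 s r).trans hx1, fun x hx => ?_⟩
    obtain ⟨-, -, -, b2⟩ := hk x (sub hx)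
    rw [← (eb x hx).1, ← (eb x hx).2]
    exact b2
  · refine ⟨0, 1, X1, d4, le_rfl, ?_, fun s r => by simp [Real.exp_nonneg],
      fun x hx => absurd ⟨x, hx⟩ hne⟩
    simpa using Real.one_le_exp (by positivity : (0 : ℝ) ≤ Y ^ e)

end

end Vale.Agent.P057T.Loc.R0
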